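import Mathlib

/-!
Row 94 (S0124), helper478.  The "opening" functional
`Env ρ f x = sup_y ( inf_a (f a + |a-y|²/2ρ) - |x-y|²/2ρ )` in a finite dimensional real inner
product space, its contact measures, bounds and continuity.
-/

set_option autoImplicit false
set_option linter.dupNamespace false
set_option linter.unusedSectionVars false

namespace Crest.Agent.R094.Env

open Set Filter Topology

variable {V : Type*} [NormedAddCommGroup V] [InnerProductSpace ℝ V]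

/-- Subquadratic growth. -/
def SubQ (f : V → ℝ) : Prop := ∀ ε : ℝ, 0 < ε → ∃ C : ℝ, ∀ a, |f a| ≤ ε * ‖a‖ ^ 2 + C

/-- Inf-convolution with `|.|²/2ρ`. -/
noncomputable def Qi (ρ : ℝ) (f : V → ℝ) (y : V) : ℝ := ⨅ a, (f a + ‖a - y‖ ^ 2 / (2 * ρ))

/-- Opening of `f` with paraboloids of opening `1/ρ`. -/
noncomputable def Env (ρ : ℝ) (f : V → ℝ) (x : V) : ℝ :=
  ⨆ y, (Qi ρ f y - ‖x - y‖ ^ 2 / (2 * ρ))

/-- The key lower bound: with `ε ≤ 1/(8ρ)` the penalised function is coercive. -/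
lemma coercive_bound {f : V → ℝ} {ρ C : ℝ} (hρ : 0 < ρ)
    (hf : ∀ a, |f a| ≤ 1 / (8 * ρ) * ‖a‖ ^ 2 + C) (a y : V) :
    ‖a - y‖ ^ 2 / (4 * ρ) - ‖y‖ ^ 2 / (4 * ρ) - C ≤ f a + ‖a - y‖ ^ 2 / (2 * ρ) := by
  have h1 := (abs_le.1 (hf a)).1
  have h2 : ‖a‖ ^ 2 ≤ 2 * ‖a - y‖ ^ 2 + 2 * ‖y‖ ^ 2 := by
    have h3 : ‖a‖ ≤ ‖a - y‖ + ‖y‖ := by
      have := norm_add_le (a - y) y
      simpa using this
    nlinarith [norm_nonneg a, norm_nonneg (a - y), norm_nonneg y, sq_nonneg (‖a - y‖ - ‖y‖)]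
  have h4 : 1 / (8 * ρ) * ‖a‖ ^ 2 ≤ 1 / (8 * ρ) * (2 * ‖a - y‖ ^ 2 + 2 * ‖y‖ ^ 2) := by
    gcongr
  have h5 : 1 / (8 * ρ) * (2 * ‖a - y‖ ^ 2 + 2 * ‖y‖ ^ 2)
      = ‖a - y‖ ^ 2 / (4 * ρ) + ‖y‖ ^ 2 / (4 * ρ) := by
    field_simp; ring
  have h6 : ‖a - y‖ ^ 2 / (2 * ρ) = ‖a - y‖ ^ 2 / (4 * ρ) + ‖a - y‖ ^ 2 / (4 * ρ) := by
    field_simp; ring
  linarith

lemma SubQ.bound {f : V → ℝ} (hf : SubQ f) {ρ : ℝ} (hρ : 0 < ρ) :
    ∃ C : ℝ, 0 ≤ C ∧ ∀ a, |f a| ≤ 1 / (8 * ρ) * ‖a‖ ^ 2 + C := by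
  obtain ⟨C, hC⟩ := hf (1 / (8 * ρ)) (by positivity)
  exact ⟨max C 0, le_max_right _ _, fun a => (hC a).trans (by gcongr; exact le_max_left _ _)⟩

lemma SubQ.neg {f : V → ℝ} (hf : SubQ f) : SubQ (fun a => - f a) := by
  intro ε hε
  obtain ⟨C, hC⟩ := hf ε hε
  exact ⟨C, fun a => by rw [abs_neg]; exact hC a⟩

lemma SubQ.add {f g : V → ℝ} (hf : SubQ f) (hg : SubQ g) : SubQ (fun a => f a + g a) := by
  intro ε hε
  obtain ⟨C, hC⟩ := hf (ε / 2) (by positivity)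
  obtain ⟨C', hC'⟩ := hg (ε / 2) (by positivity)
  refine ⟨C + C', fun a => (abs_add_le _ _).trans ?_⟩
  have := hC a
  have := hC' a
  linarith

lemma subQ_affine (p : V) (c : ℝ) : SubQ (fun a => inner ℝ p a + c) := by
  intro ε hε
  refine ⟨‖p‖ ^ 2 / (4 * ε) + |c|, fun a => ?_⟩
  have h1 : |inner ℝ p a + c| ≤ ‖p‖ * ‖a‖ + |c| :=
    (abs_add_le _ _).trans (by gcongr; exact abs_real_inner_le_norm p a)
  have h2 : ‖p‖ * ‖a‖ ≤ ε * ‖a‖ ^ 2 + ‖p‖ ^ 2 / (4 * ε) := by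
    have h3 : 0 ≤ (2 * ε * ‖a‖ - ‖p‖) ^ 2 / (4 * ε) := by positivity
    have h4 : (2 * ε * ‖a‖ - ‖p‖) ^ 2 / (4 * ε) = ε * ‖a‖ ^ 2 - ‖p‖ * ‖a‖ + ‖p‖ ^ 2 / (4 * ε) := by
      field_simp; ring
    linarith
  linarith

lemma SubQ.comp_add {f : V → ℝ} (hf : SubQ f) (b : V) : SubQ (fun a => f (a + b)) := by
  intro ε hε
  obtain ⟨C, hC⟩ := hf (ε / 2) (by positivity)
  refine ⟨C + ε * ‖b‖ ^ 2, fun a => (hC _).trans ?_⟩
  have h3 : ‖a + b‖ ≤ ‖a‖ + ‖b‖ := norm_add_le a b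
  have h4 : ‖a + b‖ ^ 2 ≤ 2 * ‖a‖ ^ 2 + 2 * ‖b‖ ^ 2 := by
    nlinarith [norm_nonneg a, norm_nonneg (a + b), norm_nonneg b, sq_nonneg (‖a‖ - ‖b‖)]
  nlinarith

/-- The penalised function is bounded below. -/
lemma bddBelow_pen {f : V → ℝ} (hf : SubQ f) {ρ : ℝ} (hρ : 0 < ρ) (y : V) :
    BddBelow (range fun a => f a + ‖a - y‖ ^ 2 / (2 * ρ)) := by
  obtain ⟨C, -, hC⟩ := hf.bound hρ
  refine ⟨- ‖y‖ ^ 2 / (4 * ρ) - C, ?_⟩
  rintro _ ⟨a, rfl⟩
  have := coercive_bound hρ hC a y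
  have h2 : 0 ≤ ‖a - y‖ ^ 2 / (4 * ρ) := by positivity
  have h3 : - ‖y‖ ^ 2 / (4 * ρ) = - (‖y‖ ^ 2 / (4 * ρ)) := by ring
  show _ ≤ f a + ‖a - y‖ ^ 2 / (2 * ρ)
  linarith

lemma Qi_le {f : V → ℝ} (hf : SubQ f) {ρ : ℝ} (hρ : 0 < ρ) (y a : V) :
    Qi ρ f y ≤ f a + ‖a - y‖ ^ 2 / (2 * ρ) :=
  ciInf_le (bddBelow_pen hf hρ y) a

lemma le_Qi {f : V → ℝ} {ρ : ℝ} {y : V} {c : ℝ}
    (h : ∀ a, c ≤ f a + ‖a - y‖ ^ 2 / (2 * ρ)) : c ≤ Qi ρ f y :=
  le_ciInf h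


/-- `inf` attained. -/
lemma exists_Qi_eq [FiniteDimensional ℝ V] {f : V → ℝ} (hfc : Continuous f) (hf : SubQ f)
    {ρ : ℝ} (hρ : 0 < ρ) (y : V) :
    ∃ a, f a + ‖a - y‖ ^ 2 / (2 * ρ) = Qi ρ f y ∧
      ∀ b, f a + ‖a - y‖ ^ 2 / (2 * ρ) ≤ f b + ‖b - y‖ ^ 2 / (2 * ρ) := by
  obtain ⟨C, -, hC⟩ := hf.bound hρ
  have hcont : Continuous fun a => f a + ‖a - y‖ ^ 2 / (2 * ρ) := by fun_prop
  have htend : Tendsto (fun a => f a + ‖a - y‖ ^ 2 / (2 * ρ)) (cocompact V) atTop := by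
    refine tendsto_atTop_mono (fun a => coercive_bound hρ hC a y) ?_
    have h1 : Tendsto (fun a : V => ‖a - y‖) (cocompact V) atTop := by
      have h2 : Tendsto (fun a : V => ‖a‖ - ‖y‖) (cocompact V) atTop :=
        tendsto_atTop_add_const_right _ (-‖y‖) (tendsto_norm_cocompact_atTop (E := V)) |>.congr
          (fun a => by ring)
      refine tendsto_atTop_mono (fun a => ?_) h2
      exact norm_sub_norm_le a y
    have h3 : Tendsto (fun a : V => ‖a - y‖ ^ 2 / (4 * ρ)) (cocompact V) atTop := by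
      refine Tendsto.atTop_div_const (by positivity) ?_
      exact (tendsto_pow_atTop (two_ne_zero)).comp h1
    exact (tendsto_atTop_add_const_right _ (-(‖y‖ ^ 2 / (4 * ρ) + C)) h3).congr
      (fun a => by ring)
  obtain ⟨a, ha⟩ := hcont.exists_forall_le htend
  exact ⟨a, le_antisymm (le_Qi ha) (Qi_le hf hρ y a), ha⟩

/-- Formula used everywhere: completing the square. -/
lemma pen_sub (a x y : V) (ρ : ℝ) :
    ‖a - y‖ ^ 2 / (2 * ρ) - ‖x - y‖ ^ 2 / (2 * ρ)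
      = (‖a - x‖ ^ 2 + 2 * inner ℝ (a - x) (x - y)) / (2 * ρ) := by
  have h : a - y = (a - x) + (x - y) := by abel
  rw [h, norm_add_sq_real]
  ring

lemma bddAbove_env {f : V → ℝ} (hf : SubQ f) {ρ : ℝ} (hρ : 0 < ρ) (x : V) :
    BddAbove (range fun y => Qi ρ f y - ‖x - y‖ ^ 2 / (2 * ρ)) := by
  refine ⟨f x, ?_⟩
  rintro _ ⟨y, rfl⟩
  have := Qi_le hf hρ y x
  show Qi ρ f y - ‖x - y‖ ^ 2 / (2 * ρ) ≤ f x
  linarith

lemma le_Env {f : V → ℝ} (hf : SubQ f) {ρ : ℝ} (hρ : 0 < ρ) (x y : V) :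
    Qi ρ f y - ‖x - y‖ ^ 2 / (2 * ρ) ≤ Env ρ f x :=
  le_ciSup (bddAbove_env hf hρ x) y

lemma Env_le {f : V → ℝ} {ρ : ℝ} {x : V} {c : ℝ}
    (h : ∀ y, Qi ρ f y - ‖x - y‖ ^ 2 / (2 * ρ) ≤ c) : Env ρ f x ≤ c :=
  ciSup_le h

lemma Env_le_self {f : V → ℝ} (hf : SubQ f) {ρ : ℝ} (hρ : 0 < ρ) (x : V) :
    Env ρ f x ≤ f x := by
  refine Env_le fun y => ?_
  have := Qi_le hf hρ y x
  linarith


/-- barycentre identity -/
lemma bary_identity {ι : Type*} [Fintype ι] {θ : ι → ℝ} {a : ι → V} {x : V}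
    (h1 : ∑ i, θ i = 1) (hx : ∑ i, θ i • a i = x) (y : V) :
    ∑ i, θ i * ‖a i - y‖ ^ 2 = ∑ i, θ i * ‖a i - x‖ ^ 2 + ‖x - y‖ ^ 2 := by
  have h0 : ∑ i, θ i • (a i - x) = 0 := by
    simp only [smul_sub, Finset.sum_sub_distrib, ← Finset.sum_smul, h1, hx, one_smul, sub_self]
  have h2 : ∀ i, θ i * ‖a i - y‖ ^ 2
      = θ i * ‖a i - x‖ ^ 2 + 2 * inner ℝ (θ i • (a i - x)) (x - y) + θ i * ‖x - y‖ ^ 2 := by
    intro i
    have h : a i - y = (a i - x) + (x - y) := by abel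
    rw [h, norm_add_sq_real, real_inner_smul_left]
    ring
  simp_rw [h2, Finset.sum_add_distrib, ← Finset.mul_sum, ← sum_inner, h0, inner_zero_left,
    ← Finset.sum_mul, h1]
  ring

/-- (ii) upper bound of `Env` by finite measures with barycentre `x`. -/
lemma Env_le_sum {f : V → ℝ} (hf : SubQ f) {ρ : ℝ} (hρ : 0 < ρ) {x : V}
    {ι : Type*} [Fintype ι] {θ : ι → ℝ} {a : ι → V} (h0 : ∀ i, 0 ≤ θ i)
    (h1 : ∑ i, θ i = 1) (hx : ∑ i, θ i • a i = x) :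
    Env ρ f x ≤ ∑ i, θ i * (f (a i) + ‖a i - x‖ ^ 2 / (2 * ρ)) := by
  refine Env_le fun y => ?_
  have h2 : Qi ρ f y ≤ ∑ i, θ i * (f (a i) + ‖a i - y‖ ^ 2 / (2 * ρ)) := by
    calc Qi ρ f y = ∑ i, θ i * Qi ρ f y := by rw [← Finset.sum_mul, h1, one_mul]
      _ ≤ _ := Finset.sum_le_sum fun i _ => mul_le_mul_of_nonneg_left (Qi_le hf hρ y _) (h0 i)
  have h3 := bary_identity h1 hx y
  have h4 : ∀ z : V, ∑ i, θ i * (f (a i) + ‖a i - z‖ ^ 2 / (2 * ρ))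
      = ∑ i, θ i * f (a i) + (∑ i, θ i * ‖a i - z‖ ^ 2) / (2 * ρ) := by
    intro z
    rw [Finset.sum_div, ← Finset.sum_add_distrib]
    exact Finset.sum_congr rfl fun i _ => by ring
  rw [h4] at h2 ⊢
  rw [h3, add_div] at h2
  linarith

/-- The function whose supremum is `Env` is coercive. -/
lemma env_fun_le {f : V → ℝ} (hf : SubQ f) {ρ : ℝ} (hρ : 0 < ρ) {x y : V} {δ M : ℝ} (hδ : 0 ≤ δ)
    (hM : ∀ a, ‖a - x‖ ≤ δ → f a ≤ M) :
    Qi ρ f y - ‖x - y‖ ^ 2 / (2 * ρ) ≤ M + (δ ^ 2 - 2 * δ * ‖x - y‖) / (2 * ρ) := by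
  rcases eq_or_ne x y with rfl | hxy
  · have h1 := Qi_le hf hρ x x
    have h2 := hM x (by simpa using hδ)
    have h3 : 0 ≤ (δ ^ 2 - 2 * δ * ‖x - x‖) / (2 * ρ) := by
      simp only [sub_self, norm_zero, mul_zero, sub_zero]
      positivity
    simp only [sub_self, norm_zero, mul_zero, sub_zero, ne_eq, OfNat.ofNat_ne_zero,
      not_false_eq_true, zero_pow, zero_div, add_zero] at *
    linarith
  · set n : ℝ := ‖x - y‖ with hn
    have hn0 : 0 < n := norm_pos_iff.2 (sub_ne_zero.2 hxy)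
    set a : V := x - (δ / n) • (x - y) with ha
    have hax : a - x = - ((δ / n) • (x - y)) := by rw [ha]; abel
    have hnorm : ‖a - x‖ = δ := by
      rw [hax, norm_neg, norm_smul, Real.norm_eq_abs, abs_of_nonneg (by positivity), ← hn]
      field_simp
    have h1 := Qi_le hf hρ y a
    have h2 := hM a hnorm.le
    have h3 := pen_sub a x y ρ
    have h4 : inner ℝ (a - x) (x - y) = - δ * n := by
      rw [hax, inner_neg_left, real_inner_smul_left, real_inner_self_eq_norm_sq, ← hn]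
      field_simp
    rw [hnorm, h4, ← hn] at h3
    have h5 : (δ ^ 2 + 2 * (-δ * n)) / (2 * ρ) = (δ ^ 2 - 2 * δ * n) / (2 * ρ) := by ring
    rw [h5] at h3
    linarith

/-- Hypotheses for convergence of the functionals along a filter. -/
structure Conv {α : Type*} (l : Filter α) (F : α → V → ℝ) (f : V → ℝ) : Prop where
  unif : ∀ R ε : ℝ, 0 < ε → ∀ᶠ j in l, ∀ a, ‖a‖ ≤ R → |F j a - f a| < ε
  subq : ∀ᶠ j in l, SubQ (F j)
  grow : ∀ ε : ℝ, 0 < ε → ∃ C : ℝ, ∀ᶠ j in l, ∀ a, |F j a| ≤ ε * ‖a‖ ^ 2 + C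
  cont : Continuous f
  lim : SubQ f

lemma Conv.const {f : V → ℝ} (hfc : Continuous f) (hf : SubQ f) {α : Type*} (l : Filter α) :
    Conv l (fun _ => f) f where
  unif := fun R ε hε => Eventually.of_forall fun j a _ => by simpa using hε
  subq := Eventually.of_forall fun _ => hf
  grow := fun ε hε => by
    obtain ⟨C, hC⟩ := hf ε hε
    exact ⟨C, Eventually.of_forall fun _ => hC⟩
  cont := hfc
  lim := hf

lemma Conv.tendsto_apply {α : Type*} {l : Filter α} {F : α → V → ℝ} {f : V → ℝ}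
    (h : Conv l F f) {z : α → V} {z0 : V} (hz : Tendsto z l (𝓝 z0)) :
    Tendsto (fun j => F j (z j)) l (𝓝 (f z0)) := by
  rw [Metric.tendsto_nhds]
  intro ε hε
  have h1 : Tendsto (fun j => f (z j)) l (𝓝 (f z0)) := (h.cont.tendsto z0).comp hz
  have h2 : ∀ᶠ j in l, ‖z j‖ ≤ ‖z0‖ + 1 := by
    have := (continuous_norm.tendsto z0).comp hz
    exact (this.eventually (Iio_mem_nhds (show ‖z0‖ < ‖z0‖ + 1 by linarith))).mono
      fun j hj => le_of_lt hj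
  filter_upwards [h.unif (‖z0‖ + 1) (ε / 2) (by positivity), h2,
    (Metric.tendsto_nhds.1 h1) (ε / 2) (by positivity)] with j hj1 hj2 hj3
  have h4 := hj1 (z j) hj2
  rw [Real.dist_eq] at hj3 ⊢
  calc |F j (z j) - f z0| = |(F j (z j) - f (z j)) + (f (z j) - f z0)| := by ring_nf
    _ ≤ |F j (z j) - f (z j)| + |f (z j) - f z0| := abs_add_le _ _
    _ < ε / 2 + ε / 2 := add_lt_add h4 hj3
    _ = ε := by ring

lemma pen_unif {R : ℝ} {α : Type*} {l : Filter α}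
    {r : α → ℝ} {ρ : ℝ} (hρ : 0 < ρ) (hr : Tendsto r l (𝓝 ρ))
    {y : α → V} {y0 : V} (hy : Tendsto y l (𝓝 y0)) {ε : ℝ} (hε : 0 < ε) :
    ∀ᶠ j in l, ∀ a : V, ‖a‖ ≤ R →
      |‖a - y j‖ ^ 2 / (2 * r j) - ‖a - y0‖ ^ 2 / (2 * ρ)| < ε := by
  have hrpos : ∀ᶠ j in l, ρ / 2 < r j := hr.eventually (Ioi_mem_nhds (by linarith))
  have hB : Tendsto (fun j => ‖y j - y0‖ * (2 * |R| + ‖y j‖ + ‖y0‖) / (2 * r j)
      + (|R| + ‖y0‖) ^ 2 * |1 / (2 * r j) - 1 / (2 * ρ)|) l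
      (𝓝 (‖y0 - y0‖ * (2 * |R| + ‖y0‖ + ‖y0‖) / (2 * ρ)
      + (|R| + ‖y0‖) ^ 2 * |1 / (2 * ρ) - 1 / (2 * ρ)|)) := by
    have hr2 : Tendsto (fun j => 2 * r j) l (𝓝 (2 * ρ)) := hr.const_mul 2
    have hne : (2 * ρ) ≠ 0 := by positivity
    refine Tendsto.add ?_ ?_
    · refine Tendsto.div (Tendsto.mul ?_ ?_) hr2 hne
      · exact (hy.sub_const y0).norm
      · exact (tendsto_const_nhds.add hy.norm).add tendsto_const_nhds
    · refine Tendsto.mul tendsto_const_nhds ?_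
      exact ((tendsto_const_nhds.div hr2 hne).sub tendsto_const_nhds).abs
  have h0 : ‖y0 - y0‖ * (2 * |R| + ‖y0‖ + ‖y0‖) / (2 * ρ)
      + (|R| + ‖y0‖) ^ 2 * |1 / (2 * ρ) - 1 / (2 * ρ)| = 0 := by simp
  rw [h0] at hB
  filter_upwards [hrpos, hB.eventually (Iio_mem_nhds hε)] with j hj1 hj2 a ha
  have hrj : 0 < r j := by linarith
  refine lt_of_le_of_lt ?_ hj2
  have e1 : ‖a - y j‖ ^ 2 / (2 * r j) - ‖a - y0‖ ^ 2 / (2 * ρ)
      = (‖a - y j‖ ^ 2 - ‖a - y0‖ ^ 2) / (2 * r j)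
        + ‖a - y0‖ ^ 2 * (1 / (2 * r j) - 1 / (2 * ρ)) := by
    field_simp; ring
  rw [e1]
  refine (abs_add_le _ _).trans (add_le_add ?_ ?_)
  · rw [abs_div, abs_of_pos (show 0 < 2 * r j by positivity)]
    refine div_le_div_of_nonneg_right ?_ (by positivity)
    have e2 : ‖a - y j‖ ^ 2 - ‖a - y0‖ ^ 2
        = (‖a - y j‖ - ‖a - y0‖) * (‖a - y j‖ + ‖a - y0‖) := by ring
    rw [e2, abs_mul]
    refine mul_le_mul ?_ ?_ (abs_nonneg _) (norm_nonneg _)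
    · refine (abs_norm_sub_norm_le _ _).trans ?_
      have : a - y j - (a - y0) = - (y j - y0) := by abel
      rw [this, norm_neg]
    · rw [abs_of_nonneg (by positivity)]
      have := norm_sub_le a (y j)
      have := norm_sub_le a y0
      have := le_abs_self R
      linarith
  · rw [abs_mul, abs_of_nonneg (show 0 ≤ ‖a - y0‖ ^ 2 by positivity)]
    refine mul_le_mul_of_nonneg_right ?_ (abs_nonneg _)
    have h3 : ‖a - y0‖ ≤ |R| + ‖y0‖ := by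
      have := norm_sub_le a y0
      have := le_abs_self R
      linarith
    exact pow_le_pow_left₀ (norm_nonneg _) h3 2

theorem tendsto_Qi [FiniteDimensional ℝ V] {α : Type*} {l : Filter α} {F : α → V → ℝ} {f : V → ℝ}
    (h : Conv l F f) {r : α → ℝ} {ρ : ℝ} (hρ : 0 < ρ) (hr : Tendsto r l (𝓝 ρ))
    {y : α → V} {y0 : V} (hy : Tendsto y l (𝓝 y0)) :
    Tendsto (fun j => Qi (r j) (F j) (y j)) l (𝓝 (Qi ρ f y0)) := by
  rw [Metric.tendsto_nhds]
  intro ε hε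
  have hrpos : ∀ᶠ j in l, ρ / 2 < r j := hr.eventually (Ioi_mem_nhds (by linarith))
  have hrpos2 : ∀ᶠ j in l, r j < 2 * ρ := hr.eventually (Iio_mem_nhds (by linarith))
  have hybd : ∀ᶠ j in l, ‖y j‖ ≤ ‖y0‖ + 1 := by
    have := (continuous_norm.tendsto y0).comp hy
    exact (this.eventually (Iio_mem_nhds (show ‖y0‖ < ‖y0‖ + 1 by linarith))).mono
      fun j hj => le_of_lt hj
  -- upper bound
  obtain ⟨a0, ha0, -⟩ := exists_Qi_eq h.cont h.lim hρ y0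
  have hup : ∀ᶠ j in l, Qi (r j) (F j) (y j) < Qi ρ f y0 + ε := by
    have h1 : Tendsto (fun j => F j a0 + ‖a0 - y j‖ ^ 2 / (2 * r j)) l
        (𝓝 (f a0 + ‖a0 - y0‖ ^ 2 / (2 * ρ))) := by
      refine (h.tendsto_apply tendsto_const_nhds).add ?_
      exact Tendsto.div ((tendsto_const_nhds.sub hy).norm.pow 2) (hr.const_mul 2) (by positivity)
    rw [ha0] at h1
    filter_upwards [h1.eventually (Iio_mem_nhds (show Qi ρ f y0 < Qi ρ f y0 + ε by linarith)),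
      hrpos, h.subq] with j hj1 hj2 hj3
    exact (Qi_le hj3 (by linarith) (y j) a0).trans_lt hj1
  -- lower bound
  obtain ⟨C, hC⟩ := h.grow (1 / (16 * ρ)) (by positivity)
  set K : ℝ := |Qi ρ f y0| + C + (‖y0‖ + 1) ^ 2 / (4 * ρ) with hK
  set R : ℝ := 16 * ρ * |K| + 1 with hR
  have hR1 : 1 ≤ R := by
    have : 0 ≤ 16 * ρ * |K| := by positivity
    linarith
  have hlow : ∀ᶠ j in l, Qi ρ f y0 - ε < Qi (r j) (F j) (y j) := by
    filter_upwards [hrpos, hrpos2, hybd, hC, h.unif R (ε / 4) (by positivity),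
      pen_unif (R := R) hρ hr hy (show 0 < ε / 4 by positivity)] with j h1 h2 h3 h4 h5 h6
    have hrj : 0 < r j := by linarith
    refine lt_of_lt_of_le (show Qi ρ f y0 - ε < Qi ρ f y0 - ε / 2 by linarith) (le_Qi fun a => ?_)
    rcases le_or_gt ‖a‖ R with haR | haR
    · have e1 := (abs_lt.1 (h5 a haR)).1
      have e2 := (abs_lt.1 (h6 a haR)).1
      have e3 := Qi_le h.lim hρ y0 a
      linarith
    · have e1 := (abs_le.1 (h4 a)).1
      have e2 : ‖a‖ ^ 2 ≤ 2 * ‖a - y j‖ ^ 2 + 2 * (‖y0‖ + 1) ^ 2 := by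
        have h7 : ‖a‖ ≤ ‖a - y j‖ + ‖y j‖ := by
          have := norm_add_le (a - y j) (y j)
          simpa using this
        nlinarith [norm_nonneg a, norm_nonneg (a - y j), norm_nonneg (y j), norm_nonneg y0,
          sq_nonneg (‖a - y j‖ - ‖y j‖), sq_nonneg (‖a - y j‖ - (‖y0‖ + 1))]
      have e3 : ‖a - y j‖ ^ 2 / (4 * ρ) ≤ ‖a - y j‖ ^ 2 / (2 * r j) :=
        div_le_div_of_nonneg_left (by positivity) (by positivity) (by linarith)
      have e4 : ‖a‖ ^ 2 / (8 * ρ) - (‖y0‖ + 1) ^ 2 / (4 * ρ) ≤ ‖a - y j‖ ^ 2 / (4 * ρ) := by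
        rw [div_sub_div _ _ (by positivity) (by positivity), div_le_div_iff₀ (by positivity)
          (by positivity)]
        have : 0 < ρ * ρ := by positivity
        nlinarith
      have e5 : R ≤ ‖a‖ ^ 2 := by nlinarith
      have e6 : |K| ≤ ‖a‖ ^ 2 / (16 * ρ) := by
        rw [le_div_iff₀ (by positivity)]
        linarith
      have e7 : ‖a‖ ^ 2 / (8 * ρ) = ‖a‖ ^ 2 / (16 * ρ) + 1 / (16 * ρ) * ‖a‖ ^ 2 := by
        field_simp; ring
      have e8 := le_abs_self K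
      have e9 := le_abs_self (Qi ρ f y0)
      linarith
  filter_upwards [hup, hlow] with j h1 h2
  rw [Real.dist_eq, abs_lt]
  constructor <;> linarith

lemma continuous_Qi [FiniteDimensional ℝ V] {f : V → ℝ} (hfc : Continuous f) (hf : SubQ f)
    {ρ : ℝ} (hρ : 0 < ρ) : Continuous (Qi ρ f) :=
  continuous_iff_continuousAt.2 fun _ =>
    tendsto_Qi (Conv.const hfc hf _) hρ tendsto_const_nhds tendsto_id

/-- `Env` attained at some `y`. -/
lemma exists_Env_eq [FiniteDimensional ℝ V] {f : V → ℝ} (hfc : Continuous f) (hf : SubQ f)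
    {ρ : ℝ} (hρ : 0 < ρ) (x : V) :
    ∃ y, Env ρ f x = Qi ρ f y - ‖x - y‖ ^ 2 / (2 * ρ) := by
  obtain ⟨M, hM⟩ : ∃ M, ∀ a, ‖a - x‖ ≤ 1 → f a ≤ M := by
    obtain ⟨M, hM⟩ := (isCompact_closedBall x 1).bddAbove_image hfc.continuousOn
    exact ⟨M, fun a ha => hM (mem_image_of_mem _ (by simpa [dist_eq_norm] using ha))⟩
  have hcont : Continuous fun y => Qi ρ f y - ‖x - y‖ ^ 2 / (2 * ρ) := by
    have := continuous_Qi hfc hf hρ
    fun_prop
  have htend : Tendsto (fun y => Qi ρ f y - ‖x - y‖ ^ 2 / (2 * ρ)) (cocompact V) atBot := by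
    refine tendsto_atBot_mono (fun y => env_fun_le hf hρ zero_le_one hM) ?_
    have h1 : Tendsto (fun a : V => ‖x - a‖) (cocompact V) atTop := by
      have h2 : Tendsto (fun a : V => ‖a‖ - ‖x‖) (cocompact V) atTop :=
        tendsto_atTop_add_const_right _ (-‖x‖) (tendsto_norm_cocompact_atTop (E := V)) |>.congr
          (fun a => by ring)
      refine tendsto_atTop_mono (fun a => ?_) h2
      rw [norm_sub_rev]
      exact norm_sub_norm_le a x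
    have h3 : Tendsto (fun a : V => ‖x - a‖ * (-(1 / ρ))) (cocompact V) atBot := by
      refine h1.atTop_mul_const_of_neg ?_
      have : 0 < 1 / ρ := by positivity
      linarith
    refine (tendsto_atBot_add_const_right _ (M + 1 / (2 * ρ)) h3).congr fun y => ?_
    field_simp
    ring
  obtain ⟨y, hy⟩ := hcont.exists_forall_ge htend
  exact ⟨y, le_antisymm (Env_le hy) (le_Env hf hρ x y)⟩

/-- The convex hull of a compact set in finite dimension is compact. -/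
lemma isCompact_convexHull_of_isCompact [FiniteDimensional ℝ V] {A : Set V} (hA : IsCompact A) :
    IsCompact (convexHull ℝ A) := by
  set n := Module.finrank ℝ V + 1 with hn
  have key : convexHull ℝ A = ⋃ k ∈ Finset.range (n + 1),
      (fun p : (Fin k → ℝ) × (Fin k → V) => ∑ i, p.1 i • p.2 i) ''
        (stdSimplex ℝ (Fin k) ×ˢ (Set.univ.pi fun _ => A)) := by
    apply Set.Subset.antisymm
    · intro x hx
      obtain ⟨ι, hι, z, w, hz, hai, hw, hw1, hx⟩ := eq_pos_convex_span_of_mem_convexHull hx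
      have hcard : Fintype.card ι ≤ n := by
        refine hai.card_le_finrank_succ.trans ?_
        have := Submodule.finrank_le (vectorSpan ℝ (Set.range z))
        omega
      set e := Fintype.equivFin ι with he
      simp only [Set.mem_iUnion, Finset.mem_range]
      refine ⟨Fintype.card ι, by omega, ⟨fun i => w (e.symm i), fun i => z (e.symm i)⟩, ?_, ?_⟩
      · refine ⟨⟨fun i => (hw _).le, ?_⟩, fun i _ => hz ⟨_, rfl⟩⟩
        show ∑ i, w (e.symm i) = 1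
        rw [← hw1]
        exact e.symm.sum_comp w
      · show ∑ i, w (e.symm i) • z (e.symm i) = x
        rw [← hx]
        exact e.symm.sum_comp (fun i => w i • z i)
    · intro x hx
      simp only [Set.mem_iUnion] at hx
      obtain ⟨k, -, ⟨w, z⟩, ⟨hw, hz⟩, rfl⟩ := hx
      exact mem_convexHull_iff_exists_fintype.2
        ⟨Fin k, inferInstance, w, z, hw.1, hw.2, fun i => hz i (Set.mem_univ _), rfl⟩
  rw [key]
  refine (Finset.range (n + 1)).isCompact_biUnion fun k _ => ?_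
  refine IsCompact.image ((isCompact_stdSimplex (𝕜 := ℝ) (ι := Fin k)).prod (isCompact_univ_pi fun _ => hA)) ?_
  fun_prop

/-- (iii) existence of a contact point `y` and a contact measure. -/
theorem exists_contact [FiniteDimensional ℝ V] {f : V → ℝ} (hfc : Continuous f) (hf : SubQ f)
    {ρ : ℝ} (hρ : 0 < ρ) (x : V) :
    ∃ (y : V) (ι : Type) (_ : Fintype ι) (θ : ι → ℝ) (a : ι → V),
      (∀ i, 0 ≤ θ i) ∧ ∑ i, θ i = 1 ∧ ∑ i, θ i • a i = x ∧
      (∀ i b, f (a i) + ‖a i - y‖ ^ 2 / (2 * ρ) ≤ f b + ‖b - y‖ ^ 2 / (2 * ρ)) ∧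
      Env ρ f x = ∑ i, θ i * (f (a i) + ‖a i - x‖ ^ 2 / (2 * ρ)) ∧
      Env ρ f x = Qi ρ f y - ‖x - y‖ ^ 2 / (2 * ρ) := by
  obtain ⟨y, hy⟩ := exists_Env_eq hfc hf hρ x
  set A : Set V := {a | f a + ‖a - y‖ ^ 2 / (2 * ρ) = Qi ρ f y} with hA
  have hAmin : ∀ a ∈ A, ∀ b, f a + ‖a - y‖ ^ 2 / (2 * ρ) ≤ f b + ‖b - y‖ ^ 2 / (2 * ρ) := by
    intro a ha b
    have ha' : f a + ‖a - y‖ ^ 2 / (2 * ρ) = Qi ρ f y := ha
    rw [ha']
    exact Qi_le hf hρ y b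
  obtain ⟨C, hC0, hC⟩ := hf.bound hρ
  have hcontpen : Continuous fun a => f a + ‖a - y‖ ^ 2 / (2 * ρ) := by fun_prop
  have hAclosed : IsClosed A := isClosed_eq hcontpen continuous_const
  have hAbdd : Bornology.IsBounded A := by
    rw [Metric.isBounded_iff_subset_closedBall y]
    refine ⟨Real.sqrt (4 * ρ * (Qi ρ f y + ‖y‖ ^ 2 / (4 * ρ) + C)), fun a ha => ?_⟩
    have h1 := coercive_bound hρ hC a y
    have ha' : f a + ‖a - y‖ ^ 2 / (2 * ρ) = Qi ρ f y := ha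
    rw [ha'] at h1
    rw [Metric.mem_closedBall, dist_eq_norm]
    apply Real.le_sqrt_of_sq_le
    have h2 : ‖a - y‖ ^ 2 / (4 * ρ) ≤ Qi ρ f y + ‖y‖ ^ 2 / (4 * ρ) + C := by linarith
    rw [div_le_iff₀ (by positivity)] at h2
    linarith
  have hAcomp : IsCompact A := Metric.isCompact_of_isClosed_isBounded hAclosed hAbdd
  have hxA : x ∈ convexHull ℝ A := by
    by_contra hx
    have hcl : IsClosed (convexHull ℝ A) := (isCompact_convexHull_of_isCompact hAcomp).isClosed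
    obtain ⟨ℓ, u, hu1, hu2⟩ := geometric_hahn_banach_point_closed (convex_convexHull ℝ A) hcl hx
    set q : V := (InnerProductSpace.toDual ℝ V).symm ℓ with hq
    have hℓ : ∀ z, ℓ z = inner ℝ q z := fun z => by
      rw [hq, InnerProductSpace.toDual_symm_apply]
    -- minimisers for y - ε q
    have hex : ∀ n : ℕ, ∃ a, f a + ‖a - (y - (1 / ((n : ℝ) + 1)) • q)‖ ^ 2 / (2 * ρ)
        = Qi ρ f (y - (1 / ((n : ℝ) + 1)) • q) := fun n => by
      obtain ⟨a, ha, -⟩ := exists_Qi_eq hfc hf hρ (y - (1 / ((n : ℝ) + 1)) • q)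
      exact ⟨a, ha⟩
    choose b hb using hex
    have hε : ∀ n : ℕ, 0 < 1 / ((n : ℝ) + 1) := fun n => by positivity
    have hε1 : ∀ n : ℕ, 1 / ((n : ℝ) + 1) ≤ 1 := fun n => by
      rw [div_le_one (by positivity)]
      have : (0 : ℝ) ≤ n := n.cast_nonneg
      linarith
    -- comparison with the value at y
    have hkey : ∀ n : ℕ, f (b n) + (‖b n - x‖ ^ 2 + 2 * inner ℝ (b n - x) (x - y)) / (2 * ρ)
        + (1 / ((n : ℝ) + 1)) * inner ℝ (b n - x) q / ρ ≤ Env ρ f x := by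
      intro n
      have h1 := le_Env hf hρ x (y - (1 / ((n : ℝ) + 1)) • q)
      rw [← hb n] at h1
      have h2 := pen_sub (b n) x (y - (1 / ((n : ℝ) + 1)) • q) ρ
      have h3 : inner ℝ (b n - x) (x - (y - (1 / ((n : ℝ) + 1)) • q))
          = inner ℝ (b n - x) (x - y) + (1 / ((n : ℝ) + 1)) * inner ℝ (b n - x) q := by
        have : x - (y - (1 / ((n : ℝ) + 1)) • q) = (x - y) + (1 / ((n : ℝ) + 1)) • q := by abel
        rw [this, inner_add_right, real_inner_smul_right]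
      rw [h3] at h2
      have h4 : (‖b n - x‖ ^ 2 + 2 * (inner ℝ (b n - x) (x - y)
          + (1 / ((n : ℝ) + 1)) * inner ℝ (b n - x) q)) / (2 * ρ)
          = (‖b n - x‖ ^ 2 + 2 * inner ℝ (b n - x) (x - y)) / (2 * ρ)
            + (1 / ((n : ℝ) + 1)) * inner ℝ (b n - x) q / ρ := by
        field_simp; ring
      rw [h4] at h2
      linarith
    have hval : ∀ a, Env ρ f x ≤ f a + (‖a - x‖ ^ 2 + 2 * inner ℝ (a - x) (x - y)) / (2 * ρ) := by
      intro a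
      rw [← pen_sub a x y ρ, hy]
      have := Qi_le hf hρ y a
      linarith
    have hneg : ∀ n, inner ℝ (b n - x) q ≤ 0 := by
      intro n
      have h1 := hkey n
      have h2 := hval (b n)
      have h3 : (1 / ((n : ℝ) + 1)) * inner ℝ (b n - x) q / ρ ≤ 0 := by linarith
      by_contra h4
      push Not at h4
      have : 0 < (1 / ((n : ℝ) + 1)) * inner ℝ (b n - x) q / ρ :=
        div_pos (mul_pos (hε n) h4) hρ
      linarith
    -- boundedness of b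
    have hbbd : ∃ R, ∀ n, ‖b n‖ ≤ R := by
      set Y : ℝ := ‖y‖ + ‖q‖ with hY
      have hyn : ∀ n : ℕ, ‖y - (1 / ((n : ℝ) + 1)) • q‖ ≤ Y := by
        intro n
        refine (norm_sub_le _ _).trans ?_
        rw [norm_smul, Real.norm_eq_abs, abs_of_pos (hε n)]
        have := mul_le_mul_of_nonneg_right (hε1 n) (norm_nonneg q)
        linarith
      refine ⟨Real.sqrt (4 * ρ * (Y ^ 2 / (4 * ρ) + C + (f 0 + Y ^ 2 / (2 * ρ)))) + Y,
        fun n => ?_⟩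
      have h1 := coercive_bound hρ hC (b n) (y - (1 / ((n : ℝ) + 1)) • q)
      have h2 := Qi_le hf hρ (y - (1 / ((n : ℝ) + 1)) • q) 0
      rw [hb n] at h1
      rw [zero_sub, norm_neg] at h2
      have h3 : ‖y - (1 / ((n : ℝ) + 1)) • q‖ ^ 2 ≤ Y ^ 2 :=
        pow_le_pow_left₀ (norm_nonneg _) (hyn n) 2
      have h4 : ‖y - (1 / ((n : ℝ) + 1)) • q‖ ^ 2 / (2 * ρ) ≤ Y ^ 2 / (2 * ρ) := by gcongr
      have h5 : ‖y - (1 / ((n : ℝ) + 1)) • q‖ ^ 2 / (4 * ρ) ≤ Y ^ 2 / (4 * ρ) := by gcongr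
      have h6 : ‖b n - (y - (1 / ((n : ℝ) + 1)) • q)‖ ^ 2 / (4 * ρ)
          ≤ Y ^ 2 / (4 * ρ) + C + (f 0 + Y ^ 2 / (2 * ρ)) := by linarith
      rw [div_le_iff₀ (by positivity)] at h6
      have h7 : ‖b n - (y - (1 / ((n : ℝ) + 1)) • q)‖
          ≤ Real.sqrt (4 * ρ * (Y ^ 2 / (4 * ρ) + C + (f 0 + Y ^ 2 / (2 * ρ)))) := by
        apply Real.le_sqrt_of_sq_le
        linarith
      have h8 : ‖b n‖ ≤ ‖b n - (y - (1 / ((n : ℝ) + 1)) • q)‖
          + ‖y - (1 / ((n : ℝ) + 1)) • q‖ := by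
        have := norm_add_le (b n - (y - (1 / ((n : ℝ) + 1)) • q)) (y - (1 / ((n : ℝ) + 1)) • q)
        simpa using this
      linarith [hyn n]
    obtain ⟨R, hR⟩ := hbbd
    obtain ⟨a0, -, φ, hφ, hlim⟩ := (isCompact_closedBall (0 : V) R).tendsto_subseq
      (fun n => show b n ∈ Metric.closedBall 0 R by simpa using hR n)
    have hεlim : Tendsto (fun n : ℕ => 1 / (((φ n : ℕ) : ℝ) + 1)) atTop (𝓝 0) :=
      (tendsto_one_div_add_atTop_nhds_zero_nat (𝕜 := ℝ)).comp hφ.tendsto_atTop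
    have hlim' : Tendsto (fun n => b (φ n)) atTop (𝓝 a0) := hlim
    have h1 : f a0 + (‖a0 - x‖ ^ 2 + 2 * inner ℝ (a0 - x) (x - y)) / (2 * ρ)
        + 0 * inner ℝ (a0 - x) q / ρ ≤ Env ρ f x := by
      refine le_of_tendsto' (x := atTop) ?_ (fun n => hkey (φ n))
      have hc1 : Continuous fun a : V =>
          f a + (‖a - x‖ ^ 2 + 2 * inner ℝ (a - x) (x - y)) / (2 * ρ) := by fun_prop
      have hc2 : Continuous fun a : V => (inner ℝ (a - x) q : ℝ) := by fun_prop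
      exact ((hc1.tendsto a0).comp hlim').add
        ((hεlim.mul ((hc2.tendsto a0).comp hlim')).div_const ρ)
    have h2 : inner ℝ (a0 - x) q ≤ 0 := by
      refine le_of_tendsto' (x := atTop) ?_ (fun n => hneg (φ n))
      have hc2 : Continuous fun a : V => (inner ℝ (a - x) q : ℝ) := by fun_prop
      exact (hc2.tendsto a0).comp hlim'
    have h3 : a0 ∈ A := by
      show f a0 + ‖a0 - y‖ ^ 2 / (2 * ρ) = Qi ρ f y
      refine le_antisymm ?_ (Qi_le hf hρ y a0)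
      have := pen_sub a0 x y ρ
      rw [hy] at h1
      simp only [zero_mul, zero_div, add_zero] at h1
      linarith
    have h4 := hu2 a0 (subset_convexHull ℝ A h3)
    rw [hℓ] at h4 hu1
    rw [inner_sub_left, real_inner_comm, real_inner_comm q x] at h2
    linarith
  obtain ⟨ι, hι, θ, a, h0, h1, haA, hax⟩ := mem_convexHull_iff_exists_fintype.1 hxA
  refine ⟨y, ι, hι, θ, a, h0, h1, hax, fun i b => hAmin _ (haA i) b, ?_, hy⟩
  have h3 := bary_identity h1 hax y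
  have h4 : ∀ z : V, ∑ i, θ i * (f (a i) + ‖a i - z‖ ^ 2 / (2 * ρ))
      = ∑ i, θ i * f (a i) + (∑ i, θ i * ‖a i - z‖ ^ 2) / (2 * ρ) := by
    intro z
    rw [Finset.sum_div, ← Finset.sum_add_distrib]
    exact Finset.sum_congr rfl fun i _ => by ring
  have h5 : ∑ i, θ i * (f (a i) + ‖a i - y‖ ^ 2 / (2 * ρ)) = Qi ρ f y := by
    calc _ = ∑ i, θ i * Qi ρ f y := Finset.sum_congr rfl fun i _ => by
            have : f (a i) + ‖a i - y‖ ^ 2 / (2 * ρ) = Qi ρ f y := haA i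
            rw [this]
      _ = Qi ρ f y := by rw [← Finset.sum_mul, h1, one_mul]
  rw [h4, h3, add_div] at h5
  rw [hy, h4, ← h5]
  ring

/-! ### Continuity of `Env` -/

theorem tendsto_Env [FiniteDimensional ℝ V] {α : Type*} {l : Filter α} {F : α → V → ℝ} {f : V → ℝ}
    (h : Conv l F f) {r : α → ℝ} {ρ : ℝ} (hρ : 0 < ρ) (hr : Tendsto r l (𝓝 ρ))
    {x : α → V} {x0 : V} (hx : Tendsto x l (𝓝 x0)) :
    Tendsto (fun j => Env (r j) (F j) (x j)) l (𝓝 (Env ρ f x0)) := by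
  rw [Metric.tendsto_nhds]
  intro ε hε
  have hrpos : ∀ᶠ j in l, ρ / 2 < r j := hr.eventually (Ioi_mem_nhds (by linarith))
  obtain ⟨y, ι, hι, θ, a, h0, h1, hax, -, hE1, hE2⟩ := exists_contact h.cont h.lim hρ x0
  have hr2 : Tendsto (fun j => 2 * r j) l (𝓝 (2 * ρ)) := hr.const_mul 2
  have hne : (2 * ρ) ≠ 0 := by positivity
  -- upper bound
  have hup : Tendsto (fun j => ∑ i, θ i * (F j (a i + (x j - x0)) + ‖a i - x0‖ ^ 2 / (2 * r j))) l
      (𝓝 (∑ i, θ i * (f (a i) + ‖a i - x0‖ ^ 2 / (2 * ρ)))) := by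
    refine tendsto_finsetSum _ fun i _ => Tendsto.const_mul _ (Tendsto.add ?_ ?_)
    · refine h.tendsto_apply ?_
      have h2 : Tendsto (fun j => a i + (x j - x0)) l (𝓝 (a i + (x0 - x0))) :=
        tendsto_const_nhds.add (hx.sub_const x0)
      simpa using h2
    · exact tendsto_const_nhds.div hr2 hne
  rw [← hE1] at hup
  -- lower bound
  have hlow : Tendsto (fun j => Qi (r j) (F j) y - ‖x j - y‖ ^ 2 / (2 * r j)) l
      (𝓝 (Qi ρ f y - ‖x0 - y‖ ^ 2 / (2 * ρ))) := by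
    refine (tendsto_Qi h hρ hr tendsto_const_nhds).sub ?_
    exact ((hx.sub_const y).norm.pow 2).div hr2 hne
  rw [← hE2] at hlow
  filter_upwards [hup.eventually (Iio_mem_nhds (show Env ρ f x0 < Env ρ f x0 + ε by linarith)),
    hlow.eventually (Ioi_mem_nhds (show Env ρ f x0 - ε < Env ρ f x0 by linarith)),
    hrpos, h.subq] with j e1 e2 e3 e4
  have hrj : 0 < r j := by linarith
  have e5 := le_Env e4 hrj (x j) y
  have hb : ∑ i, θ i • (a i + (x j - x0)) = x j := by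
    simp only [smul_add, Finset.sum_add_distrib, ← Finset.sum_smul, h1, hax, one_smul]
    abel
  have e6 := Env_le_sum e4 hrj (x := x j) h0 h1 hb
  have e7 : ∑ i, θ i * (F j (a i + (x j - x0)) + ‖a i + (x j - x0) - x j‖ ^ 2 / (2 * r j))
      = ∑ i, θ i * (F j (a i + (x j - x0)) + ‖a i - x0‖ ^ 2 / (2 * r j)) := by
    refine Finset.sum_congr rfl fun i _ => ?_
    have : a i + (x j - x0) - x j = a i - x0 := by abel
    rw [this]
  rw [e7] at e6
  have e1' : ∑ i, θ i * (F j (a i + (x j - x0)) + ‖a i - x0‖ ^ 2 / (2 * r j)) < Env ρ f x0 + ε := e1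
  have e2' : Env ρ f x0 - ε < Qi (r j) (F j) y - ‖x j - y‖ ^ 2 / (2 * r j) := e2
  rw [Real.dist_eq, abs_lt]
  constructor <;> linarith

lemma continuous_Env [FiniteDimensional ℝ V] {f : V → ℝ} (hfc : Continuous f) (hf : SubQ f)
    {ρ : ℝ} (hρ : 0 < ρ) : Continuous (Env ρ f) :=
  continuous_iff_continuousAt.2 fun _ =>
    tendsto_Env (Conv.const hfc hf _) hρ tendsto_const_nhds tendsto_id

/-! ### Monotonicity, affine changes, scaling -/

lemma Qi_mono {f g : V → ℝ} (hf : SubQ f) {ρ : ℝ} (hρ : 0 < ρ) (h : ∀ a, f a ≤ g a) (y : V) :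
    Qi ρ f y ≤ Qi ρ g y :=
  le_Qi fun a => (Qi_le hf hρ y a).trans (by linarith [h a])

lemma Env_mono {f g : V → ℝ} (hf : SubQ f) (hg : SubQ g) {ρ : ℝ} (hρ : 0 < ρ)
    (h : ∀ a, f a ≤ g a) (x : V) : Env ρ f x ≤ Env ρ g x :=
  Env_le fun y => (sub_le_sub_right (Qi_mono hf hρ h y) _).trans (le_Env hg hρ x y)

lemma Qi_add_const {f : V → ℝ} (hf : SubQ f) {ρ : ℝ} (hρ : 0 < ρ) (c : ℝ) (y : V) :
    Qi ρ (fun a => f a + c) y = Qi ρ f y + c := by
  have hfc : SubQ (fun a => f a + c) := by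
    have := hf.add (subQ_affine (0 : V) c)
    simpa using this
  apply le_antisymm
  · rw [← sub_le_iff_le_add]
    refine le_Qi fun a => ?_
    have := Qi_le hfc hρ y a
    linarith
  · refine le_Qi fun a => ?_
    have := Qi_le hf hρ y a
    linarith

/-- Translation. -/
lemma Qi_comp_add (f : V → ℝ) (ρ : ℝ) (b y : V) :
    Qi ρ (fun a => f (a + b)) y = Qi ρ f (y + b) := by
  unfold Qi
  rw [← (Equiv.addRight b).iInf_comp (g := fun a => f a + ‖a - (y + b)‖ ^ 2 / (2 * ρ))]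
  refine iInf_congr fun a => ?_
  simp only [Equiv.coe_addRight]
  congr 4
  abel

lemma Env_comp_add (f : V → ℝ) (ρ : ℝ) (b x : V) :
    Env ρ (fun a => f (a + b)) x = Env ρ f (x + b) := by
  unfold Env
  rw [← (Equiv.addRight b).iSup_comp (g := fun y => Qi ρ f y - ‖x + b - y‖ ^ 2 / (2 * ρ))]
  refine iSup_congr fun y => ?_
  simp only [Equiv.coe_addRight]
  rw [Qi_comp_add]
  congr 4
  abel

lemma pen_linear {ρ : ℝ} (hρ : 0 < ρ) (p y a : V) :
    inner ℝ p a + ‖a - y‖ ^ 2 / (2 * ρ)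
      = ‖a - (y - ρ • p)‖ ^ 2 / (2 * ρ) + (inner ℝ p y - ρ * ‖p‖ ^ 2 / 2) := by
  have h2 : a - (y - ρ • p) = (a - y) + ρ • p := by abel
  rw [h2, norm_add_sq_real, real_inner_smul_right, norm_smul, Real.norm_eq_abs, abs_of_pos hρ,
    inner_sub_left, real_inner_comm, real_inner_comm p y]
  field_simp
  ring

lemma SubQ.add_linear {f : V → ℝ} (hf : SubQ f) (p : V) :
    SubQ (fun a => f a + inner ℝ p a) := by
  have := hf.add (subQ_affine p 0)
  simpa using this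

lemma SubQ.add_const {f : V → ℝ} (hf : SubQ f) (c : ℝ) :
    SubQ (fun a => f a + c) := by
  have := hf.add (subQ_affine (0 : V) c)
  simpa using this

/-- Adding a linear function: `Qi` is shifted. -/
lemma Qi_add_linear {f : V → ℝ} (hf : SubQ f) {ρ : ℝ} (hρ : 0 < ρ) (p y : V) :
    Qi ρ (fun a => f a + inner ℝ p a) y
      = Qi ρ f (y - ρ • p) + (inner ℝ p y - ρ * ‖p‖ ^ 2 / 2) := by
  apply le_antisymm
  · rw [← sub_le_iff_le_add]
    refine le_Qi fun a => ?_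
    have h1 := Qi_le (hf.add_linear p) hρ y a
    have h2 := pen_linear hρ p y a
    linarith
  · refine le_Qi fun a => ?_
    have h1 := Qi_le hf hρ (y - ρ • p) a
    have h2 := pen_linear hρ p y a
    linarith

/-- Adding a linear function: `Env` only changes by it. -/
lemma Env_add_linear {f : V → ℝ} (hf : SubQ f) {ρ : ℝ} (hρ : 0 < ρ) (p x : V) :
    Env ρ (fun a => f a + inner ℝ p a) x = Env ρ f x + inner ℝ p x := by
  apply le_antisymm
  · refine Env_le fun y => ?_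
    have h1 := le_Env hf hρ x (y - ρ • p)
    have h2 := pen_linear hρ p y x
    rw [Qi_add_linear hf hρ]
    linarith
  · rw [← le_sub_iff_add_le]
    refine Env_le fun y => ?_
    have h1 := le_Env (hf.add_linear p) hρ x (y + ρ • p)
    have h2 := pen_linear hρ p (y + ρ • p) x
    rw [Qi_add_linear hf hρ, add_sub_cancel_right] at h1
    rw [add_sub_cancel_right] at h2
    linarith

lemma Env_add_const {f : V → ℝ} (hf : SubQ f) {ρ : ℝ} (hρ : 0 < ρ) (c : ℝ) (x : V) :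
    Env ρ (fun a => f a + c) x = Env ρ f x + c := by
  apply le_antisymm
  · refine Env_le fun y => ?_
    rw [Qi_add_const hf hρ]
    have h1 := le_Env hf hρ x y
    linarith
  · rw [← le_sub_iff_add_le]
    refine Env_le fun y => ?_
    have h1 := le_Env (hf.add_const c) hρ x y
    rw [Qi_add_const hf hρ] at h1
    linarith

/-- Scaling: `f_{μ,ν} a = μ * f (ν • a)`, `μ, ν > 0`. -/
lemma Qi_scale (f : V → ℝ) {μ ν ρ : ℝ} (hμ : 0 < μ) (hν : 0 < ν) (hρ : 0 < ρ) (y : V) :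
    Qi ρ (fun a => μ * f (ν • a)) y = μ * Qi (μ * ν ^ 2 * ρ) f (ν • y) := by
  have hs : Function.Surjective (fun a : V => ν • a) := fun b => ⟨ν⁻¹ • b, by simp [hν.ne']⟩
  unfold Qi
  rw [Real.mul_iInf_of_nonneg hμ.le,
    ← hs.iInf_comp (g := fun a => μ * (f a + ‖a - ν • y‖ ^ 2 / (2 * (μ * ν ^ 2 * ρ))))]
  refine iInf_congr fun a => ?_
  show μ * f (ν • a) + ‖a - y‖ ^ 2 / (2 * ρ)
    = μ * (f (ν • a) + ‖ν • a - ν • y‖ ^ 2 / (2 * (μ * ν ^ 2 * ρ)))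
  rw [← smul_sub, norm_smul, Real.norm_eq_abs, abs_of_pos hν]
  field_simp

lemma Env_scale (f : V → ℝ) {μ ν ρ : ℝ} (hμ : 0 < μ) (hν : 0 < ν) (hρ : 0 < ρ) (x : V) :
    Env ρ (fun a => μ * f (ν • a)) x = μ * Env (μ * ν ^ 2 * ρ) f (ν • x) := by
  have hs : Function.Surjective (fun a : V => ν • a) := fun b => ⟨ν⁻¹ • b, by simp [hν.ne']⟩
  unfold Env
  rw [Real.mul_iSup_of_nonneg hμ.le,
    ← hs.iSup_comp (g := fun y => μ * (Qi (μ * ν ^ 2 * ρ) f y
        - ‖ν • x - y‖ ^ 2 / (2 * (μ * ν ^ 2 * ρ))))]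
  refine iSup_congr fun y => ?_
  show Qi ρ (fun a => μ * f (ν • a)) y - ‖x - y‖ ^ 2 / (2 * ρ)
    = μ * (Qi (μ * ν ^ 2 * ρ) f (ν • y) - ‖ν • x - ν • y‖ ^ 2 / (2 * (μ * ν ^ 2 * ρ)))
  rw [Qi_scale f hμ hν hρ, ← smul_sub, norm_smul, Real.norm_eq_abs, abs_of_pos hν]
  field_simp

/-! ### Semiconvexity / semiconcavity at the contact point -/


/-- `Env ρ f + |.|²/2ρ` is convex (it is a supremum of affine functions). -/
lemma Env_convex {f : V → ℝ} (hf : SubQ f) {ρ : ℝ} (hρ : 0 < ρ) :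
    ConvexOn ℝ univ (fun x => Env ρ f x + ‖x‖ ^ 2 / (2 * ρ)) := by
  refine ⟨convex_univ, fun x _ z _ a b ha hb hab => ?_⟩
  simp only [smul_eq_mul]
  rw [← le_sub_iff_add_le]
  refine Env_le fun y => ?_
  have h1 := le_Env hf hρ x y
  have h2 := le_Env hf hρ z y
  have h3 : ∀ w : V, ‖w - y‖ ^ 2 / (2 * ρ)
      = ‖w‖ ^ 2 / (2 * ρ) - inner ℝ w y / ρ + ‖y‖ ^ 2 / (2 * ρ) := by
    intro w
    rw [norm_sub_sq_real]
    field_simp
  rw [h3] at h1 h2 ⊢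
  rw [inner_add_left, real_inner_smul_left, real_inner_smul_left]
  have h4 : a * (Qi ρ f y - (‖x‖ ^ 2 / (2 * ρ) - inner ℝ x y / ρ + ‖y‖ ^ 2 / (2 * ρ)))
      ≤ a * Env ρ f x := mul_le_mul_of_nonneg_left h1 ha
  have h5 : b * (Qi ρ f y - (‖z‖ ^ 2 / (2 * ρ) - inner ℝ z y / ρ + ‖y‖ ^ 2 / (2 * ρ)))
      ≤ b * Env ρ f z := mul_le_mul_of_nonneg_left h2 hb
  have h6 : b = 1 - a := by linarith
  subst h6
  have h7 : (a * inner ℝ x y + (1 - a) * inner ℝ z y) / ρ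
      = a * (inner ℝ x y / ρ) + (1 - a) * (inner ℝ z y / ρ) := by
    field_simp
  rw [h7]
  nlinarith

/-! ### The mirrored functionals: sup-convolution and upper envelope -/

/-- Sup-convolution with `|.|²/2ρ`. -/
noncomputable def Qs (ρ : ℝ) (f : V → ℝ) (y : V) : ℝ := ⨆ a, (f a - ‖a - y‖ ^ 2 / (2 * ρ))

/-- Upper envelope ("closing"): `x ↦ |x|²/2ρ + concave envelope of f - |.|²/2ρ`. -/
noncomputable def UEnv (ρ : ℝ) (f : V → ℝ) (x : V) : ℝ :=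
  ⨅ y, (Qs ρ f y + ‖x - y‖ ^ 2 / (2 * ρ))

lemma neg_iInf_real {ι : Type*} (f : ι → ℝ) : -(⨅ i, f i) = ⨆ i, - f i := by
  rw [iInf, ← Real.sSup_neg, iSup]
  congr 1
  ext z
  simp only [Set.mem_neg, Set.mem_range]
  constructor
  · rintro ⟨i, hi⟩
    exact ⟨i, by rw [hi, neg_neg]⟩
  · rintro ⟨i, hi⟩
    exact ⟨i, by rw [← hi, neg_neg]⟩

lemma neg_iSup_real {ι : Type*} (f : ι → ℝ) : -(⨆ i, f i) = ⨅ i, - f i := by
  have h := neg_iInf_real (fun i => - f i)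
  simp only [neg_neg] at h
  rw [← h, neg_neg]

lemma Qs_eq (ρ : ℝ) (f : V → ℝ) (y : V) : Qs ρ f y = - Qi ρ (fun a => - f a) y := by
  unfold Qs Qi
  rw [neg_iInf_real]
  refine iSup_congr fun a => ?_
  ring

lemma UEnv_eq (ρ : ℝ) (f : V → ℝ) (x : V) : UEnv ρ f x = - Env ρ (fun a => - f a) x := by
  unfold UEnv Env
  rw [neg_iSup_real]
  refine iInf_congr fun y => ?_
  rw [Qs_eq]
  ring





lemma Conv.neg {α : Type*} {l : Filter α} {F : α → V → ℝ} {f : V → ℝ} (h : Conv l F f) :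
    Conv l (fun j a => - F j a) (fun a => - f a) where
  unif := fun R ε hε => by
    filter_upwards [h.unif R ε hε] with j hj a ha
    have := hj a ha
    rwa [← abs_neg, show -(-F j a - -f a) = F j a - f a by ring]
  subq := h.subq.mono fun j hj => hj.neg
  grow := fun ε hε => by
    obtain ⟨C, hC⟩ := h.grow ε hε
    exact ⟨C, hC.mono fun j hj a => by rw [abs_neg]; exact hj a⟩
  cont := h.cont.neg
  lim := h.lim.neg

theorem tendsto_Qs [FiniteDimensional ℝ V] {α : Type*} {l : Filter α} {F : α → V → ℝ} {f : V → ℝ}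
    (h : Conv l F f) {r : α → ℝ} {ρ : ℝ} (hρ : 0 < ρ) (hr : Tendsto r l (𝓝 ρ))
    {y : α → V} {y0 : V} (hy : Tendsto y l (𝓝 y0)) :
    Tendsto (fun j => Qs (r j) (F j) (y j)) l (𝓝 (Qs ρ f y0)) := by
  simp only [Qs_eq]
  exact (tendsto_Qi h.neg hρ hr hy).neg

theorem tendsto_UEnv [FiniteDimensional ℝ V] {α : Type*} {l : Filter α} {F : α → V → ℝ}
    {f : V → ℝ}
    (h : Conv l F f) {r : α → ℝ} {ρ : ℝ} (hρ : 0 < ρ) (hr : Tendsto r l (𝓝 ρ))
    {x : α → V} {x0 : V} (hx : Tendsto x l (𝓝 x0)) :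
    Tendsto (fun j => UEnv (r j) (F j) (x j)) l (𝓝 (UEnv ρ f x0)) := by
  simp only [UEnv_eq]
  exact (tendsto_Env h.neg hρ hr hx).neg

lemma continuous_Qs [FiniteDimensional ℝ V] {f : V → ℝ} (hfc : Continuous f) (hf : SubQ f)
    {ρ : ℝ} (hρ : 0 < ρ) : Continuous (Qs ρ f) := by
  have : Qs ρ f = fun y => - Qi ρ (fun a => - f a) y := funext fun y => Qs_eq ρ f y
  rw [this]
  exact (continuous_Qi hfc.neg hf.neg hρ).neg

lemma continuous_UEnv [FiniteDimensional ℝ V] {f : V → ℝ} (hfc : Continuous f) (hf : SubQ f)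
    {ρ : ℝ} (hρ : 0 < ρ) : Continuous (UEnv ρ f) := by
  have : UEnv ρ f = fun y => - Env ρ (fun a => - f a) y := funext fun y => UEnv_eq ρ f y
  rw [this]
  exact (continuous_Env hfc.neg hf.neg hρ).neg

lemma UEnv_le {f : V → ℝ} (hf : SubQ f) {ρ : ℝ} (hρ : 0 < ρ) (x y : V) :
    UEnv ρ f x ≤ Qs ρ f y + ‖x - y‖ ^ 2 / (2 * ρ) := by
  rw [UEnv_eq, Qs_eq]
  have := le_Env hf.neg hρ x y
  linarith


lemma self_le_UEnv {f : V → ℝ} (hf : SubQ f) {ρ : ℝ} (hρ : 0 < ρ) (x : V) :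
    f x ≤ UEnv ρ f x := by
  rw [UEnv_eq]
  have := Env_le_self hf.neg hρ x
  linarith

lemma UEnv_le_Qs {f : V → ℝ} (hf : SubQ f) {ρ : ℝ} (hρ : 0 < ρ) (x : V) :
    UEnv ρ f x ≤ Qs ρ f x := by
  have := UEnv_le hf hρ x x
  simpa using this

/-- every finite measure with barycentre `x` gives a lower bound of `UEnv`. -/
lemma sum_le_UEnv {f : V → ℝ} (hf : SubQ f) {ρ : ℝ} (hρ : 0 < ρ) {x : V}
    {ι : Type*} [Fintype ι] {θ : ι → ℝ} {a : ι → V} (h0 : ∀ i, 0 ≤ θ i)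
    (h1 : ∑ i, θ i = 1) (hx : ∑ i, θ i • a i = x) :
    ∑ i, θ i * (f (a i) - ‖a i - x‖ ^ 2 / (2 * ρ)) ≤ UEnv ρ f x := by
  rw [UEnv_eq]
  have h2 := Env_le_sum hf.neg hρ h0 h1 hx
  have h3 : ∑ i, θ i * (f (a i) - ‖a i - x‖ ^ 2 / (2 * ρ))
      = - ∑ i, θ i * (- f (a i) + ‖a i - x‖ ^ 2 / (2 * ρ)) := by
    rw [← Finset.sum_neg_distrib]
    exact Finset.sum_congr rfl fun i _ => by ring
  rw [h3]
  linarith

/-- Contact point and contact measure for the upper envelope. -/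
theorem exists_contact_UEnv [FiniteDimensional ℝ V] {f : V → ℝ} (hfc : Continuous f)
    (hf : SubQ f) {ρ : ℝ} (hρ : 0 < ρ) (x : V) :
    ∃ (y : V) (ι : Type) (_ : Fintype ι) (θ : ι → ℝ) (a : ι → V),
      (∀ i, 0 ≤ θ i) ∧ ∑ i, θ i = 1 ∧ ∑ i, θ i • a i = x ∧
      (∀ i b, f b - ‖b - y‖ ^ 2 / (2 * ρ) ≤ f (a i) - ‖a i - y‖ ^ 2 / (2 * ρ)) ∧
      UEnv ρ f x = ∑ i, θ i * (f (a i) - ‖a i - x‖ ^ 2 / (2 * ρ)) ∧
      UEnv ρ f x = Qs ρ f y + ‖x - y‖ ^ 2 / (2 * ρ) := by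
  obtain ⟨y, ι, hι, θ, a, h0, h1, hax, hmin, hE1, hE2⟩ :=
    exists_contact (f := fun a => - f a) hfc.neg hf.neg hρ x
  refine ⟨y, ι, hι, θ, a, h0, h1, hax, fun i b => ?_, ?_, ?_⟩
  · have := hmin i b
    linarith
  · rw [UEnv_eq, hE1, ← Finset.sum_neg_distrib]
    exact Finset.sum_congr rfl fun i _ => by ring
  · rw [UEnv_eq, hE2, Qs_eq]
    ring


/-- `UEnv ρ f - |.|²/2ρ` is concave. -/
lemma UEnv_concave {f : V → ℝ} (hf : SubQ f) {ρ : ℝ} (hρ : 0 < ρ) :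
    ConcaveOn ℝ univ (fun x => UEnv ρ f x - ‖x‖ ^ 2 / (2 * ρ)) := by
  have h := (Env_convex hf.neg hρ).neg
  refine h.congr fun x _ => ?_
  simp only [Pi.neg_apply, UEnv_eq]
  ring


lemma UEnv_mono {f g : V → ℝ} (hf : SubQ f) (hg : SubQ g) {ρ : ℝ} (hρ : 0 < ρ)
    (h : ∀ a, f a ≤ g a) (x : V) : UEnv ρ f x ≤ UEnv ρ g x := by
  rw [UEnv_eq, UEnv_eq]
  have := Env_mono hg.neg hf.neg hρ (fun a => neg_le_neg (h a)) x
  linarith


lemma UEnv_comp_add (f : V → ℝ) (ρ : ℝ) (b x : V) :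
    UEnv ρ (fun a => f (a + b)) x = UEnv ρ f (x + b) := by
  rw [UEnv_eq, UEnv_eq, Env_comp_add (fun a => - f a)]


lemma UEnv_add_linear {f : V → ℝ} (hf : SubQ f) {ρ : ℝ} (hρ : 0 < ρ) (p x : V) :
    UEnv ρ (fun a => f a + inner ℝ p a) x = UEnv ρ f x + inner ℝ p x := by
  rw [UEnv_eq, UEnv_eq]
  have h := Env_add_linear hf.neg hρ (-p) x
  have h2 : (fun a => -(f a + inner ℝ p a)) = fun a => - f a + inner ℝ (-p) a := by
    funext a
    rw [inner_neg_left]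
    ring
  rw [h2, h, inner_neg_left]
  ring


lemma UEnv_add_const {f : V → ℝ} (hf : SubQ f) {ρ : ℝ} (hρ : 0 < ρ) (c : ℝ) (x : V) :
    UEnv ρ (fun a => f a + c) x = UEnv ρ f x + c := by
  rw [UEnv_eq, UEnv_eq]
  have h := Env_add_const hf.neg hρ (-c) x
  have h2 : (fun a => -(f a + c)) = fun a => - f a + -c := by
    funext a
    ring
  rw [h2, h]
  ring


lemma UEnv_scale (f : V → ℝ) {μ ν ρ : ℝ} (hμ : 0 < μ) (hν : 0 < ν) (hρ : 0 < ρ) (x : V) :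
    UEnv ρ (fun a => μ * f (ν • a)) x = μ * UEnv (μ * ν ^ 2 * ρ) f (ν • x) := by
  rw [UEnv_eq, UEnv_eq]
  have h := Env_scale (fun a => - f a) hμ hν hρ x
  have h2 : (fun a => -(μ * f (ν • a))) = fun a => μ * - f (ν • a) := by
    funext a
    ring
  rw [h2, h]
  ring

/-! ### Quantitative bounds -/


end Crest.Agent.R094.Env
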