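import Crest.Agent.R094.SolDefs

/-!
Row 94 (S0124), route 7921.  FROZEN INTERFACE between the modules (captain helper330).
No proofs here: only definitions and the statements (`..._stmt : Prop`) that the owners prove.

Owners: Sol theory 452; flat class/compactness 240; envelope (a1),(a2),(a4) 524; (a3) `AffineOfNoDefect` 404;
PropC + StageC 431; StageD 566; StageE 404 + StageF/BU 547; section 2 967 (+918, 837); Final 887;
glue (Theorem L, `Liouville`, bridge to section 2, S0124.lean) 464.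
-/

set_option autoImplicit false

namespace Crest.Agent.R094.GK

open Sol

variable {V : Type*} [NormedAddCommGroup V] [InnerProductSpace ℝ V]

/-- flatness data at the point `(x₀,t₀)` and scale `τ` -/
def FD (K : ℝ) (w : V → ℝ → ℝ) (x₀ : V) (t₀ τ : ℝ) (p : V) (b : ℝ) : Prop :=
  ∀ (x : V) (t : ℝ),
    |w (x₀ + t • p + x) (t₀ + t) - w x₀ t₀ - inner ℝ p x - b * t| ≤
      K * τ * (1 + (‖x‖ + |t|) / τ) ^ (3 / 2 : ℝ)

/-- the flat class condition -/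
def Flat (K : ℝ) (w : V → ℝ → ℝ) : Prop :=
  ∀ (x₀ : V) (t₀ τ : ℝ), 0 < τ → ∃ (p : V) (b : ℝ), FD K w x₀ t₀ τ p b

/-- the class `G_K` of the blueprint -/
structure Cls (K : ℝ) (w : V → ℝ → ℝ) : Prop where
  pos : 0 < K
  sol : IsSol w
  flat : Flat K w

/-- global growth bound -/
def Nrm (K' : ℝ) (w : V → ℝ → ℝ) : Prop :=
  ∀ x t, |w x t| ≤ K' * (1 + (‖x‖ + |t|)) ^ (3 / 2 : ℝ)

/-- `N_{X,τ} w` -/
noncomputable def nrmz (w : V → ℝ → ℝ) (x₀ : V) (t₀ τ : ℝ) (p : V) (b : ℝ) : V → ℝ → ℝ :=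
  fun x t => (w (x₀ + τ • (x + t • p)) (t₀ + τ * t) - w x₀ t₀ - τ * inner ℝ p x - τ * b * t) / τ

/-- joint continuous convergence along an ultrafilter -/
def JC {ι : Type*} (F : Ultrafilter ι) (w : ι → V → ℝ → ℝ) (W : V → ℝ → ℝ) : Prop :=
  ∀ (x : ι → V) (t : ι → ℝ) (x₀ : V) (t₀ : ℝ),
    Filter.Tendsto x F (nhds x₀) → Filter.Tendsto t F (nhds t₀) →
      Filter.Tendsto (fun k => w k (x k) (t k)) F (nhds (W x₀ t₀))

/-- semiconcave envelope with constant `1/σ` of a slice -/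
noncomputable def env (σ : ℝ) (f : V → ℝ) (x : V) : ℝ := infc σ (supc σ f) x

/-- `U_w`, the envelope with vertex time `0` -/
noncomputable def Uf (w : V → ℝ → ℝ) (x : V) (t : ℝ) : ℝ := env t (fun y => w y t) x

/-- semiconcave supergradient -/
def SupGrad (t : ℝ) (f : V → ℝ) (x q : V) : Prop :=
  ∀ ξ : V, f (x + ξ) ≤ f x + inner ℝ q ξ + ‖ξ‖ ^ 2 / (2 * t)

/-- the quadratic weight; `Y = x - (t/s)(x-z)` is the vertex position of the line -/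
noncomputable def Phi (c : ℝ) (Y₀ : V) (s t : ℝ) (x z : V) : ℝ :=
  ‖x - z‖ ^ 2 / (2 * s) + s * c / 2 * ‖x - (t / s) • (x - z) - Y₀‖ ^ 2

/-- the functional whose supremum over `(x,z)` is `V_s(t)` -/
noncomputable def val (U w : V → ℝ → ℝ) (c : ℝ) (Y₀ : V) (s t : ℝ) (x z : V) : ℝ :=
  U x t - w z (t - s) - Phi c Y₀ s t x z

/-- `V_s(t)` -/
noncomputable def Vf (U w : V → ℝ → ℝ) (c : ℝ) (Y₀ : V) (s t : ℝ) : ℝ :=
  ⨆ q : V × V, val U w c Y₀ s t q.1 q.2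

/-- functions `U` on times `> 0` that are "sub": what Prop C needs of `U` -/
structure SubPos (U : V → ℝ → ℝ) : Prop where
  cont : ContinuousOn (fun q : V × ℝ => U q.1 q.2) {q | 0 < q.2}
  grow : ∀ R ε : ℝ, 0 < ε → ∃ C, ∀ y t, 0 < t → t ≤ R → |U y t| ≤ ε * ‖y‖ ^ 2 + C
  sub : ∀ x t s s', 0 < t → 0 < s → s ≤ s' →
    T s U x t ≤ (1 - s / s') * U x t + s / s' * T s' U x t

section Statements

variable (V)
variable [FiniteDimensional ℝ V]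

/-- `κ` bounds all defects over the class -/
def IsKap (K κ : ℝ) : Prop :=
  ∀ w : V → ℝ → ℝ, Cls K w → ∀ (x : V) (t σ : ℝ), 0 < σ → env σ (fun y => w y t) x ≤ w x t + κ * σ

/-- (452/240) -/
def ClsRev_stmt : Prop := ∀ K (w : V → ℝ → ℝ), Cls K w → Cls K (rev w)

/-- (452/240) for ANY `p b` -/
def ClsNrmz_stmt : Prop := ∀ K (w : V → ℝ → ℝ), Cls K w → ∀ (x₀ : V) (t₀ τ : ℝ) (p : V) (b : ℝ),
  0 < τ → Cls K (nrmz w x₀ t₀ τ p b)

/-- (240) compactness of the normalised class -/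
def Compact_stmt : Prop := ∀ (F : Ultrafilter ℕ) (K K' : ℝ) (w : ℕ → V → ℝ → ℝ),
  (∀ᶠ k in (F : Filter ℕ), Cls K (w k)) → (∀ᶠ k in (F : Filter ℕ), Nrm K' (w k)) →
    ∃ W : V → ℝ → ℝ, Cls K W ∧ Nrm K' W ∧ JC F w W


/-- (524, a1+a2) -/
def EnvSub_stmt : Prop := ∀ K (w : V → ℝ → ℝ), Cls K w → SubPos (Uf w)

/-- (524, a4) either no defect at all, or a positive extremal defect -/
def Extremal_stmt : Prop := ∀ K : ℝ,
  (∀ w : V → ℝ → ℝ, Cls K w → ∀ (x : V) (t σ : ℝ), 0 < σ → env σ (fun y => w y t) x = w x t) ∨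
  ∃ κ, 0 < κ ∧ IsKap V K κ ∧ ∃ (w : V → ℝ → ℝ) (x₀ : V), Cls K w ∧ Uf w x₀ 1 = w x₀ 1 + κ

/-- (404, a3) -/
def AffineOfNoDefect_stmt : Prop := ∀ K : ℝ,
  (∀ w : V → ℝ → ℝ, Cls K w → ∀ (x : V) (t σ : ℝ), 0 < σ → env σ (fun y => w y t) x = w x t) →
  ∀ w : V → ℝ → ℝ, Cls K w → ∃ (p : V) (b c : ℝ), ∀ x t, w x t = inner ℝ p x + b * t + c

/-- (431, PropC), usable for `U = Uf w'`, `w` any solution -/
def PropC_stmt : Prop := ∀ (U w : V → ℝ → ℝ), SubPos U → IsSol w → ∀ (c : ℝ) (Y₀ : V) (s t Δ : ℝ),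
  0 < c → 0 < s → 0 < Δ → Δ < t → s ≤ 2 * (t + Δ) → c * (2 * (t + Δ)) ^ 2 ≤ 1 →
    2 * Vf U w c Y₀ s t ≤ Vf U w c Y₀ s (t - Δ) + Vf U w c Y₀ s (t + Δ)

/-- (431) the supremum `Vf` is attained, and at a maximiser `q` is a supergradient -/
def VfAttained_stmt : Prop := ∀ K (w : V → ℝ → ℝ), Cls K w → ∀ (c : ℝ) (Y₀ : V) (s t : ℝ),
  0 < c → 0 < s → 0 < t →
    BddAbove (Set.range fun q : V × V => val (Uf w) w c Y₀ s t q.1 q.2) ∧
    ∃ x z : V, Vf (Uf w) w c Y₀ s t = val (Uf w) w c Y₀ s t x z ∧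
      SupGrad t (fun y => Uf w y t) x
        ((1 / s) • (x - z) - (c * (t - s)) • (x - (t / s) • (x - z) - Y₀))

/-- (431, StageC) first-stage bounds, `c = 1/36`, `Y₀ = 0` -/
def StageC_stmt : Prop := ∀ K κ : ℝ, 0 < κ → IsKap V K κ → ∀ (w : V → ℝ → ℝ) (x₀ : V), Cls K w →
  Uf w x₀ 1 = w x₀ 1 + κ →
    ∃ C, 0 ≤ C ∧ ∀ t s, 0 < t → t ≤ 1 → 0 < s → s ≤ t / 2 →
      (∀ x z, val (Uf w) w (1 / 36) 0 s t x z ≤ κ * t + C * s) ∧
      ∃ x z, (∀ x' z', val (Uf w) w (1 / 36) 0 s t x' z' ≤ val (Uf w) w (1 / 36) 0 s t x z) ∧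
        κ * t - C * s ≤ val (Uf w) w (1 / 36) 0 s t x z ∧
        ‖x - (t / s) • (x - z)‖ ≤ C ∧
        SupGrad t (fun y => Uf w y t) x
          ((1 / s) • (x - z) - ((1 / 36) * (t - s)) • (x - (t / s) • (x - z)))

/-- property (M) -/
def PropM (κ : ℝ) (W : V → ℝ → ℝ) : Prop := ∀ η, 0 < η → ∃ ε₀, 0 < ε₀ ∧ ∀ t, 0 < t → ∀ s, 0 < s →
  s < ε₀ * t → ∀ x z, Uf W x t - W z (t - s) - ‖x - z‖ ^ 2 / (2 * s) ≤ κ * t + η * s

/-- (566, StageD): output of the first limit extraction -/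
def StageD_stmt : Prop := ∀ K κ : ℝ, 0 < κ → IsKap V K κ →
  (∃ (w : V → ℝ → ℝ) (x₀ : V), Cls K w ∧ Uf w x₀ 1 = w x₀ 1 + κ) →
    ∃ (W : V → ℝ → ℝ) (x' : V), Cls K W ∧ PropM V κ W ∧ Uf W x' 1 = W x' 1 + κ ∧
      ∀ σ, 0 < σ → B σ W x' 1 ≤ W x' 1

/-- (404, StageE): touching points at all times in `(0,1)` on lines through one vertex -/
def StageE_stmt : Prop := ∀ K κ : ℝ, 0 < κ → IsKap V K κ → ∀ (W : V → ℝ → ℝ) (x' : V), Cls K W →
  PropM V κ W → Uf W x' 1 = W x' 1 + κ → (∀ σ, 0 < σ → B σ W x' 1 ≤ W x' 1) →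
    ∃ Y : V, ∀ t, 0 < t → t < 1 → ∃ ν : V, Uf W (Y + t • ν) t = W (Y + t • ν) t + κ * t ∧
      SupGrad t (fun y => Uf W y t) (Y + t • ν) ν ∧
      ∀ σ, 0 < σ → B σ W (Y + t • ν) t ≤ W (Y + t • ν) t

/-- (547, StageF + BU): contradiction -/
def StageF_stmt : Prop := ∀ K κ : ℝ, 0 < κ → IsKap V K κ → ∀ W : V → ℝ → ℝ, Cls K W →
  ¬ ∃ Y : V, ∀ t, 0 < t → t < 1 → ∃ ν : V, Uf W (Y + t • ν) t = W (Y + t • ν) t + κ * t ∧
      SupGrad t (fun y => Uf W y t) (Y + t • ν) ν ∧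
      ∀ σ, 0 < σ → B σ W (Y + t • ν) t ≤ W (Y + t • ν) t

/-- Theorem L -/
def Liouville : Prop := ∀ (K : ℝ) (w : V → ℝ → ℝ), Cls K w →
  ∃ (p : V) (b c : ℝ), ∀ x t, w x t = inner ℝ p x + b * t + c

end Statements

/-- assembly of Theorem L -/
theorem liouville_of_stages [FiniteDimensional ℝ V] (hExt : Extremal_stmt V)
    (hAff : AffineOfNoDefect_stmt V) (hD : StageD_stmt V) (hE : StageE_stmt V)
    (hF : StageF_stmt V) : Liouville V := by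
  intro K w hw
  rcases hExt K with h | ⟨κ, hκ, hkap, w₀, x₀, hw₀, htouch⟩
  · exact hAff K h w hw
  · exfalso
    obtain ⟨W, x', hW, hM, ht, hh⟩ := hD K κ hκ hkap ⟨w₀, x₀, hw₀, htouch⟩
    exact hF K κ hκ hkap W hW (hE K κ hκ hkap W x' hW hM ht hh)

end Crest.Agent.R094.GK
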