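import Mathlib
import Crest.Agent.R094.SolDefs

/-!
Row 94 (S0124), route 7921.  Basic theory of the operators `T`, `B` (helper452).
-/

set_option autoImplicit false

namespace Crest.Agent.R094.Sol

open Metric Set Filter Topology
open scoped InnerProductSpace

variable {V : Type*} [NormedAddCommGroup V] [InnerProductSpace ℝ V]

/-! ### Sup-convolution of one function -/

section supc

omit [InnerProductSpace ℝ V] in
theorem norm_sub_sq_lower (x y : V) : ‖y‖ ^ 2 / 2 - ‖x‖ ^ 2 ≤ ‖x - y‖ ^ 2 := by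
  have h1 : ‖y‖ ≤ ‖x - y‖ + ‖x‖ := by
    calc ‖y‖ = ‖x - (x - y)‖ := by congr 1; abel
      _ ≤ ‖x‖ + ‖x - y‖ := norm_sub_le _ _
      _ = _ := by ring
  nlinarith [norm_nonneg y, norm_nonneg x, norm_nonneg (x - y), sq_nonneg (‖x - y‖ - ‖x‖)]

omit [InnerProductSpace ℝ V] in
/-- quantitative coercivity -/
theorem coer {f : V → ℝ} {s S C : ℝ} (hs : 0 < s) (hsS : s ≤ S)
    (hf : ∀ y, f y ≤ 1 / (8 * S) * ‖y‖ ^ 2 + C) (x y : V) :
    f y - ‖x - y‖ ^ 2 / (2 * s) ≤ C + ‖x‖ ^ 2 / (2 * s) - ‖y‖ ^ 2 / (8 * s) := by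
  have h1 := norm_sub_sq_lower x y
  have h2 : 1 / (8 * S) * ‖y‖ ^ 2 ≤ 1 / (8 * s) * ‖y‖ ^ 2 := by
    apply mul_le_mul_of_nonneg_right _ (sq_nonneg _)
    exact one_div_le_one_div_of_le (by positivity) (by linarith)
  have h3 : (‖y‖ ^ 2 / 2 - ‖x‖ ^ 2) / (2 * s) ≤ ‖x - y‖ ^ 2 / (2 * s) :=
    div_le_div_of_nonneg_right h1 (by positivity)
  have h4 : (‖y‖ ^ 2 / 2 - ‖x‖ ^ 2) / (2 * s) = 2 * (‖y‖ ^ 2 / (8 * s)) - ‖x‖ ^ 2 / (2 * s) := by
    field_simp; ring
  have h5 : 1 / (8 * s) * ‖y‖ ^ 2 = ‖y‖ ^ 2 / (8 * s) := by ring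
  have := hf y
  linarith

omit [InnerProductSpace ℝ V] in
theorem bdd_supc {f : V → ℝ} (hf : QUp f) {s : ℝ} (hs : 0 < s) (x : V) :
    BddAbove (range fun y => f y - ‖x - y‖ ^ 2 / (2 * s)) := by
  obtain ⟨C, hC⟩ := hf (1 / (8 * s)) (by positivity)
  refine ⟨C + ‖x‖ ^ 2 / (2 * s), ?_⟩
  rintro _ ⟨y, rfl⟩
  have := coer hs le_rfl hC x y
  have h2 : 0 ≤ ‖y‖ ^ 2 / (8 * s) := by positivity
  simp only
  linarith

omit [InnerProductSpace ℝ V] in
theorem le_supc {f : V → ℝ} (hf : QUp f) {s : ℝ} (hs : 0 < s) (x y : V) :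
    f y - ‖x - y‖ ^ 2 / (2 * s) ≤ supc s f x :=
  le_ciSup (bdd_supc hf hs x) y

omit [InnerProductSpace ℝ V] in
theorem supc_le {f : V → ℝ} {s : ℝ} {x : V} {a : ℝ}
    (h : ∀ y, f y - ‖x - y‖ ^ 2 / (2 * s) ≤ a) : supc s f x ≤ a := ciSup_le h


theorem exists_supc [FiniteDimensional ℝ V] {f : V → ℝ} (hc : Continuous f) (hf : QUp f) {s : ℝ}
    (hs : 0 < s) (x : V) : ∃ y, supc s f x = f y - ‖x - y‖ ^ 2 / (2 * s) := by
  obtain ⟨C, hC⟩ := hf (1 / (8 * s)) (by positivity)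
  have hcont : Continuous fun y => f y - ‖x - y‖ ^ 2 / (2 * s) := by fun_prop
  have hev : ∀ᶠ y in cocompact V, f y - ‖x - y‖ ^ 2 / (2 * s) ≤ f x - ‖x - x‖ ^ 2 / (2 * s) := by
    have h1 : Tendsto (fun y : V => ‖y‖) (cocompact V) atTop := tendsto_norm_cocompact_atTop
    have h2 : Tendsto (fun y : V => ‖y‖ ^ 2) (cocompact V) atTop :=
      (tendsto_pow_atTop (by norm_num)).comp h1
    filter_upwards [h2.eventually_ge_atTop ((C + ‖x‖ ^ 2 / (2 * s) - f x) * (8 * s))] with y hy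
    have h3 := coer hs le_rfl hC x y
    have h4 : C + ‖x‖ ^ 2 / (2 * s) - f x ≤ ‖y‖ ^ 2 / (8 * s) := by
      rw [le_div_iff₀ (by positivity)]; exact hy
    simp only [sub_self, norm_zero]
    norm_num
    linarith
  obtain ⟨y, hy⟩ := hcont.exists_forall_ge' x hev
  refine ⟨y, le_antisymm (supc_le hy) (le_supc hf hs x y)⟩




omit [InnerProductSpace ℝ V] in
theorem infc_eq_neg_supc (s : ℝ) (f : V → ℝ) (x : V) :
    infc s f x = - supc s (fun y => - f y) x := by
  unfold infc supc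
  have h : (fun y => - f y - ‖x - y‖ ^ 2 / (2 * s)) = fun y => -(f y + ‖x - y‖ ^ 2 / (2 * s)) := by
    funext y; ring
  rw [h]
  rw [iInf, iSup, Real.sInf_def]
  congr 2
  ext a
  simp only [Set.mem_neg, mem_range]
  constructor
  · rintro ⟨y, hy⟩; exact ⟨y, by rw [hy]; ring⟩
  · rintro ⟨y, hy⟩; exact ⟨y, by rw [← hy]; ring⟩

end supc

/-! ### The operators on functions of space and time -/

section ops

variable {w : V → ℝ → ℝ}

omit [InnerProductSpace ℝ V] in
theorem T_eq (s : ℝ) (w : V → ℝ → ℝ) (x : V) (t : ℝ) :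
    T s w x t = supc s (fun y => w y (t + s)) x := rfl

omit [InnerProductSpace ℝ V] in
theorem B_eq (s : ℝ) (w : V → ℝ → ℝ) (x : V) (t : ℝ) :
    B s w x t = infc s (fun y => w y (t - s)) x := rfl

omit [InnerProductSpace ℝ V] in
theorem B_eq_neg_T (s : ℝ) (w : V → ℝ → ℝ) (x : V) (t : ℝ) :
    B s w x t = - T s (rev w) x (-t) := by
  rw [B_eq, infc_eq_neg_supc, T_eq]
  unfold rev
  congr 3
  funext y
  congr 2
  ring

omit [InnerProductSpace ℝ V] in
theorem T_eq_neg_B (s : ℝ) (w : V → ℝ → ℝ) (x : V) (t : ℝ) :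
    T s w x t = - B s (rev w) x (-t) := by
  rw [B_eq_neg_T, neg_neg, neg_neg]
  congr 1
  funext y r
  simp [rev]

omit [NormedAddCommGroup V] [InnerProductSpace ℝ V] in
@[simp] theorem rev_rev (w : V → ℝ → ℝ) : rev (rev w) = w := by
  funext y r; simp [rev]

omit [InnerProductSpace ℝ V] in
theorem hm_eq_hp_rev (s : ℝ) (w : V → ℝ → ℝ) (x : V) (t : ℝ) :
    hm s w x t = hp s (rev w) x (-t) := by
  unfold hm hp
  rw [B_eq_neg_T]
  simp only [rev, neg_neg]
  ring

omit [InnerProductSpace ℝ V] in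
theorem hp_eq_hm_rev (s : ℝ) (w : V → ℝ → ℝ) (x : V) (t : ℝ) :
    hp s w x t = hm s (rev w) x (-t) := by
  rw [hm_eq_hp_rev, rev_rev, neg_neg]

omit [InnerProductSpace ℝ V] in
theorem Grow.rev (h : Grow w) : Grow (rev w) := by
  intro R ε hε
  obtain ⟨C, hC⟩ := h R ε hε
  exact ⟨C, fun y t ht => by simpa [Sol.rev] using hC y (-t) (by simpa using ht)⟩

omit [InnerProductSpace ℝ V] in
theorem Grow.qup (h : Grow w) (t : ℝ) : QUp fun y => w y t := by
  intro ε hε
  obtain ⟨C, hC⟩ := h |t| ε hε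
  exact ⟨C, fun y => (le_abs_self _).trans (hC y t le_rfl)⟩

omit [InnerProductSpace ℝ V] in
theorem IsSub.rev (h : IsSub w) : IsSup (rev w) := by
  intro x t s s' hs hss
  have := h x (-t) s s' hs hss
  rw [B_eq_neg_T, B_eq_neg_T, rev_rev]
  simp only [Sol.rev]
  nlinarith

omit [InnerProductSpace ℝ V] in
theorem IsSup.rev (h : IsSup w) : IsSub (rev w) := by
  intro x t s s' hs hss
  have := h x (-t) s s' hs hss
  rw [T_eq_neg_B, T_eq_neg_B, rev_rev]
  simp only [Sol.rev]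
  nlinarith

omit [InnerProductSpace ℝ V] in
theorem IsSol.rev (h : IsSol w) : IsSol (rev w) :=
  { cont := by
      have : Continuous fun p : V × ℝ => - w p.1 (-p.2) :=
        (h.cont.comp (continuous_fst.prodMk continuous_snd.neg)).neg
      exact this
    grow := h.grow.rev
    sub := h.sup.rev
    sup := h.sub.rev }

omit [InnerProductSpace ℝ V] in
theorem le_T (h : Grow w) {s : ℝ} (hs : 0 < s) (x y : V) (t : ℝ) :
    w y (t + s) - ‖x - y‖ ^ 2 / (2 * s) ≤ T s w x t := le_supc (h.qup _) hs x y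

omit [InnerProductSpace ℝ V] in
theorem T_le {s : ℝ} {x : V} {t a : ℝ}
    (h : ∀ y, w y (t + s) - ‖x - y‖ ^ 2 / (2 * s) ≤ a) : T s w x t ≤ a := supc_le h

omit [InnerProductSpace ℝ V] in
theorem B_le (h : Grow w) {s : ℝ} (hs : 0 < s) (x y : V) (t : ℝ) :
    B s w x t ≤ w y (t - s) + ‖x - y‖ ^ 2 / (2 * s) := by
  have := le_T h.rev hs x y (-t)
  rw [B_eq_neg_T]
  have e : rev w y (-t + s) = - w y (t - s) := by simp only [rev]; congr 2; ring
  rw [e] at this
  linarith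

omit [InnerProductSpace ℝ V] in
theorem le_B {s : ℝ} {x : V} {t a : ℝ}
    (h : ∀ y, a ≤ w y (t - s) + ‖x - y‖ ^ 2 / (2 * s)) : a ≤ B s w x t := le_ciInf h

theorem exists_T [FiniteDimensional ℝ V] (hc : Continuous (fun p : V × ℝ => w p.1 p.2))
    (h : Grow w) {s : ℝ} (hs : 0 < s) (x : V) (t : ℝ) :
    ∃ y, T s w x t = w y (t + s) - ‖x - y‖ ^ 2 / (2 * s) :=
  exists_supc (f := fun y => w y (t + s)) (hc.comp (continuous_id.prodMk continuous_const))
    (h.qup _) hs x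

theorem exists_B [FiniteDimensional ℝ V] (hc : Continuous (fun p : V × ℝ => w p.1 p.2))
    (h : Grow w) {s : ℝ} (hs : 0 < s) (x : V) (t : ℝ) :
    ∃ y, B s w x t = w y (t - s) + ‖x - y‖ ^ 2 / (2 * s) := by
  have hc' : Continuous (fun p : V × ℝ => rev w p.1 p.2) :=
    (hc.comp (continuous_fst.prodMk continuous_snd.neg)).neg
  obtain ⟨y, hy⟩ := exists_T hc' h.rev hs x (-t)
  refine ⟨y, ?_⟩
  rw [B_eq_neg_T, hy]
  have e : rev w y (-t + s) = - w y (t - s) := by simp only [rev]; congr 2; ring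
  rw [e]
  ring

omit [InnerProductSpace ℝ V] in
theorem self_le_T (h : Grow w) {s : ℝ} (hs : 0 < s) (x : V) (t : ℝ) :
    w x (t + s) ≤ T s w x t := by
  simpa using le_T h hs x x t






/-! ### slopes -/

omit [InnerProductSpace ℝ V] in
theorem IsSub.hp_mono (h : IsSub w) {s s' : ℝ} (hs : 0 < s) (hss : s ≤ s') (x : V) (t : ℝ) :
    hp s w x t ≤ hp s' w x t := by
  have hs' : 0 < s' := lt_of_lt_of_le hs hss
  have h1 := h x t s s' hs hss
  unfold hp
  rw [div_le_div_iff₀ hs hs']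
  have h2 : T s w x t * s' ≤ ((1 - s / s') * w x t + s / s' * T s' w x t) * s' :=
    mul_le_mul_of_nonneg_right h1 hs'.le
  have h3 : ((1 - s / s') * w x t + s / s' * T s' w x t) * s'
      = (s' - s) * w x t + s * T s' w x t := by field_simp
  nlinarith

omit [InnerProductSpace ℝ V] in
theorem IsSup.hm_mono (h : IsSup w) {s s' : ℝ} (hs : 0 < s) (hss : s ≤ s') (x : V) (t : ℝ) :
    hm s w x t ≤ hm s' w x t := by
  rw [hm_eq_hp_rev, hm_eq_hp_rev]
  exact h.rev.hp_mono hs hss x (-t)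

omit [InnerProductSpace ℝ V] in
theorem T_eq_hp (s : ℝ) (hs : 0 < s) (w : V → ℝ → ℝ) (x : V) (t : ℝ) :
    T s w x t = w x t + s * hp s w x t := by
  unfold hp; field_simp; ring

omit [InnerProductSpace ℝ V] in
theorem B_eq_hm (s : ℝ) (hs : 0 < s) (w : V → ℝ → ℝ) (x : V) (t : ℝ) :
    B s w x t = w x t - s * hm s w x t := by
  unfold hm; field_simp; ring

/-- chord bound along the optimal segment -/
theorem chord_le (hG : Grow w) (h : IsSub w) {s r : ℝ} (hs : 0 < s) (hr : 0 < r) (hrs : r ≤ s)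
    (x : V) (t : ℝ) (v : V) :
    w (x + r • v) (t + r) ≤ w x t + r * hp s w x t + r * (‖v‖ ^ 2 / 2) := by
  have h1 := le_T hG hr x (x + r • v) t
  have h2 := h.hp_mono hr hrs x t
  have h3 : ‖x - (x + r • v)‖ ^ 2 / (2 * r) = r * (‖v‖ ^ 2 / 2) := by
    have : x - (x + r • v) = -(r • v) := by abel
    rw [this, norm_neg, norm_smul, Real.norm_eq_abs, mul_pow, sq_abs]
    field_simp
  rw [h3, T_eq_hp r hr] at h1
  nlinarith [mul_le_mul_of_nonneg_left h2 hr.le]

/-- increasing slope, backward form: at a forward maximiser `y` of `(x,t)` -/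
theorem hm_ge_of_max (hG : Grow w) (hsub : IsSub w) (hsup : IsSup w) {s : ℝ} (hs : 0 < s) {x y : V}
    {t : ℝ} (hy : T s w x t = w y (t + s) - ‖x - y‖ ^ 2 / (2 * s)) {r : ℝ} (hr : 0 < r) :
    hp s w x t ≤ hm r w y (t + s) := by
  -- first `r < s`
  have key : ∀ r, 0 < r → r < s → hp s w x t ≤ hm r w y (t + s) := by
    intro r hr hrs
    set v : V := (1 / s) • (y - x) with hv
    have hyv : y = x + s • v := by
      rw [hv, smul_smul, mul_one_div_cancel hs.ne', one_smul]; abel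
    have h1 := chord_le hG hsub hs (sub_pos.2 hrs) (by linarith) x t v
    have h2 := B_le hG hr y (x + (s - r) • v) (t + s)
    have e1 : t + s - r = t + (s - r) := by ring
    rw [e1] at h2
    have e2 : ‖y - (x + (s - r) • v)‖ ^ 2 / (2 * r) = r * (‖v‖ ^ 2 / 2) := by
      have : y - (x + (s - r) • v) = r • v := by rw [hyv, sub_smul]; abel
      rw [this, norm_smul, Real.norm_eq_abs, mul_pow, sq_abs]
      field_simp
    have e3 : ‖x - y‖ ^ 2 / (2 * s) = s * (‖v‖ ^ 2 / 2) := by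
      have : x - y = -(s • v) := by rw [hyv]; abel
      rw [this, norm_neg, norm_smul, Real.norm_eq_abs, mul_pow, sq_abs]
      field_simp
    rw [e3, T_eq_hp s hs] at hy
    rw [e2, B_eq_hm r hr] at h2
    have h3 : r * hp s w x t ≤ r * hm r w y (t + s) := by linarith
    exact le_of_mul_le_mul_left h3 hr
  rcases lt_or_ge r s with h | h
  · exact key r hr h
  · exact (key (s / 2) (by linarith) (by linarith)).trans
      (hsup.hm_mono (by linarith) (by linarith) y (t + s))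

end ops

end Crest.Agent.R094.Sol
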