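import Mathlib

set_option autoImplicit false

/-!
Row 94 (S0124).  Flat windows for space-time functions `w : V → ℝ → ℝ`:
definition, invariances, slope drift, growth and modulus of continuity.
-/

namespace Crest.Agent.R094.Flat

open scoped InnerProductSpace
open Filter Topology Set

variable {V : Type*} [NormedAddCommGroup V] [InnerProductSpace ℝ V]

/-- `w` is flat (with constant `κ`) in the window of size `τ` at `(x₀,t₀)`, with slope `p` and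
time rate `b`; the window moves with velocity `p`. -/
def Win (κ : ℝ) (w : V → ℝ → ℝ) (x₀ : V) (t₀ τ : ℝ) (p : V) (b : ℝ) : Prop :=
  ∀ (x : V) (t : ℝ), ‖x‖ ≤ τ → |t| ≤ τ →
    |w (x₀ + t • p + x) (t₀ + t) - w x₀ t₀ - ⟪p, x⟫_ℝ - b * t| ≤ κ * τ

/-- flat in every window. -/
def FlatW (κ : ℝ) (w : V → ℝ → ℝ) : Prop :=
  ∀ (x₀ : V) (t₀ τ : ℝ), 0 < τ → ∃ (p : V) (b : ℝ), Win κ w x₀ t₀ τ p b

/-! ### Transformations -/

/-- translation -/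
def trans (a : V) (r : ℝ) (w : V → ℝ → ℝ) : V → ℝ → ℝ := fun x t => w (a + x) (r + t)




/-- time reversal -/
def rev (w : V → ℝ → ℝ) : V → ℝ → ℝ := fun x t => - w x (-t)

theorem Win.trans {κ : ℝ} {w : V → ℝ → ℝ} {x₀ : V} {t₀ τ : ℝ} {p : V} {b : ℝ} (a : V) (r : ℝ)
    (h : Win κ w (a + x₀) (r + t₀) τ p b) : Win κ (trans a r w) x₀ t₀ τ p b := by
  intro x t hx ht
  have := h x t hx ht
  simp only [Flat.trans]
  have e1 : a + (x₀ + t • p + x) = a + x₀ + t • p + x := by abel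
  have e2 : r + (t₀ + t) = r + t₀ + t := by ring
  rw [e1, e2]; exact this




theorem Win.rev {κ : ℝ} {w : V → ℝ → ℝ} {x₀ : V} {t₀ τ : ℝ} {p : V} {b : ℝ}
    (h : Win κ w x₀ (-t₀) τ p b) : Win κ (rev w) x₀ t₀ τ (-p) b := by
  intro x t hx ht
  have := h x (-t) hx (by rwa [abs_neg])
  simp only [Flat.rev]
  have e1 : x₀ + t • -p + x = x₀ + (-t) • p + x := by simp
  have e2 : -(t₀ + t) = -t₀ + -t := by ring
  rw [e1, e2, inner_neg_left]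
  have e3 : -w (x₀ + (-t) • p + x) (-t₀ + -t) - -w x₀ (-t₀) - -⟪p, x⟫_ℝ - b * t
    = -(w (x₀ + (-t) • p + x) (-t₀ + -t) - w x₀ (-t₀) - ⟪p, x⟫_ℝ - b * -t) := by ring
  rw [e3, abs_neg]; exact this

theorem Win.mono {κ κ' : ℝ} {w : V → ℝ → ℝ} {x₀ : V} {t₀ τ : ℝ} {p : V} {b : ℝ}
    (h : Win κ w x₀ t₀ τ p b) (hκ : κ ≤ κ') (hτ : 0 ≤ τ) : Win κ' w x₀ t₀ τ p b :=
  fun x t hx ht => (h x t hx ht).trans (mul_le_mul_of_nonneg_right hκ hτ)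


theorem FlatW.trans {κ : ℝ} {w : V → ℝ → ℝ} (h : FlatW κ w) (a : V) (r : ℝ) :
    FlatW κ (trans a r w) := fun x₀ t₀ τ hτ => by
  obtain ⟨p, b, hp⟩ := h (a + x₀) (r + t₀) τ hτ
  exact ⟨p, b, hp.trans a r⟩




theorem FlatW.rev {κ : ℝ} {w : V → ℝ → ℝ} (h : FlatW κ w) :
    FlatW κ (rev w) := fun x₀ t₀ τ hτ => by
  obtain ⟨p, b, hp⟩ := h x₀ (-t₀) τ hτ
  exact ⟨_, _, hp.rev⟩

theorem FlatW.mono {κ κ' : ℝ} {w : V → ℝ → ℝ} (h : FlatW κ w) (hκ : κ ≤ κ') : FlatW κ' w :=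
  fun x₀ t₀ τ hτ => by
  obtain ⟨p, b, hp⟩ := h x₀ t₀ τ hτ
  exact ⟨p, b, hp.mono hκ hτ.le⟩

/-! ### Drift of the slopes -/

theorem slope_drift {κ κ' : ℝ} {w : V → ℝ → ℝ} {x₀ : V} {t₀ τ τ' : ℝ} {p p' : V} {b b' : ℝ}
    (hτ : 0 < τ) (hτ' : τ ≤ τ')
    (h : Win κ w x₀ t₀ τ p b) (h' : Win κ' w x₀ t₀ τ' p' b') :
    ‖p - p'‖ * τ ≤ κ * τ + κ' * τ' := by
  rcases eq_or_ne p p' with rfl | hne
  · simp only [sub_self, norm_zero, zero_mul]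
    have h1 := (abs_nonneg _).trans (h 0 0 (by simpa using hτ.le) (by simpa using hτ.le))
    have h2 := (abs_nonneg _).trans (h' 0 0 (by simpa using hτ.le.trans hτ')
      (by simpa using hτ.le.trans hτ'))
    linarith
  have hd : 0 < ‖p - p'‖ := norm_pos_iff.2 (sub_ne_zero.2 hne)
  set x : V := (τ / ‖p - p'‖) • (p - p') with hx
  have hxn : ‖x‖ = τ := by
    rw [hx, norm_smul, Real.norm_eq_abs, abs_of_pos (div_pos hτ hd)]; field_simp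
  have h1 := h x 0 hxn.le (by simpa using hτ.le)
  have h2 := h' x 0 (hxn.le.trans hτ') (by simpa using hτ.le.trans hτ')
  simp only [zero_smul, add_zero, mul_zero, sub_zero] at h1 h2
  have e : ‖p - p'‖ * τ = ⟪p, x⟫_ℝ - ⟪p', x⟫_ℝ := by
    rw [← inner_sub_left, hx, inner_smul_right, real_inner_self_eq_norm_sq]; field_simp
  rw [e]
  rw [abs_le] at h1 h2
  linarith [h1.1, h1.2, h2.1, h2.2]

/-- comparison of the rates along the line of velocity `p`. -/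
theorem rate_drift {κ κ' : ℝ} {w : V → ℝ → ℝ} {x₀ : V} {t₀ τ τ' : ℝ} {p p' : V} {b b' : ℝ}
    {σ : ℝ} (hσ : 0 < σ) (hστ : σ ≤ τ) (hτ' : τ ≤ τ') (hpp : ‖p - p'‖ * σ ≤ τ')
    (h : Win κ w x₀ t₀ τ p b) (h' : Win κ' w x₀ t₀ τ' p' b') :
    |(b - ‖p‖ ^ 2 / 2) - (b' - ‖p'‖ ^ 2 / 2)| * σ ≤
      κ * τ + κ' * τ' + ‖p - p'‖ ^ 2 / 2 * σ := by
  have h1 := h 0 σ (by simpa using hσ.le.trans hστ) (by rwa [abs_of_pos hσ])
  have hn : ‖σ • (p - p')‖ ≤ τ' := by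
    rw [norm_smul, Real.norm_eq_abs, abs_of_pos hσ, mul_comm]; exact hpp
  have h2 := h' (σ • (p - p')) σ hn (by rw [abs_of_pos hσ]; exact hστ.trans hτ')
  have e1 : x₀ + σ • p' + σ • (p - p') = x₀ + σ • p := by rw [smul_sub]; abel
  rw [e1] at h2
  simp only [add_zero, inner_zero_right, sub_zero] at h1
  have e2 : ⟪p', σ • (p - p')⟫_ℝ = σ * ((‖p‖ ^ 2 - ‖p'‖ ^ 2 - ‖p - p'‖ ^ 2) / 2) := by
    rw [inner_smul_right, inner_sub_right, real_inner_self_eq_norm_sq]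
    have := @norm_sub_sq_real V _ _ p p'
    rw [real_inner_comm p p'] 
    nlinarith [this]
  rw [e2] at h2
  have hb : |(b - ‖p‖ ^ 2 / 2) - (b' - ‖p'‖ ^ 2 / 2)| * σ
      = |((b - ‖p‖ ^ 2 / 2) - (b' - ‖p'‖ ^ 2 / 2)) * σ| := by
    rw [abs_mul, abs_of_pos hσ]
  rw [hb]
  rw [abs_le] at h1 h2 ⊢
  constructor <;> nlinarith [h1.1, h1.2, h2.1, h2.2]

/-- one dyadic step -/
theorem drift_step {κ : ℝ} (hκ : 1 ≤ κ) {w : V → ℝ → ℝ} {x₀ : V} {t₀ τ : ℝ} {p p' : V} {b b' : ℝ}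
    (hτ : 0 < τ) (h : Win κ w x₀ t₀ τ p b) (h' : Win κ w x₀ t₀ (2 * τ) p' b') :
    ‖p - p'‖ ≤ 3 * κ ∧ |(b - ‖p‖ ^ 2 / 2) - (b' - ‖p'‖ ^ 2 / 2)| ≤ 9 * κ ^ 2 := by
  have h1 : ‖p - p'‖ ≤ 3 * κ := by
    have := slope_drift hτ (by linarith) h h'
    have h2 : ‖p - p'‖ * τ ≤ (3 * κ) * τ := by linarith
    exact le_of_mul_le_mul_right h2 hτ
  refine ⟨h1, ?_⟩
  have hκ0 : 0 < κ := by linarith
  have hσ : 0 < 2 * τ / (3 * κ) := by positivity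
  have hστ : 2 * τ / (3 * κ) ≤ τ := by
    rw [div_le_iff₀ (by positivity)]; nlinarith
  have hpp : ‖p - p'‖ * (2 * τ / (3 * κ)) ≤ 2 * τ := by
    calc ‖p - p'‖ * (2 * τ / (3 * κ)) ≤ (3 * κ) * (2 * τ / (3 * κ)) :=
          mul_le_mul_of_nonneg_right h1 hσ.le
      _ = 2 * τ := by field_simp
  have h3 := rate_drift hσ hστ (by linarith) hpp h h'
  have h4 : ‖p - p'‖ ^ 2 ≤ (3 * κ) ^ 2 := by gcongr
  have h5 : κ * τ + κ * (2 * τ) + ‖p - p'‖ ^ 2 / 2 * (2 * τ / (3 * κ))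
      ≤ 9 * κ ^ 2 * (2 * τ / (3 * κ)) := by
    have h6 : ‖p - p'‖ ^ 2 / 2 * (2 * τ / (3 * κ)) ≤ (3 * κ) ^ 2 / 2 * (2 * τ / (3 * κ)) := by
      gcongr
    have h7 : (3 * κ) ^ 2 / 2 * (2 * τ / (3 * κ)) = 3 * κ * τ := by field_simp; 
    have h8 : 9 * κ ^ 2 * (2 * τ / (3 * κ)) = 6 * κ * τ := by field_simp; ring
    rw [h8]; linarith
  exact le_of_mul_le_mul_right (h3.trans h5) hσ

theorem drift_seq {κ : ℝ} (hκ : 1 ≤ κ) {w : V → ℝ → ℝ} {x₀ : V} {t₀ τ : ℝ} (hτ : 0 < τ)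
    (P : ℕ → V) (B : ℕ → ℝ) (n : ℕ) (h : ∀ j ≤ n, Win κ w x₀ t₀ (2 ^ j * τ) (P j) (B j)) :
    ‖P n - P 0‖ ≤ 3 * κ * n ∧
      |(B n - ‖P n‖ ^ 2 / 2) - (B 0 - ‖P 0‖ ^ 2 / 2)| ≤ 9 * κ ^ 2 * n := by
  induction n with
  | zero => simp
  | succ n ih =>
    have ih' := ih (fun j hj => h j (hj.trans (Nat.le_succ n)))
    have hs := drift_step hκ (by positivity) (h n (Nat.le_succ n))
      (by have := h (n + 1) le_rfl; rwa [pow_succ, mul_comm _ (2:ℝ), mul_assoc] at this)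
    constructor
    · have e : P (n + 1) - P 0 = (P n - P 0) - (P n - P (n + 1)) := by abel
      rw [e]
      refine (norm_sub_le _ _).trans ?_
      push_cast
      linarith [ih'.1, hs.1]
    · have h1 := ih'.2
      have h2 := hs.2
      push_cast
      rw [abs_le] at h1 h2 ⊢
      constructor <;> linarith [h1.1, h1.2, h2.1, h2.2]

/-- the basic estimate through the window of size `2 ^ n τ`. -/
theorem far_estimate {κ : ℝ} (hκ : 1 ≤ κ) {w : V → ℝ → ℝ} {x₀ : V} {t₀ τ : ℝ} (hτ : 0 < τ)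
    (P : ℕ → V) (B : ℕ → ℝ) (n : ℕ) (h : ∀ j ≤ n, Win κ w x₀ t₀ (2 ^ j * τ) (P j) (B j))
    (x : V) (t : ℝ) (hx : (1 + 3 * κ * n) * ((‖x‖ + |t|) / τ) ≤ 2 ^ n) :
    |w (x₀ + t • P 0 + x) (t₀ + t) - w x₀ t₀ - ⟪P 0, x⟫_ℝ - B 0 * t|
      ≤ κ * τ * ((1 + 6 * n) * 2 ^ n) := by
  obtain ⟨h1, h2⟩ := drift_seq hκ hτ P B n h
  have hn0 : (0:ℝ) ≤ n := Nat.cast_nonneg n
  have hκ0 : 0 < κ := by linarith
  set r : ℝ := (‖x‖ + |t|) / τ with hr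
  have hr0 : 0 ≤ r := by positivity
  have hxt : ‖x‖ + |t| = r * τ := by rw [hr]; field_simp
  have ht0 : |t| ≤ r * τ := by rw [← hxt]; linarith [norm_nonneg x]
  have hx0 : ‖x‖ ≤ r * τ := by rw [← hxt]; linarith [abs_nonneg t]
  have hxn : ‖x + t • (P 0 - P n)‖ ≤ 2 ^ n * τ := by
    calc ‖x + t • (P 0 - P n)‖ ≤ ‖x‖ + |t| * ‖P n - P 0‖ := by
          refine (norm_add_le _ _).trans ?_
          rw [norm_smul, Real.norm_eq_abs, norm_sub_rev]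
      _ ≤ ‖x‖ + |t| * (3 * κ * n) := by gcongr
      _ ≤ (‖x‖ + |t|) * (1 + 3 * κ * n) := by
          have := norm_nonneg x
          have := abs_nonneg t
          have : 0 ≤ ‖x‖ * (3 * κ * n) := by positivity
          nlinarith
      _ = ((1 + 3 * κ * n) * r) * τ := by rw [hxt]; ring
      _ ≤ 2 ^ n * τ := by gcongr
  have htn : |t| ≤ 2 ^ n * τ := by
    refine ht0.trans ?_
    gcongr
    refine le_trans ?_ hx
    have : 0 ≤ 3 * κ * n * r := by positivity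
    linarith
  have h3 := h n le_rfl (x + t • (P 0 - P n)) t hxn htn
  have e1 : x₀ + t • P n + (x + t • (P 0 - P n)) = x₀ + t • P 0 + x := by
    rw [smul_sub]; abel
  rw [e1] at h3
  have e2 : ⟪P n, x + t • (P 0 - P n)⟫_ℝ = ⟪P n, x⟫_ℝ
      + t * ((‖P 0‖ ^ 2 - ‖P n‖ ^ 2 - ‖P n - P 0‖ ^ 2) / 2) := by
    have h0 := @norm_sub_sq_real V _ _ (P n) (P 0)
    have h0' : ⟪P n, P 0⟫_ℝ = (‖P n‖ ^ 2 + ‖P 0‖ ^ 2 - ‖P n - P 0‖ ^ 2) / 2 := by linarith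
    rw [inner_add_right, inner_smul_right, inner_sub_right, real_inner_self_eq_norm_sq, h0']
    ring
  rw [e2] at h3
  have e3 : w (x₀ + t • P 0 + x) (t₀ + t) - w x₀ t₀ - ⟪P 0, x⟫_ℝ - B 0 * t
      = (w (x₀ + t • P 0 + x) (t₀ + t) - w x₀ t₀ -
        (⟪P n, x⟫_ℝ + t * ((‖P 0‖ ^ 2 - ‖P n‖ ^ 2 - ‖P n - P 0‖ ^ 2) / 2)) - B n * t)
        + ⟪P n - P 0, x⟫_ℝ
        + t * (((B n - ‖P n‖ ^ 2 / 2) - (B 0 - ‖P 0‖ ^ 2 / 2)) - ‖P n - P 0‖ ^ 2 / 2) := by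
    rw [inner_sub_left]; ring
  rw [e3]
  have h4 : |⟪P n - P 0, x⟫_ℝ| ≤ 3 * κ * n * (r * τ) := by
    refine (abs_real_inner_le_norm _ _).trans ?_
    gcongr
  have h5 : |t * (((B n - ‖P n‖ ^ 2 / 2) - (B 0 - ‖P 0‖ ^ 2 / 2)) - ‖P n - P 0‖ ^ 2 / 2)|
      ≤ (r * τ) * (9 * κ ^ 2 * n + (3 * κ * n) ^ 2 / 2) := by
    rw [abs_mul]
    have h6 : |((B n - ‖P n‖ ^ 2 / 2) - (B 0 - ‖P 0‖ ^ 2 / 2)) - ‖P n - P 0‖ ^ 2 / 2|
        ≤ 9 * κ ^ 2 * n + (3 * κ * n) ^ 2 / 2 := by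
      refine (abs_sub _ _).trans ?_
      have h7 : ‖P n - P 0‖ ^ 2 ≤ (3 * κ * n) ^ 2 := by gcongr
      rw [abs_of_nonneg (by positivity : 0 ≤ ‖P n - P 0‖ ^ 2 / 2)]
      linarith
    gcongr
  refine (abs_add_le _ _).trans ?_
  refine (add_le_add ((abs_add_le _ _).trans (add_le_add h3 h4)) h5).trans ?_
  -- now arithmetic
  have hnn : (n:ℝ) ≤ (n:ℝ) ^ 2 := by
    rcases Nat.eq_zero_or_pos n with h0 | h0
    · simp [h0]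
    · have : (1:ℝ) ≤ n := by exact_mod_cast h0
      nlinarith
  have h8 : (3 * κ * n + (9 * κ ^ 2 * n + (3 * κ * n) ^ 2 / 2)) * r ≤ 6 * κ * n * 2 ^ n := by
    have h9 : 3 * κ * n + (9 * κ ^ 2 * n + (3 * κ * n) ^ 2 / 2) ≤ 6 * κ * n * (1 + 3 * κ * n) := by
      nlinarith [mul_nonneg (mul_nonneg hκ0.le hκ0.le) hn0, sq_nonneg (κ * n),
        mul_le_mul_of_nonneg_left hnn (by positivity : 0 ≤ κ ^ 2)]
    calc _ ≤ (6 * κ * n * (1 + 3 * κ * n)) * r := by gcongr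
      _ = 6 * κ * n * ((1 + 3 * κ * n) * r) := by ring
      _ ≤ 6 * κ * n * 2 ^ n := by gcongr
  calc κ * (2 ^ n * τ) + 3 * κ * n * (r * τ) + (r * τ) * (9 * κ ^ 2 * n + (3 * κ * n) ^ 2 / 2)
      = κ * 2 ^ n * τ + ((3 * κ * n + (9 * κ ^ 2 * n + (3 * κ * n) ^ 2 / 2)) * r) * τ := by ring
    _ ≤ κ * 2 ^ n * τ + (6 * κ * n * 2 ^ n) * τ := by gcongr
    _ = κ * τ * ((1 + 6 * n) * 2 ^ n) := by ring

/-! ### Growth -/

/-- the growth weight `(1+r)^(3/2)`. -/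
noncomputable def g (r : ℝ) : ℝ := (1 + r) ^ (3 / 2 : ℝ)

/-- the growth constant -/
noncomputable def Kg (κ : ℝ) : ℝ := κ * (48 * (16 / 9 * (24 * κ)) ^ (3 / 2 : ℝ))

theorem g_nonneg {r : ℝ} (hr : 0 ≤ r) : 0 ≤ g r := by unfold g; positivity


theorem g_mono {r r' : ℝ} (hr : 0 ≤ r) (h : r ≤ r') : g r ≤ g r' := by
  unfold g; exact Real.rpow_le_rpow (by linarith) (by linarith) (by norm_num)

theorem Kg_pos {κ : ℝ} (hκ : 0 < κ) : 0 < Kg κ := by unfold Kg; positivity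

theorem exists_scale {κ : ℝ} (hκ : 1 ≤ κ) {r : ℝ} (hr : 0 ≤ r) :
    ∃ n : ℕ, (1 + 3 * κ * n) * r ≤ 2 ^ n ∧ κ * ((1 + 6 * n) * 2 ^ n) ≤ Kg κ * g r := by
  have hκ0 : 0 < κ := by linarith
  set Z : ℝ := 24 * κ * (1 + r) with hZ
  have hZ1 : 1 < Z := by nlinarith
  have hex : ∃ n : ℕ, Z ≤ (16 / 9 : ℝ) ^ n := by
    obtain ⟨n, hn⟩ := pow_unbounded_of_one_lt Z (by norm_num : (1:ℝ) < 16 / 9)
    exact ⟨n, hn.le⟩
  classical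
  set n := Nat.find hex with hn
  have hn1 : Z ≤ (16 / 9 : ℝ) ^ n := Nat.find_spec hex
  have hn0 : n ≠ 0 := by
    intro h0
    rw [h0, pow_zero] at hn1
    linarith
  obtain ⟨m, hm⟩ := Nat.exists_eq_succ_of_ne_zero hn0
  have hm1 : (16 / 9 : ℝ) ^ m < Z := by
    by_contra hcon
    push Not at hcon
    have := Nat.find_min' hex hcon
    omega
  have hn2 : (16 / 9 : ℝ) ^ n ≤ 16 / 9 * Z := by
    rw [hm, Nat.succ_eq_add_one, pow_succ]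
    linarith
  -- Bernoulli
  have hB : (1 + (n:ℝ) * (1 / 8)) ≤ (9 / 8 : ℝ) ^ n := by
    have := one_add_mul_le_pow (a := (1/8:ℝ)) (by norm_num) n
    calc (1 + (n:ℝ) * (1 / 8)) ≤ (1 + 1 / 8 : ℝ) ^ n := this
      _ = (9 / 8 : ℝ) ^ n := by norm_num
  have hnn : (0:ℝ) ≤ n := Nat.cast_nonneg n
  refine ⟨n, ?_, ?_⟩
  · have h1 : 1 + 3 * κ * n ≤ 24 * κ * (9 / 8 : ℝ) ^ n := by
      calc 1 + 3 * κ * n ≤ 24 * κ * (1 + (n:ℝ) * (1 / 8)) := by nlinarith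
        _ ≤ 24 * κ * (9 / 8 : ℝ) ^ n := by gcongr
    have h98 : (0:ℝ) < (9 / 8 : ℝ) ^ n := by positivity
    calc (1 + 3 * κ * n) * r ≤ (24 * κ * (9 / 8 : ℝ) ^ n) * (1 + r) := by
          have : 0 ≤ 24 * κ * (9 / 8 : ℝ) ^ n := by positivity
          nlinarith
      _ = (9 / 8 : ℝ) ^ n * Z := by rw [hZ]; ring
      _ ≤ (9 / 8 : ℝ) ^ n * (16 / 9 : ℝ) ^ n := by gcongr
      _ = 2 ^ n := by rw [← mul_pow]; norm_num
  · have h1 : (1 + 6 * (n:ℝ)) ≤ 48 * (9 / 8 : ℝ) ^ n := by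
      calc (1 + 6 * (n:ℝ)) ≤ 48 * (1 + (n:ℝ) * (1 / 8)) := by nlinarith
        _ ≤ 48 * (9 / 8 : ℝ) ^ n := by gcongr
    have h2 : ((1 + 6 * (n:ℝ)) * 2 ^ n) ≤ 48 * (64 / 27 : ℝ) ^ n := by
      calc ((1 + 6 * (n:ℝ)) * 2 ^ n) ≤ (48 * (9 / 8 : ℝ) ^ n) * 2 ^ n := by gcongr
        _ = 48 * (9 / 4 : ℝ) ^ n := by rw [mul_assoc, ← mul_pow]; norm_num
        _ ≤ 48 * (64 / 27 : ℝ) ^ n := by
          have := pow_le_pow_left₀ (by norm_num : (0:ℝ) ≤ 9 / 4) (by norm_num : (9 / 4 : ℝ) ≤ 64 / 27) n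
          linarith
    have h3 : ((16 / 9 : ℝ) ^ n) ^ (3 / 2 : ℝ) = (64 / 27 : ℝ) ^ n := by
      rw [← Real.rpow_natCast, ← Real.rpow_mul (by norm_num), mul_comm, Real.rpow_mul (by norm_num),
        Real.rpow_natCast]
      congr 1
      rw [show (16 / 9 : ℝ) = (4 / 3 : ℝ) ^ (2:ℝ) by norm_num, ← Real.rpow_mul (by norm_num)]
      norm_num
    have h4 : (64 / 27 : ℝ) ^ n ≤ (16 / 9 * (24 * κ)) ^ (3 / 2 : ℝ) * g r := by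
      rw [← h3]
      unfold g
      rw [← Real.mul_rpow (by positivity) (by positivity)]
      refine Real.rpow_le_rpow (by positivity) ?_ (by norm_num)
      calc (16 / 9 : ℝ) ^ n ≤ 16 / 9 * Z := hn2
        _ = 16 / 9 * (24 * κ) * (1 + r) := by rw [hZ]; ring
    unfold Kg
    calc κ * ((1 + 6 * n) * 2 ^ n) ≤ κ * (48 * (64 / 27 : ℝ) ^ n) := by gcongr
      _ ≤ κ * (48 * ((16 / 9 * (24 * κ)) ^ (3 / 2 : ℝ) * g r)) := by gcongr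
      _ = κ * (48 * (16 / 9 * (24 * κ)) ^ (3 / 2 : ℝ)) * g r := by ring

/-- flat with weight `g` at all points (the class `G_K`). -/
def FlatG (K : ℝ) (w : V → ℝ → ℝ) : Prop :=
  ∀ (x₀ : V) (t₀ τ : ℝ), 0 < τ → ∃ (p : V) (b : ℝ), ∀ (x : V) (t : ℝ),
    |w (x₀ + t • p + x) (t₀ + t) - w x₀ t₀ - ⟪p, x⟫_ℝ - b * t| ≤ K * τ * g ((‖x‖ + |t|) / τ)

theorem growth {κ : ℝ} (hκ : 1 ≤ κ) {w : V → ℝ → ℝ} {x₀ : V} {t₀ τ : ℝ} (hτ : 0 < τ)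
    {p : V} {b : ℝ} (h0 : Win κ w x₀ t₀ τ p b)
    (h : ∀ n : ℕ, ∃ p b, Win κ w x₀ t₀ (2 ^ n * τ) p b) (x : V) (t : ℝ) :
    |w (x₀ + t • p + x) (t₀ + t) - w x₀ t₀ - ⟪p, x⟫_ℝ - b * t|
      ≤ Kg κ * τ * g ((‖x‖ + |t|) / τ) := by
  choose P B hPB using h
  have hr : 0 ≤ (‖x‖ + |t|) / τ := by positivity
  obtain ⟨n, hn1, hn2⟩ := exists_scale hκ hr
  let P' : ℕ → V := fun n => if n = 0 then p else P n
  let B' : ℕ → ℝ := fun n => if n = 0 then b else B n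
  have hW : ∀ j ≤ n, Win κ w x₀ t₀ (2 ^ j * τ) (P' j) (B' j) := by
    intro j _
    rcases Nat.eq_zero_or_pos j with hj | hj
    · subst hj; simpa [P', B'] using h0
    · have : j ≠ 0 := hj.ne'
      simpa [P', B', this] using hPB j
  have := far_estimate hκ hτ P' B' n hW x t hn1
  simp only [P', B', if_true] at this
  refine this.trans ?_
  calc κ * τ * ((1 + 6 * n) * 2 ^ n) = τ * (κ * ((1 + 6 * n) * 2 ^ n)) := by ring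
    _ ≤ τ * (Kg κ * g ((‖x‖ + |t|) / τ)) := by gcongr
    _ = _ := by ring

theorem FlatW.growth {κ : ℝ} (hκ : 1 ≤ κ) {w : V → ℝ → ℝ} (h : FlatW κ w)
    {x₀ : V} {t₀ τ : ℝ} (hτ : 0 < τ)
    {p : V} {b : ℝ} (h0 : Win κ w x₀ t₀ τ p b) (x : V) (t : ℝ) :
    |w (x₀ + t • p + x) (t₀ + t) - w x₀ t₀ - ⟪p, x⟫_ℝ - b * t|
      ≤ Kg κ * τ * g ((‖x‖ + |t|) / τ) :=
  Flat.growth hκ hτ h0 (fun n => h x₀ t₀ (2 ^ n * τ) (by positivity)) x t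

theorem FlatW.flatG {κ : ℝ} (hκ : 1 ≤ κ) {w : V → ℝ → ℝ} (h : FlatW κ w) : FlatG (Kg κ) w := by
  intro x₀ t₀ τ hτ
  obtain ⟨p, b, hp⟩ := h x₀ t₀ τ hτ
  exact ⟨p, b, h.growth hκ hτ hp⟩


/-- subquadratic growth of `g`. -/
theorem g_le_quad {c : ℝ} (hc : 0 < c) : ∃ C : ℝ, ∀ r : ℝ, 0 ≤ r → g r ≤ c * r ^ 2 + C := by
  refine ⟨3 * c + 1 / (4 * c ^ 3), fun r hr => ?_⟩
  unfold g
  set y : ℝ := Real.sqrt (1 + r) with hy
  have hy2 : y ^ 2 = 1 + r := Real.sq_sqrt (by linarith)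
  have e : (1 + r) ^ (3 / 2 : ℝ) = y ^ 3 := by
    rw [hy, Real.sqrt_eq_rpow, ← Real.rpow_natCast, ← Real.rpow_mul (by linarith)]
    norm_num
  rw [e]
  have hr' : r = y ^ 2 - 1 := by linarith
  rw [hr']
  have i1 : y ≤ c / 2 * y ^ 2 + 1 / (2 * c) := by
    rw [← sub_nonneg]
    have : c / 2 * y ^ 2 + 1 / (2 * c) - y = (c * y - 1) ^ 2 / (2 * c) := by field_simp; ring
    rw [this]; positivity
  have i2 : y ^ 2 / (2 * c) ≤ c / 4 * y ^ 4 + 1 / (4 * c ^ 3) := by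
    rw [← sub_nonneg]
    have : c / 4 * y ^ 4 + 1 / (4 * c ^ 3) - y ^ 2 / (2 * c)
        = (c ^ 2 * y ^ 2 - 1) ^ 2 / (4 * c ^ 3) := by field_simp; ring
    rw [this]; positivity
  have i3 : y ^ 3 ≤ c / 2 * y ^ 4 + y ^ 2 / (2 * c) := by
    calc y ^ 3 = y ^ 2 * y := by ring
      _ ≤ y ^ 2 * (c / 2 * y ^ 2 + 1 / (2 * c)) := by gcongr
      _ = _ := by ring
  have i4 : 0 ≤ c / 4 * (y ^ 2 - 4) ^ 2 := by positivity
  nlinarith [i2, i3, i4]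

/-! ### Bounds for the slopes and modulus of continuity -/

/-- bounds for the slope and the rate in terms of a bound for `w`. -/
theorem Win.bounds {κ M : ℝ} (hκ : 0 ≤ κ) (hM : 0 ≤ M) {w : V → ℝ → ℝ} {x₀ : V} {t₀ τ : ℝ} {p : V}
    {b : ℝ} (hτ : 0 < τ) (h : Win κ w x₀ t₀ τ p b)
    (hw : ∀ x t, ‖x‖ ≤ τ → |t| ≤ τ → |w (x₀ + x) (t₀ + t)| ≤ M) :
    ‖p‖ ≤ κ + 2 * M / τ ∧ |b - ‖p‖ ^ 2 / 2| ≤ 2 * (1 + κ + 2 * M / τ) ^ 2 := by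
  have hw0 : |w x₀ t₀| ≤ M := by simpa using hw 0 0 (by simpa using hτ.le) (by simpa using hτ.le)
  have h1 : ‖p‖ ≤ κ + 2 * M / τ := by
    rcases eq_or_ne p 0 with rfl | hp
    · rw [norm_zero]; positivity
    have hpn : 0 < ‖p‖ := norm_pos_iff.2 hp
    set x : V := (τ / ‖p‖) • p with hx
    have hxn : ‖x‖ = τ := by
      rw [hx, norm_smul, Real.norm_eq_abs, abs_of_pos (div_pos hτ hpn)]; field_simp
    have h2 := h x 0 hxn.le (by simpa using hτ.le)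
    have h3 := hw x 0 hxn.le (by simpa using hτ.le)
    simp only [zero_smul, add_zero, mul_zero, sub_zero] at h2 h3
    have e : ⟪p, x⟫_ℝ = ‖p‖ * τ := by
      rw [hx, inner_smul_right, real_inner_self_eq_norm_sq]; field_simp
    rw [e] at h2
    have h4 : ‖p‖ * τ ≤ (κ + 2 * M / τ) * τ := by
      have : (κ + 2 * M / τ) * τ = κ * τ + 2 * M := by field_simp
      rw [this]
      rw [abs_le] at h2 h3 hw0
      linarith [h2.1, h3.2, hw0.1]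
    exact le_of_mul_le_mul_right h4 hτ
  refine ⟨h1, ?_⟩
  set A : ℝ := κ + 2 * M / τ with hA
  have hA0 : 0 ≤ A := by positivity
  -- the line `x = - t p`
  set σ : ℝ := τ / (1 + ‖p‖) with hσ
  have hpn0 := norm_nonneg p
  have hσ0 : 0 < σ := by positivity
  have hστ : σ ≤ τ := by
    rw [hσ, div_le_iff₀ (by positivity)]; nlinarith
  have hn : ‖(-σ) • p‖ ≤ τ := by
    rw [norm_smul, Real.norm_eq_abs, abs_neg, abs_of_pos hσ0, hσ, div_mul_eq_mul_div,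
      div_le_iff₀ (by positivity)]
    nlinarith
  have h2 := h ((-σ) • p) σ hn (by rwa [abs_of_pos hσ0])
  have e1 : x₀ + σ • p + (-σ) • p = x₀ + 0 := by rw [neg_smul]; abel
  rw [e1, inner_smul_right, real_inner_self_eq_norm_sq] at h2
  have h3 := hw 0 σ (by simpa using hτ.le) (by rwa [abs_of_pos hσ0])
  have h4 : |b - ‖p‖ ^ 2| * σ ≤ κ * τ + 2 * M := by
    have e4 : |b - ‖p‖ ^ 2| * σ = |(b - ‖p‖ ^ 2) * σ| := by rw [abs_mul, abs_of_pos hσ0]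
    rw [e4]
    rw [abs_le] at h2 h3 hw0 ⊢
    constructor <;> nlinarith [h2.1, h2.2, h3.1, h3.2, hw0.1, hw0.2]
  have h5 : |b - ‖p‖ ^ 2| ≤ A * (1 + ‖p‖) := by
    have h6 : A * (1 + ‖p‖) * σ = κ * τ + 2 * M := by
      rw [hA, hσ]; field_simp
    rw [← h6] at h4
    exact le_of_mul_le_mul_right h4 hσ0
  have h6 : |b - ‖p‖ ^ 2 / 2| ≤ |b - ‖p‖ ^ 2| + ‖p‖ ^ 2 / 2 := by
    have : b - ‖p‖ ^ 2 / 2 = (b - ‖p‖ ^ 2) + ‖p‖ ^ 2 / 2 := by ring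
    rw [this]
    refine (abs_add_le _ _).trans ?_
    rw [abs_of_nonneg (by positivity : 0 ≤ ‖p‖ ^ 2 / 2)]
  have h7 : ‖p‖ ^ 2 ≤ A ^ 2 := by gcongr
  have e : 2 * (1 + κ + 2 * M / τ) ^ 2 = 2 * (1 + A) ^ 2 := by rw [hA]; ring
  rw [e]
  have h8 : A * (1 + ‖p‖) ≤ A * (1 + A) := by gcongr
  nlinarith

/-- bounds at the small scale `2^{-N}`. -/
theorem small_bounds {κ M : ℝ} (hκ : 1 ≤ κ) (hM : 0 ≤ M) {w : V → ℝ → ℝ} {x₀ : V} {t₀ : ℝ} (N : ℕ)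
    (hw : ∀ x t, ‖x‖ ≤ 1 → |t| ≤ 1 → |w (x₀ + x) (t₀ + t)| ≤ M)
    (h : ∀ j ≤ N, ∃ p b, Win κ w x₀ t₀ (2 ^ j * (1 / 2 ^ N)) p b)
    {p : V} {b : ℝ} (hp : Win κ w x₀ t₀ (1 / 2 ^ N) p b) :
    ‖p‖ ≤ 3 * κ + 2 * M + 3 * κ * N ∧
      |b| ≤ 2 * (1 + 3 * κ + 2 * M) ^ 2 + 9 * κ ^ 2 * (1 + N)
        + (3 * κ + 2 * M + 3 * κ * N) ^ 2 / 2 := by
  have hκ0 : 0 < κ := by linarith
  choose! P B hPB using h
  let P' : ℕ → V := fun n => if n = 0 then p else P n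
  let B' : ℕ → ℝ := fun n => if n = 0 then b else B n
  have hW : ∀ j ≤ N, Win κ w x₀ t₀ (2 ^ j * (1 / 2 ^ N)) (P' j) (B' j) := by
    intro j hjN
    rcases Nat.eq_zero_or_pos j with hj | hj
    · subst hj; simpa [P', B'] using hp
    · have : j ≠ 0 := hj.ne'
      simpa [P', B', this] using hPB j hjN
  obtain ⟨h1, h2⟩ := drift_seq hκ (by positivity) P' B' N hW
  have hN := hW N le_rfl
  have e : (2:ℝ) ^ N * (1 / 2 ^ N) = 1 := by field_simp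
  rw [e] at hN
  obtain ⟨h3, h4⟩ := hN.bounds hκ0.le hM one_pos hw
  have eP : P' 0 = p := by simp [P']
  have eB : B' 0 = b := by simp [B']
  rw [eP] at h1
  rw [eP, eB] at h2
  have hNn : (0:ℝ) ≤ N := Nat.cast_nonneg N
  have h5 : ‖p‖ ≤ κ + 2 * M + 3 * κ * N := by
    have : p = P' N - (P' N - p) := by abel
    calc ‖p‖ = ‖P' N - (P' N - p)‖ := by rw [← this]
      _ ≤ ‖P' N‖ + ‖P' N - p‖ := norm_sub_le _ _
      _ ≤ (κ + 2 * M / 1) + 3 * κ * N := add_le_add h3 h1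
      _ = κ + 2 * M + 3 * κ * N := by ring
  have h6 : |b - ‖p‖ ^ 2 / 2| ≤ 2 * (1 + κ + 2 * M) ^ 2 + 9 * κ ^ 2 * N := by
    rw [div_one] at h4
    rw [abs_le] at h2 h4 ⊢
    constructor <;> linarith [h2.1, h2.2, h4.1, h4.2]
  have h7 : |b| ≤ |b - ‖p‖ ^ 2 / 2| + ‖p‖ ^ 2 / 2 := by
    have : b = (b - ‖p‖ ^ 2 / 2) + ‖p‖ ^ 2 / 2 := by ring
    calc |b| = |(b - ‖p‖ ^ 2 / 2) + ‖p‖ ^ 2 / 2| := by rw [← this]
      _ ≤ |b - ‖p‖ ^ 2 / 2| + |‖p‖ ^ 2 / 2| := abs_add_le _ _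
      _ = _ := by rw [abs_of_nonneg (by positivity : 0 ≤ ‖p‖ ^ 2 / 2)]
  have h8 : ‖p‖ ^ 2 ≤ (3 * κ + 2 * M + 3 * κ * N) ^ 2 := by
    have : ‖p‖ ≤ 3 * κ + 2 * M + 3 * κ * N := by linarith
    gcongr
  refine ⟨by linarith, ?_⟩
  have h9 : (1 + κ + 2 * M) ^ 2 ≤ (1 + 3 * κ + 2 * M) ^ 2 := by gcongr; linarith
  nlinarith [sq_nonneg κ]

/-- uniform modulus of continuity. -/
theorem modulus {κ M ε : ℝ} (hκ : 1 ≤ κ) (hM : 0 ≤ M) (hε : 0 < ε) :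
    ∃ δ : ℝ, 0 < δ ∧ δ ≤ 1 ∧ ∃ N : ℕ, ∀ (w : V → ℝ → ℝ) (x₀ : V) (t₀ : ℝ),
      (∀ x t, ‖x‖ ≤ 1 → |t| ≤ 1 → |w (x₀ + x) (t₀ + t)| ≤ M) →
      (∀ j ≤ N, ∃ p b, Win κ w x₀ t₀ (2 ^ j * (1 / 2 ^ N)) p b) →
      ∀ x t, ‖x‖ ≤ δ → |t| ≤ δ → |w (x₀ + x) (t₀ + t) - w x₀ t₀| ≤ ε := by
  have hκ0 : 0 < κ := by linarith
  -- choose N
  set A : ℕ → ℝ := fun N => 3 * κ + 2 * M + 3 * κ * N with hA
  set D : ℕ → ℝ := fun N => 2 * (1 + 3 * κ + 2 * M) ^ 2 + 9 * κ ^ 2 * (1 + N)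
        + (3 * κ + 2 * M + 3 * κ * N) ^ 2 / 2 with hD
  have hlim : Tendsto (fun N : ℕ => (A N + D N + κ) / 2 ^ N) atTop (𝓝 0) := by
    have t0 : Tendsto (fun n : ℕ => (n:ℝ) ^ 0 / 2 ^ n) atTop (𝓝 0) :=
      tendsto_pow_const_div_const_pow_of_one_lt 0 (by norm_num)
    have t1 : Tendsto (fun n : ℕ => (n:ℝ) ^ 1 / 2 ^ n) atTop (𝓝 0) :=
      tendsto_pow_const_div_const_pow_of_one_lt 1 (by norm_num)
    have t2 : Tendsto (fun n : ℕ => (n:ℝ) ^ 2 / 2 ^ n) atTop (𝓝 0) :=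
      tendsto_pow_const_div_const_pow_of_one_lt 2 (by norm_num)
    have := ((t0.const_mul (3 * κ + 2 * M + κ + (2 * (1 + 3 * κ + 2 * M) ^ 2 + 9 * κ ^ 2
        + (3 * κ + 2 * M) ^ 2 / 2))).add
        (t1.const_mul (3 * κ + 9 * κ ^ 2 + (3 * κ + 2 * M) * (3 * κ)))).add
        (t2.const_mul ((3 * κ) ^ 2 / 2))
    simp only [mul_zero, add_zero] at this
    refine this.congr (fun n => ?_)
    simp only [hA, hD]
    ring
  obtain ⟨N, hN⟩ := (hlim.eventually (ge_mem_nhds hε)).exists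
  have hA0 : 0 ≤ A N := by simp only [hA]; positivity
  have hD0 : 0 ≤ D N := by simp only [hD]; positivity
  have h2N : (0:ℝ) < 2 ^ N := by positivity
  refine ⟨1 / 2 ^ N / (1 + A N), by positivity, ?_, N, ?_⟩
  · rw [div_div, div_le_one (by positivity)]
    have : (1:ℝ) ≤ 2 ^ N := one_le_pow₀ (by norm_num)
    nlinarith
  intro w x₀ t₀ hw h x t hx ht
  obtain ⟨p, b, hp⟩ := h 0 (Nat.zero_le N)
  rw [pow_zero, one_mul] at hp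
  obtain ⟨h1, h2⟩ := small_bounds hκ hM N hw h hp
  set δ : ℝ := 1 / 2 ^ N / (1 + A N) with hδ
  have hδ0 : 0 < δ := by positivity
  have hδA : δ * (1 + A N) = 1 / 2 ^ N := by rw [hδ]; field_simp
  have hδ1 : δ ≤ 1 / 2 ^ N := by
    rw [← hδA]; nlinarith
  have hxn : ‖x - t • p‖ ≤ 1 / 2 ^ N := by
    calc ‖x - t • p‖ ≤ ‖x‖ + |t| * ‖p‖ := by
          refine (norm_sub_le _ _).trans ?_
          rw [norm_smul, Real.norm_eq_abs]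
      _ ≤ δ + δ * A N := by gcongr
      _ = 1 / 2 ^ N := by rw [← hδA]; ring
  have h3 := hp (x - t • p) t hxn (ht.trans hδ1)
  have e1 : x₀ + t • p + (x - t • p) = x₀ + x := by abel
  rw [e1] at h3
  have h4 : |⟪p, x - t • p⟫_ℝ| ≤ A N * (1 / 2 ^ N) := by
    refine (abs_real_inner_le_norm _ _).trans ?_
    gcongr
  have h5 : |b * t| ≤ D N * (1 / 2 ^ N) := by
    rw [abs_mul]
    have := ht.trans hδ1
    gcongr
  have e2 : w (x₀ + x) (t₀ + t) - w x₀ t₀ =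
      (w (x₀ + x) (t₀ + t) - w x₀ t₀ - ⟪p, x - t • p⟫_ℝ - b * t) + ⟪p, x - t • p⟫_ℝ + b * t := by
    ring
  rw [e2]
  refine (abs_add_le _ _).trans ?_
  refine (add_le_add ((abs_add_le _ _).trans (add_le_add h3 h4)) h5).trans ?_
  calc κ * (1 / 2 ^ N) + A N * (1 / 2 ^ N) + D N * (1 / 2 ^ N) = (A N + D N + κ) / 2 ^ N := by ring
    _ ≤ ε := hN

end Crest.Agent.R094.Flat
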