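import Crest.Agent.R094.Env
import Crest.Agent.R094.SolDefs
import Mathlib
import Crest.Agent.R094.Iface
import Crest.Agent.R094.SolBasic
import Crest.Agent.R094.StageE
import Crest.Agent.R094.EnvK
import Crest.Agent.R094.Flat

-- ▼ part R094/EnvBridge
section

/-!
Row 94 (S0124), helper478.  Bridge: `UEnv` is the smallest value at `x` of a paraboloid of opening
`1/ρ` above `f` (the form `envU` used by Stage D).
-/

set_option autoImplicit false
set_option linter.unusedSectionVars false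

namespace Crest.Agent.R094.Env

open Set Filter Topology

variable {V : Type*} [NormedAddCommGroup V] [InnerProductSpace ℝ V]





/-! ### Bridge to the operators of `SolDefs` -/

open Crest.Agent.R094 in
lemma supc_eq_Qs (s : ℝ) (f : V → ℝ) (x : V) : Sol.supc s f x = Qs s f x := by
  unfold Sol.supc Qs
  exact iSup_congr fun y => by rw [norm_sub_rev]





open Crest.Agent.R094 in
lemma Grow.subQ {w : V → ℝ → ℝ} (h : Sol.Grow w) (t : ℝ) : SubQ (fun y => w y t) := by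
  intro ε hε
  obtain ⟨C, hC⟩ := h |t| ε hε
  exact ⟨C, fun y => hC y t le_rfl⟩

end Crest.Agent.R094.Env
end

-- ▼ part R094/Rigid2
section

/-!
Row 94 (S0124), helper404: rigidity lemmas of note 7921 (definition-free).
-/

open scoped RealInnerProductSpace

namespace Crest.Agent.R094.Rigid2

variable {V : Type*} [NormedAddCommGroup V] [InnerProductSpace ℝ V]

/-- If two quantities differ by at most `c / S` for all large `S`, then `a ≤ b`. -/
theorem le_of_forall_large {a b c S₀ : ℝ} (h : ∀ S, S₀ < S → a ≤ b + c / S) : a ≤ b := by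
  have h1 : Filter.Tendsto (fun S : ℝ => b + c / S) Filter.atTop (nhds (b + 0)) :=
    tendsto_const_nhds.add (tendsto_const_nhds.div_atTop Filter.tendsto_id)
  rw [add_zero] at h1
  exact ge_of_tendsto h1 ((Filter.eventually_gt_atTop S₀).mono fun S hS => h S hS)




/-! ### (R2): the case of defect zero -/

/-- A function which is both convex and concave on a finite-dimensional space is affine. -/
theorem affine_of_convex_concave [FiniteDimensional ℝ V] (f : V → ℝ)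
    (hcv : ConvexOn ℝ Set.univ f) (hcc : ConcaveOn ℝ Set.univ f) :
    ∃ p : V, ∀ x, f x = f 0 + ⟪p, x⟫ := by
  have : CompleteSpace V := FiniteDimensional.complete ℝ V
  have hcomb : ∀ (x y : V) (a b : ℝ), 0 ≤ a → 0 ≤ b → a + b = 1 →
      f (a • x + b • y) = a * f x + b * f y := by
    intro x y a b ha hb hab
    have h1 := hcv.2 (Set.mem_univ x) (Set.mem_univ y) ha hb hab
    have h2 := hcc.2 (Set.mem_univ x) (Set.mem_univ y) ha hb hab
    simp only [smul_eq_mul] at h1 h2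
    exact le_antisymm h1 h2
  set g : V → ℝ := fun x => f x - f 0 with hg
  have hsm1 : ∀ (x : V) (r : ℝ), 0 ≤ r → r ≤ 1 → g (r • x) = r * g x := by
    intro x r h0 h1
    have h2 := hcomb x 0 r (1 - r) h0 (by linarith) (by ring)
    rw [smul_zero, add_zero] at h2
    simp only [hg, h2]; ring
  have hsmul : ∀ (x : V) (r : ℝ), 0 ≤ r → g (r • x) = r * g x := by
    intro x r h0
    rcases le_total r 1 with h1 | h1
    · exact hsm1 x r h0 h1
    · have hr : 0 < r := by linarith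
      have h2 := hsm1 (r • x) r⁻¹ (by positivity) (inv_le_one_of_one_le₀ h1)
      rw [smul_smul, inv_mul_cancel₀ hr.ne', one_smul] at h2
      rw [h2, ← mul_assoc, mul_inv_cancel₀ hr.ne', one_mul]
  have hadd : ∀ x y : V, g (x + y) = g x + g y := by
    intro x y
    have h1 := hcomb ((2 : ℝ) • x) ((2 : ℝ) • y) (1 / 2) (1 / 2) (by norm_num) (by norm_num)
      (by norm_num)
    rw [smul_smul, smul_smul, show (1 / 2 * 2 : ℝ) = 1 by norm_num, one_smul, one_smul] at h1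
    have h2 := hsmul x 2 (by norm_num)
    have h3 := hsmul y 2 (by norm_num)
    simp only [hg] at h2 h3 ⊢
    linarith
  have hneg : ∀ x : V, g (-x) = - g x := by
    intro x
    have h1 := hadd x (-x)
    rw [add_neg_cancel] at h1
    have h2 : g 0 = 0 := by simp [hg]
    linarith
  have hlin : ∀ (r : ℝ) (x : V), g (r • x) = r * g x := by
    intro r x
    rcases le_total 0 r with h | h
    · exact hsmul x r h
    · have h1 := hsmul (-x) (-r) (by linarith)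
      rw [smul_neg, neg_smul, neg_neg, hneg] at h1
      linarith
  let G : V →ₗ[ℝ] ℝ :=
    { toFun := g
      map_add' := hadd
      map_smul' := fun r x => by simpa using hlin r x }
  refine ⟨(InnerProductSpace.toDual ℝ V).symm (LinearMap.toContinuousLinearMap G), fun x => ?_⟩
  rw [InnerProductSpace.toDual_symm_apply]
  change f x = f 0 + g x
  simp only [hg]; ring

/-- A function of one real variable with the chord equality is affine. -/
theorem affine_of_chord {E : Type*} [AddCommGroup E] [Module ℝ E] (p : ℝ → E)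
    (h : ∀ t s s' : ℝ, 0 < s → s < s' →
      p (t + s) = (1 - s / s') • p t + (s / s') • p (t + s')) :
    ∀ t, p t = p 0 + t • (p 1 - p 0) := by
  intro t
  rcases lt_trichotomy t 0 with ht | ht | ht
  · -- `0` lies between `t` and `1`
    have h1 := h t (-t) (1 - t) (by linarith) (by linarith)
    rw [add_neg_cancel, show t + (1 - t) = 1 by ring] at h1
    have h1t : (1 - t) ≠ 0 := by linarith
    have h2 : (1 - -t / (1 - t)) = (1 - t)⁻¹ := by field_simp; ring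
    have h3 : (-t / (1 - t)) = (1 - t)⁻¹ * (-t) := by field_simp
    rw [h2, h3, mul_smul, ← smul_add] at h1
    have h4 : (1 - t) • p 0 = p t + (-t) • p 1 := by
      rw [h1, smul_smul, mul_inv_cancel₀ h1t, one_smul]
    have h5 : p t = (1 - t) • p 0 - (-t) • p 1 := by rw [h4]; abel
    rw [h5, sub_smul, one_smul, neg_smul, smul_sub]; abel
  · subst ht; simp
  · rcases lt_trichotomy t 1 with ht1 | ht1 | ht1
    · have h1 := h 0 t 1 ht ht1
      rw [zero_add, zero_add, div_one] at h1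
      rw [h1, sub_smul, one_smul, smul_sub]; abel
    · subst ht1; simp
    · have h1 := h 0 1 t one_pos ht1
      rw [zero_add, zero_add] at h1
      have ht0 : t ≠ 0 := ht.ne'
      have h4 : t • p 1 = (t - 1) • p 0 + p t := by
        rw [h1, smul_add, smul_smul, smul_smul, mul_one_div_cancel ht0, one_smul]
        congr 2
        field_simp
      have h5 : p t = t • p 1 - (t - 1) • p 0 := by rw [h4]; abel
      rw [h5, sub_smul, one_smul, smul_sub]; abel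

/-- Growth `(1+|x|+|t|)^{3/2}` forces a time-affine slope to be constant. -/
theorem slope_zero_of_growth {C a b : ℝ} (h : ∀ R : ℝ, 1 ≤ R →
    R * (b * R - a) ≤ C * (1 + R + R) ^ (3 / 2 : ℝ)) : b ≤ 0 := by
  by_contra hb
  push Not at hb
  -- divide by `R ^ 2` and let `R → ∞`
  have h1 : Filter.Tendsto (fun R : ℝ => b - a / R) Filter.atTop (nhds (b - 0)) :=
    tendsto_const_nhds.sub (tendsto_const_nhds.div_atTop Filter.tendsto_id)
  have h2 : Filter.Tendsto (fun R : ℝ => |C| * 3 ^ (3 / 2 : ℝ) * R ^ (-(1 / 2) : ℝ)) Filter.atTop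
      (nhds (|C| * 3 ^ (3 / 2 : ℝ) * 0)) :=
    (tendsto_rpow_neg_atTop (by norm_num)).const_mul _
  rw [sub_zero] at h1
  rw [mul_zero] at h2
  have h3 : b ≤ 0 := by
    refine le_of_tendsto_of_tendsto h1 h2 ?_
    filter_upwards [Filter.eventually_ge_atTop (1 : ℝ)] with R hR
    have hR0 : 0 < R := by linarith
    have h4 := h R hR
    have h5 : (1 + R + R) ^ (3 / 2 : ℝ) ≤ (3 * R) ^ (3 / 2 : ℝ) :=
      Real.rpow_le_rpow (by linarith) (by linarith) (by norm_num)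
    have h6 : (3 * R) ^ (3 / 2 : ℝ) = 3 ^ (3 / 2 : ℝ) * R ^ (3 / 2 : ℝ) :=
      Real.mul_rpow (by norm_num) hR0.le
    have h7 : R * (b * R - a) ≤ |C| * (3 ^ (3 / 2 : ℝ) * R ^ (3 / 2 : ℝ)) := by
      refine h4.trans ?_
      rw [← h6]
      calc C * (1 + R + R) ^ (3 / 2 : ℝ) ≤ |C| * (1 + R + R) ^ (3 / 2 : ℝ) :=
            mul_le_mul_of_nonneg_right (le_abs_self C) (Real.rpow_nonneg (by linarith) _)
        _ ≤ _ := mul_le_mul_of_nonneg_left h5 (abs_nonneg C)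
    have h8 : R ^ (3 / 2 : ℝ) = R ^ 2 * R ^ (-(1 / 2) : ℝ) := by
      rw [← Real.rpow_natCast, ← Real.rpow_add hR0]; norm_num
    have h9 : b - a / R = (R * (b * R - a)) / R ^ 2 := by field_simp
    rw [h9, div_le_iff₀ (by positivity)]
    calc R * (b * R - a) ≤ |C| * (3 ^ (3 / 2 : ℝ) * R ^ (3 / 2 : ℝ)) := h7
      _ = |C| * 3 ^ (3 / 2 : ℝ) * R ^ (-(1 / 2) : ℝ) * R ^ 2 := by rw [h8]; ring
  linarith

/-- **(R2).**  A solution all of whose time slices are affine, with `3/2`-growth, is affine. -/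
theorem affine_of_slices [FiniteDimensional ℝ V] (w : V → ℝ → ℝ)
    (hcv : ∀ t, ConvexOn ℝ Set.univ fun x => w x t)
    (hcc : ∀ t, ConcaveOn ℝ Set.univ fun x => w x t)
    (hgrow : ∃ C : ℝ, ∀ x t, |w x t| ≤ C * (1 + ‖x‖ + |t|) ^ (3 / 2 : ℝ))
    (hSub : ∀ (x : V) (t s s' : ℝ), 0 < s → s < s' → ∀ A : ℝ,
      (∀ y, w y (t + s') - ‖x - y‖ ^ 2 / (2 * s') ≤ A) →
      ∀ y, w y (t + s) - ‖x - y‖ ^ 2 / (2 * s) ≤ (1 - s / s') * w x t + s / s' * A)
    (hSup : ∀ (x : V) (t s s' : ℝ), 0 < s → s < s' → ∀ A : ℝ,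
      (∀ y, A ≤ w y (t - s') + ‖x - y‖ ^ 2 / (2 * s')) →
      ∀ y, (1 - s / s') * w x t + s / s' * A ≤ w y (t - s) + ‖x - y‖ ^ 2 / (2 * s)) :
    ∃ (p : V) (b c : ℝ), ∀ x t, w x t = ⟪p, x⟫ + b * t + c := by
  choose p hp using fun t => affine_of_convex_concave (fun x => w x t) (hcv t) (hcc t)
  set c : ℝ → ℝ := fun t => w 0 t with hc
  have hw : ∀ x t, w x t = c t + ⟪p t, x⟫ := fun x t => hp t x
  -- exact value of the sup-convolution
  have hval : ∀ (x y : V) (t s : ℝ), 0 < s →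
      w y t - ‖x - y‖ ^ 2 / (2 * s) ≤ c t + ⟪p t, x⟫ + s * ‖p t‖ ^ 2 / 2 := by
    intro x y t s hs
    have h1 : ‖(x - y) + s • p t‖ ^ 2 = ‖x - y‖ ^ 2 + 2 * (s * (⟪p t, x⟫ - ⟪p t, y⟫))
        + s ^ 2 * ‖p t‖ ^ 2 := by
      rw [norm_add_sq_real, norm_smul, mul_pow, Real.norm_eq_abs, sq_abs, inner_smul_right,
        real_inner_comm, inner_sub_right]
    have h2 : 0 ≤ ‖(x - y) + s • p t‖ ^ 2 / (2 * s) := by positivity
    rw [h1] at h2
    have h3 : (‖x - y‖ ^ 2 + 2 * (s * (⟪p t, x⟫ - ⟪p t, y⟫)) + s ^ 2 * ‖p t‖ ^ 2) / (2 * s)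
        = ‖x - y‖ ^ 2 / (2 * s) + (⟪p t, x⟫ - ⟪p t, y⟫) + s * ‖p t‖ ^ 2 / 2 := by
      field_simp
    rw [h3] at h2
    rw [hw y t]; linarith
  have hval' : ∀ (x : V) (t s : ℝ), 0 < s →
      w (x + s • p t) t - ‖x - (x + s • p t)‖ ^ 2 / (2 * s)
        = c t + ⟪p t, x⟫ + s * ‖p t‖ ^ 2 / 2 := by
    intro x t s hs
    rw [hw, show x - (x + s • p t) = -(s • p t) by abel, norm_neg, norm_smul, mul_pow,
      Real.norm_eq_abs, sq_abs, inner_add_right, inner_smul_right, real_inner_self_eq_norm_sq]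
    field_simp
    ring
  have hval2 : ∀ (x y : V) (t s : ℝ), 0 < s →
      c t + ⟪p t, x⟫ - s * ‖p t‖ ^ 2 / 2 ≤ w y t + ‖x - y‖ ^ 2 / (2 * s) := by
    intro x y t s hs
    have h1 : ‖(x - y) - s • p t‖ ^ 2 = ‖x - y‖ ^ 2 - 2 * (s * (⟪p t, x⟫ - ⟪p t, y⟫))
        + s ^ 2 * ‖p t‖ ^ 2 := by
      rw [norm_sub_sq_real, norm_smul, mul_pow, Real.norm_eq_abs, sq_abs, inner_smul_right,
        real_inner_comm, inner_sub_right]
    have h2 : 0 ≤ ‖(x - y) - s • p t‖ ^ 2 / (2 * s) := by positivity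
    rw [h1] at h2
    have h3 : (‖x - y‖ ^ 2 - 2 * (s * (⟪p t, x⟫ - ⟪p t, y⟫)) + s ^ 2 * ‖p t‖ ^ 2) / (2 * s)
        = ‖x - y‖ ^ 2 / (2 * s) - (⟪p t, x⟫ - ⟪p t, y⟫) + s * ‖p t‖ ^ 2 / 2 := by
      field_simp
    rw [h3] at h2
    rw [hw y t]; linarith
  have hval2' : ∀ (x : V) (t s : ℝ), 0 < s →
      w (x - s • p t) t + ‖x - (x - s • p t)‖ ^ 2 / (2 * s)
        = c t + ⟪p t, x⟫ - s * ‖p t‖ ^ 2 / 2 := by
    intro x t s hs
    rw [hw, show x - (x - s • p t) = s • p t by abel, norm_smul, mul_pow,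
      Real.norm_eq_abs, sq_abs, inner_sub_right, inner_smul_right, real_inner_self_eq_norm_sq]
    field_simp
    ring
  -- the scalar inequality coming from (Sub)
  have hS : ∀ (x : V) (t s s' : ℝ), 0 < s → s < s' →
      c (t + s) + ⟪p (t + s), x⟫ + s * ‖p (t + s)‖ ^ 2 / 2 ≤
        (1 - s / s') * (c t + ⟪p t, x⟫) +
        s / s' * (c (t + s') + ⟪p (t + s'), x⟫ + s' * ‖p (t + s')‖ ^ 2 / 2) := by
    intro x t s s' hs hss
    have h1 := hSub x t s s' hs hss _ (fun y => hval x y (t + s') s' (hs.trans hss))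
      (x + s • p (t + s))
    rw [hval' x (t + s) s hs, hw x t] at h1
    exact h1
  have hS2 : ∀ (x : V) (t s s' : ℝ), 0 < s → s < s' →
      (1 - s / s') * (c t + ⟪p t, x⟫) +
        s / s' * (c (t - s') + ⟪p (t - s'), x⟫ - s' * ‖p (t - s')‖ ^ 2 / 2) ≤
      c (t - s) + ⟪p (t - s), x⟫ - s * ‖p (t - s)‖ ^ 2 / 2 := by
    intro x t s s' hs hss
    have h1 := hSup x t s s' hs hss _ (fun y => hval2 x y (t - s') s' (hs.trans hss))
      (x - s • p (t - s))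
    rw [hval2' x (t - s) s hs, hw x t] at h1
    exact h1
  -- slopes are affine in time
  have hpl : ∀ (t s s' : ℝ), 0 < s → s < s' → ∀ x : V,
      ⟪p (t + s) - ((1 - s / s') • p t + (s / s') • p (t + s')), x⟫ ≤ 0 := by
    intro t s s' hs hss x
    set D := c (t + s) + s * ‖p (t + s)‖ ^ 2 / 2 - (1 - s / s') * c t -
      s / s' * (c (t + s') + s' * ‖p (t + s')‖ ^ 2 / 2) with hD
    have key : ∀ lam : ℝ, 0 < lam →
        ⟪p (t + s) - ((1 - s / s') • p t + (s / s') • p (t + s')), x⟫ ≤ 0 + (-D) / lam := by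
      intro lam hlam
      have h1 := hS (lam • x) t s s' hs hss
      simp only [inner_smul_right] at h1
      rw [zero_add, le_div_iff₀ hlam]
      rw [inner_sub_left, inner_add_left, inner_smul_left, inner_smul_left]
      simp only [RCLike.conj_to_real]
      have : (⟪p (t + s), x⟫ - ((1 - s / s') * ⟪p t, x⟫ + s / s' * ⟪p (t + s'), x⟫)) * lam
        = lam * ⟪p (t + s), x⟫ - ((1 - s / s') * (lam * ⟪p t, x⟫)
          + s / s' * (lam * ⟪p (t + s'), x⟫)) := by ring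
      rw [this, hD]
      linarith
    exact le_of_forall_large (fun S hS => key S hS)
  have hpeq : ∀ (t s s' : ℝ), 0 < s → s < s' →
      p (t + s) = (1 - s / s') • p t + (s / s') • p (t + s') := by
    intro t s s' hs hss
    have h1 := hpl t s s' hs hss
      (p (t + s) - ((1 - s / s') • p t + (s / s') • p (t + s')))
    rw [real_inner_self_eq_norm_sq] at h1
    have h2 : ‖p (t + s) - ((1 - s / s') • p t + (s / s') • p (t + s'))‖ ^ 2 = 0 :=
      le_antisymm h1 (sq_nonneg _)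
    exact sub_eq_zero.1 (norm_eq_zero.1 ((pow_eq_zero_iff two_ne_zero).1 h2))
  have hpaff := affine_of_chord p hpeq
  -- the slope is constant
  obtain ⟨C, hC⟩ := hgrow
  have hq : p 1 - p 0 = 0 := by
    by_contra hne
    have hqn : 0 < ‖p 1 - p 0‖ := norm_pos_iff.2 hne
    set q := p 1 - p 0 with hqdef
    have hb := slope_zero_of_growth (C := C) (a := ‖p 0‖) (b := ‖q‖) ?_
    · linarith
    intro R hR
    have hR0 : 0 < R := by linarith
    set x : V := (R / ‖q‖) • q with hx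
    have hxn : ‖x‖ = R := by
      rw [hx, norm_smul, Real.norm_eq_abs, abs_of_pos (by positivity)]
      field_simp
    have h1 := hC x R
    have h2 := hC (-x) R
    rw [norm_neg, hxn, abs_of_pos hR0] at h2
    rw [hxn, abs_of_pos hR0] at h1
    have h3 : w x R - w (-x) R = 2 * ⟪p R, x⟫ := by
      rw [hw, hw, inner_neg_right]; ring
    have h4 : ⟪p R, x⟫ ≤ C * (1 + R + R) ^ (3 / 2 : ℝ) := by
      have h5 := le_abs_self (w x R)
      have h6 := neg_abs_le (w (-x) R)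
      linarith
    refine le_trans ?_ h4
    rw [hpaff R, inner_add_left, inner_smul_left, hx, inner_smul_right, inner_smul_right,
      real_inner_self_eq_norm_sq]
    simp only [RCLike.conj_to_real]
    have h7 : -(‖p 0‖ * ‖q‖) ≤ ⟪p 0, q⟫ := by
      have := abs_real_inner_le_norm (p 0) q
      exact (abs_le.1 this).1
    have h8 : R / ‖q‖ * ⟪p 0, q⟫ + R * (R / ‖q‖ * ‖q‖ ^ 2)
        = R / ‖q‖ * ⟪p 0, q⟫ + R * R * ‖q‖ := by
      field_simp
    rw [h8]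
    have h9 : R / ‖q‖ * (-(‖p 0‖ * ‖q‖)) ≤ R / ‖q‖ * ⟪p 0, q⟫ :=
      mul_le_mul_of_nonneg_left h7 (by positivity)
    have h10 : R / ‖q‖ * (-(‖p 0‖ * ‖q‖)) = -(R * ‖p 0‖) := by field_simp
    rw [h10] at h9
    nlinarith [h9]
  have hpc : ∀ t, p t = p 0 := by
    intro t; rw [hpaff t, hq, smul_zero, add_zero]
  -- `c` is affine
  have hcc' : ∀ (t s s' : ℝ), 0 < s → s < s' →
      c (t + s) = (1 - s / s') • c t + (s / s') • c (t + s') := by
    intro t s s' hs hss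
    have hs' : 0 < s' := hs.trans hss
    have h1 := hS 0 t s s' hs hss
    simp only [inner_zero_right, add_zero, hpc] at h1
    have h2 := hS2 0 (t + s') (s' - s) s' (by linarith) (by linarith)
    simp only [inner_zero_right, add_zero, hpc] at h2
    rw [show t + s' - (s' - s) = t + s by ring, show t + s' - s' = t by ring] at h2
    have h3 : (1 - (s' - s) / s') = s / s' := by field_simp; ring
    have h4 : (s' - s) / s' = 1 - s / s' := by field_simp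
    rw [h3, h4] at h2
    simp only [smul_eq_mul]
    have h5 : s / s' * (c (t + s') + s' * ‖p 0‖ ^ 2 / 2) = s / s' * c (t + s')
        + s * ‖p 0‖ ^ 2 / 2 := by field_simp
    have h6 : (1 - s / s') * (c t - s' * ‖p 0‖ ^ 2 / 2) = (1 - s / s') * c t
        - (s' - s) * ‖p 0‖ ^ 2 / 2 := by field_simp
    rw [h5] at h1
    rw [h6] at h2
    linarith
  have hcaff := affine_of_chord c hcc'
  refine ⟨p 0, c 1 - c 0, c 0, fun x t => ?_⟩
  rw [hw, hpc, hcaff t, smul_eq_mul]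
  ring

end Crest.Agent.R094.Rigid2
end

-- ▼ part R094/StageEGK
section

/-!
Row 94 (S0124), route 7921: `StageE_stmt` and `AffineOfNoDefect_stmt` of the frozen interface
(helper404).
-/

set_option autoImplicit false

noncomputable section

open Filter Topology Set
open scoped RealInnerProductSpace

namespace Crest.Agent.R094.GKE

open Sol GK

variable {V : Type*} [NormedAddCommGroup V] [InnerProductSpace ℝ V]

/-! ### the envelope of the interface is `UEnv` -/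

theorem env_eq_UEnv (σ : ℝ) (f : V → ℝ) (x : V) : env σ f x = Env.UEnv σ f x := by
  unfold env Sol.infc Env.UEnv
  exact iInf_congr fun y => by rw [Env.supc_eq_Qs]

theorem slice_cont {w : V → ℝ → ℝ} (h : IsSol w) (t : ℝ) : Continuous fun y => w y t :=
  h.cont.comp (continuous_id.prodMk continuous_const)

theorem slice_subQ {w : V → ℝ → ℝ} (h : IsSol w) (t : ℝ) : Env.SubQ fun y => w y t :=
  Env.Grow.subQ h.grow t

theorem le_Uf {w : V → ℝ → ℝ} (h : IsSol w) {t : ℝ} (ht : 0 < t) (x : V) : w x t ≤ Uf w x t := by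
  unfold Uf
  rw [env_eq_UEnv]
  exact Env.self_le_UEnv (slice_subQ h t) ht x

theorem env_concave {w : V → ℝ → ℝ} (h : IsSol w) (t : ℝ) {σ : ℝ} (hσ : 0 < σ) :
    ConcaveOn ℝ univ fun x => env σ (fun y => w y t) x - ‖x‖ ^ 2 / (2 * σ) := by
  have h1 := Env.UEnv_concave (slice_subQ h t) hσ
  refine h1.congr fun x _ => ?_
  rw [env_eq_UEnv]

theorem env_cont [FiniteDimensional ℝ V] {w : V → ℝ → ℝ} (h : IsSol w) (t : ℝ) {σ : ℝ}
    (hσ : 0 < σ) : Continuous fun x => env σ (fun y => w y t) x := by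
  have h1 := Env.continuous_UEnv (slice_cont h t) (slice_subQ h t) hσ
  exact h1.congr fun x => (env_eq_UEnv σ _ x).symm

/-! ### Stage E -/

theorem val_eq (U w : V → ℝ → ℝ) (c : ℝ) (Y₀ : V) (s t : ℝ) (x z : V) :
    StageE.val U w c Y₀ s t x z = val U w c Y₀ s t x z := by
  unfold StageE.val val Phi
  ring

/-- (404, StageE) -/
theorem stageE [FiniteDimensional ℝ V] (hPC : PropC_stmt V) (hVA : VfAttained_stmt V)
    (hEnv : EnvSub_stmt V) : StageE_stmt V := by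
  intro K κ hκ hkap W x' hW hM htouch hh
  have hsol := hW.sol
  obtain ⟨Y, hY⟩ := StageE.stageE W (Uf W) κ hsol.cont hsol.grow
    (by
      intro x t s s' hs hss z
      have hs' : 0 < s' := lt_of_lt_of_le hs hss
      obtain ⟨z', hz'⟩ := exists_B hsol.cont hsol.grow hs' x t
      refine ⟨z', ?_⟩
      rw [← hz']
      have h1 := hsol.sup x t s s' hs hss
      have h2 := B_le hsol.grow hs x z t
      have h3 : s / s' * B s' W x t ≤ s / s' * (W x t + s' / s *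
          (W z (t - s) + ‖x - z‖ ^ 2 / (2 * s) - W x t)) := by
        have h4 : s / s' * (W x t + s' / s * (W z (t - s) + ‖x - z‖ ^ 2 / (2 * s) - W x t))
            = s / s' * W x t + (W z (t - s) + ‖x - z‖ ^ 2 / (2 * s) - W x t) := by
          field_simp
        rw [h4]
        linarith
      exact le_of_mul_le_mul_left h3 (by positivity))
    (fun t ht x => le_Uf hsol ht x)
    (fun t ht x => hkap W hW x t t ht)
    (fun t ht => env_concave hsol t ht)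
    (fun t ht => env_cont hsol t ht)
    (by
      intro Y0 s t A B hs hst ht1 hA hB x z
      have ht : 0 < t := lt_of_lt_of_le hs hst
      have hc : (0 : ℝ) < 1 / 16 := by norm_num
      have h1 := hPC (Uf W) W (hEnv K W hW) hsol (1 / 16) Y0 s 1 (1 - t) hc hs (by linarith)
        (by linarith) (by linarith) (by nlinarith)
      rw [show (1 : ℝ) - (1 - t) = t by ring, show (1 : ℝ) + (1 - t) = 2 - t by ring] at h1
      have h2 : Vf (Uf W) W (1 / 16) Y0 s t ≤ A := by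
        apply ciSup_le
        intro q
        rw [← val_eq]; exact hA q.1 q.2
      have h3 : Vf (Uf W) W (1 / 16) Y0 s (2 - t) ≤ B := by
        apply ciSup_le
        intro q
        rw [← val_eq]; exact hB q.1 q.2
      have h4 := le_ciSup (hVA K W hW (1 / 16) Y0 s 1 hc hs one_pos).1 (x, z)
      have h5 : val (Uf W) W (1 / 16) Y0 s 1 x z ≤ Vf (Uf W) W (1 / 16) Y0 s 1 := h4
      rw [val_eq]
      linarith)
    (fun η hη => by
      obtain ⟨ε₀, hε₀, h⟩ := hM η hη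
      exact ⟨ε₀, hε₀, fun t s ht hs hst x z => h t ht s hs hst x z⟩)
    x' htouch
    (fun s hs => by
      obtain ⟨z, hz⟩ := exists_B hsol.cont hsol.grow hs x' 1
      exact ⟨z, by rw [← hz]; exact hh s hs⟩)
  refine ⟨Y, fun t ht ht1 => ?_⟩
  obtain ⟨ν, h1, h2, h3⟩ := hY t ht ht1
  refine ⟨ν, h1, h3, fun σ hσ => ?_⟩
  obtain ⟨z, hz⟩ := h2 σ hσ
  exact (B_le hsol.grow hσ _ z t).trans hz

/-! ### no defect -/

/-- a function with `f - ‖·‖²/2σ` concave for all `σ > 0` is concave -/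
theorem concave_of_semi {f : V → ℝ}
    (h : ∀ σ : ℝ, 0 < σ → ConcaveOn ℝ univ fun x => f x - ‖x‖ ^ 2 / (2 * σ)) :
    ConcaveOn ℝ univ f := by
  refine ⟨convex_univ, ?_⟩
  intro x _ y _ a b ha hb hab
  simp only [smul_eq_mul]
  apply Rigid2.le_of_forall_large (c := a * (‖x‖ ^ 2 / 2) + b * (‖y‖ ^ 2 / 2)) (S₀ := 0)
  intro S hS
  have h1 := (h S hS).2 (mem_univ x) (mem_univ y) ha hb hab
  simp only [smul_eq_mul] at h1
  have h2 : 0 ≤ ‖a • x + b • y‖ ^ 2 / (2 * S) := by positivity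
  have h3 : (a * (‖x‖ ^ 2 / 2) + b * (‖y‖ ^ 2 / 2)) / S
      = a * (‖x‖ ^ 2 / (2 * S)) + b * (‖y‖ ^ 2 / (2 * S)) := by
    field_simp
  rw [h3]
  linarith

/-- growth of members of the flat class -/
theorem flat_growth {K : ℝ} (hK : 0 < K) {w : V → ℝ → ℝ} (h : Flat K w) :
    ∃ C : ℝ, ∀ x t, |w x t| ≤ C * (1 + ‖x‖ + |t|) ^ (3 / 2 : ℝ) := by
  obtain ⟨p, b, hpb⟩ := h 0 0 1 one_pos
  refine ⟨|w 0 0| + ‖p‖ + ‖p‖ ^ 2 + |b| + K * (1 + ‖p‖) ^ (3 / 2 : ℝ), fun x t => ?_⟩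
  have h1 := hpb (x - t • p) t
  rw [zero_add, zero_add, add_sub_cancel, div_one] at h1
  set G : ℝ := 1 + ‖x‖ + |t| with hG
  have hG1 : 1 ≤ G := by
    have := norm_nonneg x; have := abs_nonneg t; linarith
  have hx : ‖x‖ ≤ G := by have := abs_nonneg t; linarith
  have ht : |t| ≤ G := by have := norm_nonneg x; linarith
  have hGG : G ≤ G ^ (3 / 2 : ℝ) := by
    calc G = G ^ (1 : ℝ) := (Real.rpow_one G).symm
      _ ≤ _ := Real.rpow_le_rpow_of_exponent_le hG1 (by norm_num)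
  have hG0 : 0 ≤ G ^ (3 / 2 : ℝ) := by positivity
  have hG1' : 1 ≤ G ^ (3 / 2 : ℝ) := hG1.trans hGG
  have h2 : ‖x - t • p‖ ≤ ‖x‖ + |t| * ‖p‖ := by
    refine (norm_sub_le _ _).trans ?_
    rw [norm_smul, Real.norm_eq_abs]
  have h3 : (1 + (‖x - t • p‖ + |t|)) ^ (3 / 2 : ℝ) ≤ (1 + ‖p‖) ^ (3 / 2 : ℝ) * G ^ (3 / 2 : ℝ) := by
    rw [← Real.mul_rpow (by positivity) (by positivity)]
    apply Real.rpow_le_rpow (by positivity) _ (by norm_num)
    have h4 : |t| * ‖p‖ ≤ G * ‖p‖ := mul_le_mul_of_nonneg_right ht (norm_nonneg p)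
    nlinarith
  have h4 : |inner ℝ p (x - t • p)| ≤ (‖p‖ + ‖p‖ ^ 2) * G := by
    refine (abs_real_inner_le_norm _ _).trans ?_
    have h5 : ‖p‖ * ‖x - t • p‖ ≤ ‖p‖ * (‖x‖ + |t| * ‖p‖) :=
      mul_le_mul_of_nonneg_left h2 (norm_nonneg p)
    have h6 : ‖p‖ * ‖x‖ ≤ ‖p‖ * G := mul_le_mul_of_nonneg_left hx (norm_nonneg p)
    have h7 : ‖p‖ ^ 2 * |t| ≤ ‖p‖ ^ 2 * G := mul_le_mul_of_nonneg_left ht (by positivity)
    nlinarith
  have h5 : |b * t| ≤ |b| * G := by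
    rw [abs_mul]; exact mul_le_mul_of_nonneg_left ht (abs_nonneg b)
  have h6 : |w x t| ≤ |w x t - w 0 0 - inner ℝ p (x - t • p) - b * t| + |w 0 0| +
      |inner ℝ p (x - t • p)| + |b * t| := by
    have e : w x t = (w x t - w 0 0 - inner ℝ p (x - t • p) - b * t) + w 0 0 +
      inner ℝ p (x - t • p) + b * t := by ring
    calc |w x t| = |(w x t - w 0 0 - inner ℝ p (x - t • p) - b * t) + w 0 0 +
      inner ℝ p (x - t • p) + b * t| := by rw [← e]
      _ ≤ _ := by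
        refine (abs_add_le _ _).trans ?_
        gcongr
        refine (abs_add_le _ _).trans ?_
        gcongr
        exact abs_add_le _ _
  have h7 : K * 1 * (1 + (‖x - t • p‖ + |t|)) ^ (3 / 2 : ℝ)
      ≤ K * ((1 + ‖p‖) ^ (3 / 2 : ℝ) * G ^ (3 / 2 : ℝ)) := by
    rw [mul_one]; exact mul_le_mul_of_nonneg_left h3 hK.le
  have h8 : |w 0 0| ≤ |w 0 0| * G ^ (3 / 2 : ℝ) := by
    nlinarith [abs_nonneg (w 0 0)]
  have h9 : (‖p‖ + ‖p‖ ^ 2) * G ≤ (‖p‖ + ‖p‖ ^ 2) * G ^ (3 / 2 : ℝ) :=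
    mul_le_mul_of_nonneg_left hGG (by positivity)
  have h10 : |b| * G ≤ |b| * G ^ (3 / 2 : ℝ) := mul_le_mul_of_nonneg_left hGG (abs_nonneg b)
  have h11 : |w x t| ≤ K * ((1 + ‖p‖) ^ (3 / 2 : ℝ) * G ^ (3 / 2 : ℝ)) +
      |w 0 0| * G ^ (3 / 2 : ℝ) + (‖p‖ + ‖p‖ ^ 2) * G ^ (3 / 2 : ℝ) + |b| * G ^ (3 / 2 : ℝ) := by
    linarith
  refine h11.trans (le_of_eq ?_)
  ring

/-- pointwise form of (Sub) -/
theorem sub_pointwise {w : V → ℝ → ℝ} (h : IsSol w) (x : V) (t s s' : ℝ) (hs : 0 < s) (hss : s < s')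
    (A : ℝ) (hA : ∀ y, w y (t + s') - ‖x - y‖ ^ 2 / (2 * s') ≤ A) (y : V) :
    w y (t + s) - ‖x - y‖ ^ 2 / (2 * s) ≤ (1 - s / s') * w x t + s / s' * A := by
  have h1 := le_T h.grow hs x y t
  have h2 := h.sub x t s s' hs hss.le
  have h3 : T s' w x t ≤ A := T_le hA
  have h4 : 0 ≤ s / s' := div_nonneg hs.le (hs.trans hss).le
  have h5 := mul_le_mul_of_nonneg_left h3 h4
  linarith

/-- pointwise form of (Sup) -/
theorem sup_pointwise {w : V → ℝ → ℝ} (h : IsSol w) (x : V) (t s s' : ℝ) (hs : 0 < s) (hss : s < s')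
    (A : ℝ) (hA : ∀ y, A ≤ w y (t - s') + ‖x - y‖ ^ 2 / (2 * s')) (y : V) :
    (1 - s / s') * w x t + s / s' * A ≤ w y (t - s) + ‖x - y‖ ^ 2 / (2 * s) := by
  have h1 := B_le h.grow hs x y t
  have h2 := h.sup x t s s' hs hss.le
  have h3 : A ≤ B s' w x t := le_B hA
  have h4 : 0 ≤ s / s' := div_nonneg hs.le (hs.trans hss).le
  have h5 := mul_le_mul_of_nonneg_left h3 h4
  linarith

/-- (404, a3) -/
theorem affineOfNoDefect [FiniteDimensional ℝ V] (hRev : ClsRev_stmt V) :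
    AffineOfNoDefect_stmt V := by
  intro K hno w hw
  have hconc : ∀ w : V → ℝ → ℝ, Cls K w → ∀ t, ConcaveOn ℝ univ fun x => w x t := by
    intro w hw t
    apply concave_of_semi
    intro σ hσ
    refine (env_concave hw.sol t hσ).congr fun x _ => ?_
    simp only
    rw [hno w hw x t σ hσ]
  refine Rigid2.affine_of_slices w ?_ (hconc w hw) (flat_growth hw.pos hw.flat)
    (fun x t s s' hs hss A hA y => sub_pointwise hw.sol x t s s' hs hss A hA y)
    (fun x t s s' hs hss A hA y => sup_pointwise hw.sol x t s s' hs hss A hA y)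
  intro t
  have h1 := hconc (rev w) (hRev K w hw) (-t)
  have h2 := h1.neg
  refine h2.congr fun x _ => ?_
  simp [rev]

end Crest.Agent.R094.GKE

namespace Crest.Agent.R094.GK

variable {V : Type*} [NormedAddCommGroup V] [InnerProductSpace ℝ V] [FiniteDimensional ℝ V]

/-- (404, StageE) -/
theorem stageE_iface (hPC : PropC_stmt V) (hVA : VfAttained_stmt V) (hEnv : EnvSub_stmt V) :
    StageE_stmt V := GKE.stageE hPC hVA hEnv

/-- (404, a3) -/
theorem affineOfNoDefect (hRev : ClsRev_stmt V) : AffineOfNoDefect_stmt V :=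
  GKE.affineOfNoDefect hRev

end Crest.Agent.R094.GK
end
end

-- ▼ part R094/SolCont
section

/-!
Row 94 (S0124), route 7921.  Continuity and localisation for `T`, `B` (helper452).
-/

set_option autoImplicit false
set_option linter.unusedSectionVars false

namespace Crest.Agent.R094.Sol

open Metric Set Filter Topology
open scoped InnerProductSpace
open Crest.Agent.R094.Env (Qs Qi SubQ Conv tendsto_Qs)

variable {V : Type*} [NormedAddCommGroup V] [InnerProductSpace ℝ V]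
variable {w : V → ℝ → ℝ}

theorem T_eq_Qs (s : ℝ) (w : V → ℝ → ℝ) (x : V) (t : ℝ) :
    T s w x t = Qs s (fun y => w y (t + s)) x := by
  unfold T Qs
  congr 1
  funext y
  rw [norm_sub_rev]


theorem Grow.subQ (h : Grow w) (t : ℝ) : SubQ fun y => w y t := by
  intro ε hε
  obtain ⟨C, hC⟩ := h |t| ε hε
  exact ⟨C, fun y => hC y t le_rfl⟩

theorem cont_slice (hc : Continuous (fun p : V × ℝ => w p.1 p.2)) (t : ℝ) :
    Continuous fun y => w y t := hc.comp (continuous_id.prodMk continuous_const)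

/-- slices converge -/
theorem conv_slice [FiniteDimensional ℝ V] (hc : Continuous (fun p : V × ℝ => w p.1 p.2))
    (h : Grow w) {α : Type*} {l : Filter α} {τ : α → ℝ} {t : ℝ} (hτ : Tendsto τ l (𝓝 t)) :
    Conv l (fun j y => w y (τ j)) (fun y => w y t) where
  unif := by
    intro R ε hε
    have hK : IsCompact (closedBall (0 : V) R ×ˢ closedBall t 1) :=
      (isCompact_closedBall _ _).prod (isCompact_closedBall _ _)
    have hu := hK.uniformContinuousOn_of_continuous hc.continuousOn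
    rw [Metric.uniformContinuousOn_iff] at hu
    obtain ⟨δ, hδ, hu⟩ := hu ε hε
    filter_upwards [Metric.tendsto_nhds.1 hτ (min δ 1) (by positivity)] with j hj a ha
    have h1 : dist (τ j) t < δ := lt_of_lt_of_le hj (min_le_left _ _)
    have h2 : dist (τ j) t < 1 := lt_of_lt_of_le hj (min_le_right _ _)
    have := hu (a, τ j) ⟨by simpa using ha, h2.le⟩ (a, t) ⟨by simpa using ha, by simp⟩
      (by simpa [Prod.dist_eq] using h1)
    simpa [Real.dist_eq] using this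
  subq := Eventually.of_forall fun _ => h.subQ _
  grow := by
    intro ε hε
    obtain ⟨C, hC⟩ := h (|t| + 1) ε hε
    refine ⟨C, ?_⟩
    filter_upwards [Metric.tendsto_nhds.1 hτ 1 one_pos] with j hj a
    apply hC
    rw [Real.dist_eq] at hj
    have := abs_sub_abs_le_abs_sub (τ j) t
    linarith
  cont := cont_slice hc t
  lim := h.subQ t

theorem tendsto_T [FiniteDimensional ℝ V] (hc : Continuous (fun p : V × ℝ => w p.1 p.2))
    (h : Grow w) {α : Type*} {l : Filter α} {σ τ : α → ℝ} {ξ : α → V} {s t : ℝ} {x : V}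
    (hs : 0 < s) (hσ : Tendsto σ l (𝓝 s)) (hξ : Tendsto ξ l (𝓝 x)) (hτ : Tendsto τ l (𝓝 t)) :
    Tendsto (fun j => T (σ j) w (ξ j) (τ j)) l (𝓝 (T s w x t)) := by
  simp only [T_eq_Qs]
  exact tendsto_Qs (conv_slice hc h (hτ.add hσ)) hs hσ hξ

theorem cont_rev (hc : Continuous (fun p : V × ℝ => w p.1 p.2)) :
    Continuous (fun p : V × ℝ => rev w p.1 p.2) :=
  (hc.comp (continuous_fst.prodMk continuous_snd.neg)).neg

theorem tendsto_B [FiniteDimensional ℝ V] (hc : Continuous (fun p : V × ℝ => w p.1 p.2))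
    (h : Grow w) {α : Type*} {l : Filter α} {σ τ : α → ℝ} {ξ : α → V} {s t : ℝ} {x : V}
    (hs : 0 < s) (hσ : Tendsto σ l (𝓝 s)) (hξ : Tendsto ξ l (𝓝 x)) (hτ : Tendsto τ l (𝓝 t)) :
    Tendsto (fun j => B (σ j) w (ξ j) (τ j)) l (𝓝 (B s w x t)) := by
  simp only [B_eq_neg_T]
  exact (tendsto_T (cont_rev hc) h.rev hs hσ hξ hτ.neg).neg



theorem tendsto_w (hc : Continuous (fun p : V × ℝ => w p.1 p.2)) {α : Type*} {l : Filter α}
    {τ : α → ℝ} {ξ : α → V} {t : ℝ} {x : V} (hξ : Tendsto ξ l (𝓝 x)) (hτ : Tendsto τ l (𝓝 t)) :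
    Tendsto (fun j => w (ξ j) (τ j)) l (𝓝 (w x t)) :=
  (hc.tendsto (x, t)).comp (hξ.prodMk_nhds hτ)

theorem tendsto_hp [FiniteDimensional ℝ V] (hc : Continuous (fun p : V × ℝ => w p.1 p.2))
    (h : Grow w) {α : Type*} {l : Filter α} {σ τ : α → ℝ} {ξ : α → V} {s t : ℝ} {x : V}
    (hs : 0 < s) (hσ : Tendsto σ l (𝓝 s)) (hξ : Tendsto ξ l (𝓝 x)) (hτ : Tendsto τ l (𝓝 t)) :
    Tendsto (fun j => hp (σ j) w (ξ j) (τ j)) l (𝓝 (hp s w x t)) :=
  ((tendsto_T hc h hs hσ hξ hτ).sub (tendsto_w hc hξ hτ)).div hσ hs.ne'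

theorem tendsto_hm [FiniteDimensional ℝ V] (hc : Continuous (fun p : V × ℝ => w p.1 p.2))
    (h : Grow w) {α : Type*} {l : Filter α} {σ τ : α → ℝ} {ξ : α → V} {s t : ℝ} {x : V}
    (hs : 0 < s) (hσ : Tendsto σ l (𝓝 s)) (hξ : Tendsto ξ l (𝓝 x)) (hτ : Tendsto τ l (𝓝 t)) :
    Tendsto (fun j => hm (σ j) w (ξ j) (τ j)) l (𝓝 (hm s w x t)) :=
  ((tendsto_w hc hξ hτ).sub (tendsto_B hc h hs hσ hξ hτ)).div hσ hs.ne'

theorem continuous_hp [FiniteDimensional ℝ V] (hc : Continuous (fun p : V × ℝ => w p.1 p.2))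
    (h : Grow w) {s : ℝ} (hs : 0 < s) : Continuous (fun p : V × ℝ => hp s w p.1 p.2) :=
  continuous_iff_continuousAt.2 fun p =>
    tendsto_hp hc h hs tendsto_const_nhds (continuous_fst.tendsto p) (continuous_snd.tendsto p)


/-- pointwise localisation of almost maximisers: growth constant `C0` for `ε = 1/(8S)` -/
theorem max_loc {f : V → ℝ} {s S C : ℝ} (hs : 0 < s) (hsS : s ≤ S)
    (hf : ∀ y, |f y| ≤ 1 / (8 * S) * ‖y‖ ^ 2 + C) {x y : V}
    (h : f x ≤ f y - ‖x - y‖ ^ 2 / (2 * s)) :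
    ‖x - y‖ ^ 2 ≤ s * (3 / (2 * S) * ‖x‖ ^ 2 + 8 * C) := by
  have h1 := le_abs_self (f y)
  have h2 := neg_abs_le (f x)
  have h3 := hf x
  have h4 := hf y
  have h5 : ‖y‖ ^ 2 ≤ 2 * ‖x - y‖ ^ 2 + 2 * ‖x‖ ^ 2 := by
    have := norm_sub_sq_lower x y
    linarith
  have hS : 0 < S := lt_of_lt_of_le hs hsS
  have h6 : 1 / (8 * S) * ‖y‖ ^ 2 ≤ 1 / (8 * S) * (2 * ‖x - y‖ ^ 2 + 2 * ‖x‖ ^ 2) :=
    mul_le_mul_of_nonneg_left h5 (by positivity)
  have h7 : 1 / (8 * S) * (2 * ‖x - y‖ ^ 2) ≤ ‖x - y‖ ^ 2 / (4 * s) := by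
    have : 1 / (8 * S) * (2 * ‖x - y‖ ^ 2) = ‖x - y‖ ^ 2 / (4 * S) := by field_simp; ring
    rw [this]
    exact div_le_div_of_nonneg_left (by positivity) (by positivity) (by linarith)
  have h8 : ‖x - y‖ ^ 2 / (2 * s) = ‖x - y‖ ^ 2 / (4 * s) + ‖x - y‖ ^ 2 / (4 * s) := by
    field_simp; ring
  have h9 : ‖x - y‖ ^ 2 / (4 * s) ≤ 3 / (8 * S) * ‖x‖ ^ 2 + 2 * C := by
    have e : 3 / (8 * S) * ‖x‖ ^ 2 = 1 / (8 * S) * (2 * ‖x‖ ^ 2) + 1 / (8 * S) * ‖x‖ ^ 2 := by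
      ring
    nlinarith
  rw [div_le_iff₀ (by positivity)] at h9
  calc _ ≤ _ := h9
    _ = _ := by field_simp; ring

/-- localisation of forward maximisers -/
theorem max_bound (h : Grow w) (R S : ℝ) (hS : 0 < S) : ∃ C, 0 ≤ C ∧ ∀ (x y : V) (t s : ℝ),
    ‖x‖ ≤ R → |t| ≤ R → 0 < s → s ≤ S → T s w x t = w y (t + s) - ‖x - y‖ ^ 2 / (2 * s) →
      ‖x - y‖ ^ 2 ≤ C * s := by
  obtain ⟨C, hC⟩ := h (R + S) (1 / (8 * S)) (by positivity)
  refine ⟨|3 / (2 * S) * R ^ 2 + 8 * C|, abs_nonneg _, fun x y t s hx ht hs hsS hy => ?_⟩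
  have h1 := self_le_T h hs x t
  rw [hy] at h1
  have hts : |t + s| ≤ R + S := by
    have := abs_add_le t s
    rw [abs_of_pos hs] at this
    linarith
  have h2 := max_loc (f := fun y => w y (t + s)) hs hsS (fun y => hC y _ hts) h1
  have h3 : 3 / (2 * S) * ‖x‖ ^ 2 ≤ 3 / (2 * S) * R ^ 2 :=
    mul_le_mul_of_nonneg_left (pow_le_pow_left₀ (norm_nonneg _) hx 2) (by positivity)
  calc _ ≤ _ := h2
    _ ≤ s * (3 / (2 * S) * R ^ 2 + 8 * C) := by gcongr
    _ ≤ s * |3 / (2 * S) * R ^ 2 + 8 * C| := by gcongr; exact le_abs_self _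
    _ = _ := by ring


/-- forward maximisers converge to the base point as `s → 0` -/
theorem tendsto_max (h : Grow w) {α : Type*} {l : Filter α} {σ τ : α → ℝ} {ξ η : α → V}
    {t : ℝ} {x : V} (hσ : Tendsto σ l (𝓝 0)) (hσ0 : ∀ᶠ j in l, 0 < σ j)
    (hξ : Tendsto ξ l (𝓝 x)) (hτ : Tendsto τ l (𝓝 t))
    (hη : ∀ᶠ j in l, T (σ j) w (ξ j) (τ j)
      = w (η j) (τ j + σ j) - ‖ξ j - η j‖ ^ 2 / (2 * σ j)) : Tendsto η l (𝓝 x) := by
  obtain ⟨C, hC0, hC⟩ := max_bound h (max (‖x‖ + 1) (|t| + 1)) 1 one_pos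
  have h1 : ∀ᶠ j in l, ‖ξ j‖ ≤ ‖x‖ + 1 := by
    filter_upwards [hξ.norm.eventually (gt_mem_nhds (lt_add_one _))] with j hj using hj.le
  have h2 : ∀ᶠ j in l, |τ j| ≤ |t| + 1 := by
    filter_upwards [hτ.abs.eventually (gt_mem_nhds (lt_add_one _))] with j hj using hj.le
  have h3 : ∀ᶠ j in l, σ j ≤ 1 := by
    filter_upwards [hσ.eventually (gt_mem_nhds one_pos)] with j hj using hj.le
  have h4 : ∀ᶠ j in l, ‖ξ j - η j‖ ^ 2 ≤ C * σ j := by
    filter_upwards [h1, h2, h3, hη, hσ0] with j a b c d e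
    exact hC _ _ _ _ (a.trans (le_max_left _ _)) (b.trans (le_max_right _ _)) e c d
  have h5 : Tendsto (fun j => ‖ξ j - η j‖ ^ 2) l (𝓝 0) := by
    refine tendsto_of_tendsto_of_tendsto_of_le_of_le' tendsto_const_nhds
      (by simpa using hσ.const_mul C) (Eventually.of_forall fun j => sq_nonneg _) h4
  have h6 : Tendsto (fun j => ‖ξ j - η j‖) l (𝓝 0) := by
    have := h5.sqrt
    simpa [Real.sqrt_sq (norm_nonneg _)] using this
  have h7 : Tendsto (fun j => ξ j - η j) l (𝓝 0) := tendsto_zero_iff_norm_tendsto_zero.2 h6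
  have h8 := hξ.sub h7
  simpa using h8




end Crest.Agent.R094.Sol
end

-- ▼ part R094/SolSlope
section

/-!
Row 94 (S0124), route 7921.  Slopes: `h⁺ = h⁻`, increasing slope, convexity (helper452).
-/

set_option autoImplicit false
set_option linter.unusedSectionVars false

namespace Crest.Agent.R094.Sol

open Metric Set Filter Topology
open scoped InnerProductSpace

variable {V : Type*} [NormedAddCommGroup V] [InnerProductSpace ℝ V]
variable {w : V → ℝ → ℝ}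

/-- `h⁺ ≥ c ⇒ h⁻ ≥ c` -/
theorem le_hm_of_le_hp [FiniteDimensional ℝ V] (hw : IsSol w) {x : V} {t c : ℝ}
    (h : ∀ r, 0 < r → c ≤ hp r w x t) {r : ℝ} (hr : 0 < r) : c ≤ hm r w x t := by
  have hex : ∀ n : ℕ, ∃ y, T (1 / ((n : ℝ) + 1)) w x t
      = w y (t + 1 / ((n : ℝ) + 1)) - ‖x - y‖ ^ 2 / (2 * (1 / ((n : ℝ) + 1))) :=
    fun n => exists_T hw.cont hw.grow Nat.one_div_pos_of_nat x t
  choose η hη using hex
  have hσ : Tendsto (fun n : ℕ => 1 / ((n : ℝ) + 1)) atTop (𝓝 0) :=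
    tendsto_one_div_add_atTop_nhds_zero_nat
  have h1 : Tendsto η atTop (𝓝 x) :=
    tendsto_max hw.grow (ξ := fun _ => x) (τ := fun _ => t) hσ
      (Eventually.of_forall fun n => Nat.one_div_pos_of_nat)
      tendsto_const_nhds tendsto_const_nhds (Eventually.of_forall hη)
  have h2 : Tendsto (fun n : ℕ => hm r w (η n) (t + 1 / ((n : ℝ) + 1))) atTop
      (𝓝 (hm r w x t)) :=
    tendsto_hm hw.cont hw.grow hr tendsto_const_nhds h1 (by simpa using hσ.const_add t)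
  refine ge_of_tendsto' h2 fun n => ?_
  exact (h _ Nat.one_div_pos_of_nat).trans
    (hm_ge_of_max hw.grow hw.sub hw.sup Nat.one_div_pos_of_nat (hη n) hr)

/-- `h⁻ ≥ c ⇒ h⁺ ≥ c` -/
theorem le_hp_of_le_hm [FiniteDimensional ℝ V] (hw : IsSol w) {x : V} {t c : ℝ}
    (h : ∀ r, 0 < r → c ≤ hm r w x t) {r : ℝ} (hr : 0 < r) : c ≤ hp r w x t := by
  have h1 : ∀ r, 0 < r → c ≤ hp r (rev w) x (-t) := fun r hr => by
    rw [← hm_eq_hp_rev]; exact h r hr
  have h2 := le_hm_of_le_hp hw.rev h1 hr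
  rwa [← hp_eq_hm_rev] at h2

/-- `h⁺ = h⁻` in the form of infima -/
theorem le_hp_iff_le_hm [FiniteDimensional ℝ V] (hw : IsSol w) {x : V} {t c : ℝ} :
    (∀ r, 0 < r → c ≤ hp r w x t) ↔ (∀ r, 0 < r → c ≤ hm r w x t) :=
  ⟨fun h _ hr => le_hm_of_le_hp hw h hr, fun h _ hr => le_hp_of_le_hm hw h hr⟩







end Crest.Agent.R094.Sol
end

-- ▼ part R094/SolCov
section

/-!
Row 94 (S0124), route 7921.  Covariance of `T`, `B` under translation, boost, scaling and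
addition of `c + b t` (helper452).
-/

set_option autoImplicit false
set_option linter.unusedSectionVars false

namespace Crest.Agent.R094.Sol

open Metric Set Filter Topology
open scoped InnerProductSpace

variable {V : Type*} [NormedAddCommGroup V] [InnerProductSpace ℝ V]
variable {w : V → ℝ → ℝ}

/-- translated, boosted, rescaled function -/
noncomputable def cov (w : V → ℝ → ℝ) (x0 : V) (t0 : ℝ) (p : V) (σ τ η c0 b : ℝ) (x : V)
    (t : ℝ) : ℝ :=
  (w (x0 + σ • x + (τ * t) • p) (t0 + τ * t) - c0 - σ * ⟪p, x⟫_ℝ - b * t) / η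

theorem cov_key (w : V → ℝ → ℝ) (x0 : V) (t0 : ℝ) (p : V) {σ τ η : ℝ} (c0 b : ℝ) (hτ : 0 < τ)
    (hη : 0 < η) (hσ : σ ^ 2 = η * τ) (x y : V) (t : ℝ) {s : ℝ} (hs : 0 < s) :
    cov w x0 t0 p σ τ η c0 b y (t + s) - ‖x - y‖ ^ 2 / (2 * s)
      = (w (x0 + σ • y + (τ * (t + s)) • p) (t0 + τ * t + τ * s)
          - ‖(x0 + σ • x + (τ * t) • p) - (x0 + σ • y + (τ * (t + s)) • p)‖ ^ 2 / (2 * (τ * s))
          - c0 - σ * ⟪p, x⟫_ℝ - b * (t + s) + τ * s * (‖p‖ ^ 2 / 2)) / η := by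
  unfold cov
  have e1 : (x0 + σ • x + (τ * t) • p) - (x0 + σ • y + (τ * (t + s)) • p)
      = σ • (x - y) - (τ * s) • p := by
    rw [mul_add, add_smul, smul_sub]; abel
  have e2 : t0 + τ * t + τ * s = t0 + τ * (t + s) := by ring
  have e3 : ‖σ • (x - y) - (τ * s) • p‖ ^ 2
      = σ ^ 2 * ‖x - y‖ ^ 2 - 2 * (σ * (τ * s) * (⟪p, x⟫_ℝ - ⟪p, y⟫_ℝ))
        + (τ * s) ^ 2 * ‖p‖ ^ 2 := by
    rw [norm_sub_sq_real, norm_smul, norm_smul, inner_smul_left, inner_smul_right,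
      Real.norm_eq_abs, Real.norm_eq_abs, mul_pow, mul_pow, sq_abs, sq_abs, real_inner_comm,
      inner_sub_right]
    simp only [conj_trivial]
    ring
  rw [e1, e2, e3, hσ]
  field_simp
  ring

theorem cov_surj (x0 p : V) {σ : ℝ} (hσ : σ ≠ 0) (a : ℝ) (Y : V) :
    ∃ y : V, x0 + σ • y + a • p = Y :=
  ⟨σ⁻¹ • (Y - x0 - a • p), by rw [smul_inv_smul₀ hσ]; abel⟩

theorem Grow.cov (h : Grow w) (x0 : V) (t0 : ℝ) (p : V) {σ τ η : ℝ} (c0 b : ℝ) (hη : 0 < η) :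
    Grow (cov w x0 t0 p σ τ η c0 b) := by
  intro R ε hε
  -- total budget `η ε`
  set ε' : ℝ := η * ε / (4 * (σ ^ 2 + 1)) with hε'
  have hε'0 : 0 < ε' := by positivity
  obtain ⟨C, hC⟩ := h (|t0| + |τ| * |R|) ε' hε'0
  -- linear term
  set K : ℝ := |C| + ε' * (2 * (‖x0‖ + |τ| * |R| * ‖p‖) ^ 2) + |c0| + |b| * |R|
    + (σ * ‖p‖) ^ 2 / (2 * (η * ε)) with hK
  refine ⟨K / η, fun y t ht => ?_⟩
  have htR : |t| ≤ |R| := ht.trans (le_abs_self R)
  unfold Sol.cov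
  rw [abs_div, abs_of_pos hη, div_le_iff₀ hη]
  have h1 := hC (x0 + σ • y + (τ * t) • p) (t0 + τ * t) (by
    calc |t0 + τ * t| ≤ |t0| + |τ * t| := abs_add_le _ _
      _ = |t0| + |τ| * |t| := by rw [abs_mul]
      _ ≤ _ := by gcongr)
  have h2 : ‖x0 + σ • y + (τ * t) • p‖ ≤ |σ| * ‖y‖ + (‖x0‖ + |τ| * |R| * ‖p‖) := by
    calc ‖x0 + σ • y + (τ * t) • p‖ ≤ ‖x0 + σ • y‖ + ‖(τ * t) • p‖ := norm_add_le _ _
      _ ≤ ‖x0‖ + ‖σ • y‖ + ‖(τ * t) • p‖ := by gcongr; exact norm_add_le _ _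
      _ = ‖x0‖ + |σ| * ‖y‖ + |τ| * |t| * ‖p‖ := by
          rw [norm_smul, norm_smul, Real.norm_eq_abs, Real.norm_eq_abs, abs_mul]
      _ ≤ ‖x0‖ + |σ| * ‖y‖ + |τ| * |R| * ‖p‖ := by gcongr
      _ = _ := by ring
  have h3 : ‖x0 + σ • y + (τ * t) • p‖ ^ 2
      ≤ 2 * (σ ^ 2 * ‖y‖ ^ 2) + 2 * (‖x0‖ + |τ| * |R| * ‖p‖) ^ 2 := by
    have h30 : 0 ≤ ‖x0‖ + |τ| * |R| * ‖p‖ := by positivity
    have h31 := pow_le_pow_left₀ (norm_nonneg _) h2 2
    have h32 : (|σ| * ‖y‖) ^ 2 = σ ^ 2 * ‖y‖ ^ 2 := by rw [mul_pow, sq_abs]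
    nlinarith [sq_nonneg (|σ| * ‖y‖ - (‖x0‖ + |τ| * |R| * ‖p‖))]
  have h4 : |σ * ⟪p, y⟫_ℝ| ≤ η * ε / 2 * ‖y‖ ^ 2 + (σ * ‖p‖) ^ 2 / (2 * (η * ε)) := by
    rw [abs_mul]
    have h41 : |⟪p, y⟫_ℝ| ≤ ‖p‖ * ‖y‖ := abs_real_inner_le_norm p y
    have h42 : |σ| * |⟪p, y⟫_ℝ| ≤ |σ| * (‖p‖ * ‖y‖) := by gcongr
    have h43 : 0 ≤ (η * ε * ‖y‖ - |σ| * ‖p‖) ^ 2 / (2 * (η * ε)) := by positivity
    have h44 : (η * ε * ‖y‖ - |σ| * ‖p‖) ^ 2 / (2 * (η * ε))
        = η * ε / 2 * ‖y‖ ^ 2 - |σ| * (‖p‖ * ‖y‖) + (|σ| * ‖p‖) ^ 2 / (2 * (η * ε)) := by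
      field_simp; ring
    have h45 : (|σ| * ‖p‖) ^ 2 = (σ * ‖p‖) ^ 2 := by rw [mul_pow, mul_pow, sq_abs]
    rw [h44, h45] at h43
    linarith
  have h5 : |b * t| ≤ |b| * |R| := by rw [abs_mul]; gcongr
  have h6 : |w (x0 + σ • y + (τ * t) • p) (t0 + τ * t) - c0 - σ * ⟪p, y⟫_ℝ - b * t|
      ≤ |w (x0 + σ • y + (τ * t) • p) (t0 + τ * t)| + |c0| + |σ * ⟪p, y⟫_ℝ| + |b * t| := by
    have a1 := abs_sub (w (x0 + σ • y + (τ * t) • p) (t0 + τ * t) - c0 - σ * ⟪p, y⟫_ℝ) (b * t)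
    have a2 := abs_sub (w (x0 + σ • y + (τ * t) • p) (t0 + τ * t) - c0) (σ * ⟪p, y⟫_ℝ)
    have a3 := abs_sub (w (x0 + σ • y + (τ * t) • p) (t0 + τ * t)) c0
    linarith
  have h7 : ε' * (2 * (σ ^ 2 * ‖y‖ ^ 2)) ≤ η * ε / 2 * ‖y‖ ^ 2 := by
    rw [hε']
    have : η * ε / (4 * (σ ^ 2 + 1)) * (2 * (σ ^ 2 * ‖y‖ ^ 2))
        = η * ε / 2 * ‖y‖ ^ 2 * (σ ^ 2 / (σ ^ 2 + 1)) := by field_simp; ring
    rw [this]
    have h71 : σ ^ 2 / (σ ^ 2 + 1) ≤ 1 := by
      rw [div_le_one (by positivity)]; linarith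
    exact mul_le_of_le_one_right (by positivity) h71
  have h8 : ε' * ‖x0 + σ • y + (τ * t) • p‖ ^ 2
      ≤ ε' * (2 * (σ ^ 2 * ‖y‖ ^ 2)) + ε' * (2 * (‖x0‖ + |τ| * |R| * ‖p‖) ^ 2) := by
    rw [← mul_add]
    exact mul_le_mul_of_nonneg_left h3 hε'0.le
  have h9 : K / η * η = K := by field_simp
  rw [add_mul, h9, hK]
  have h10 := le_abs_self C
  nlinarith

theorem T_cov (h : Grow w) (x0 : V) (t0 : ℝ) (p : V) {σ τ η : ℝ} (c0 b : ℝ) (hτ : 0 < τ)
    (hη : 0 < η) (hσ : σ ^ 2 = η * τ) (x : V) (t : ℝ) {s : ℝ} (hs : 0 < s) :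
    T s (cov w x0 t0 p σ τ η c0 b) x t
      = (T (τ * s) w (x0 + σ • x + (τ * t) • p) (t0 + τ * t)
          - c0 - σ * ⟪p, x⟫_ℝ - b * (t + s) + τ * s * (‖p‖ ^ 2 / 2)) / η := by
  have hσ0 : σ ≠ 0 := by
    rintro rfl
    have : 0 < η * τ := mul_pos hη hτ
    rw [← hσ] at this
    simp at this
  have hτs : 0 < τ * s := mul_pos hτ hs
  apply le_antisymm
  · apply T_le
    intro y
    rw [cov_key w x0 t0 p c0 b hτ hη hσ x y t hs]
    apply div_le_div_of_nonneg_right _ hη.le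
    have := le_T h hτs (x0 + σ • x + (τ * t) • p) (x0 + σ • y + (τ * (t + s)) • p) (t0 + τ * t)
    linarith
  · rw [div_le_iff₀ hη]
    have : T (τ * s) w (x0 + σ • x + (τ * t) • p) (t0 + τ * t)
        ≤ T s (cov w x0 t0 p σ τ η c0 b) x t * η
          + (c0 + σ * ⟪p, x⟫_ℝ + b * (t + s) - τ * s * (‖p‖ ^ 2 / 2)) := by
      apply T_le
      intro Y
      obtain ⟨y, rfl⟩ := cov_surj x0 p hσ0 (τ * (t + s)) Y
      have h1 := le_T (h.cov x0 t0 p c0 b hη (σ := σ) (τ := τ)) hs x y t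
      rw [cov_key w x0 t0 p c0 b hτ hη hσ x y t hs, div_le_iff₀ hη] at h1
      linarith
    linarith

theorem rev_cov (w : V → ℝ → ℝ) (x0 : V) (t0 : ℝ) (p : V) (σ τ η c0 b : ℝ) :
    rev (cov w x0 t0 p σ τ η c0 b) = cov (rev w) x0 (-t0) (-p) σ τ η (-c0) b := by
  funext x t
  simp only [rev, cov]
  rw [inner_neg_left]
  have e1 : (τ * -t) • p = (τ * t) • (-p) := by
    rw [mul_neg, neg_smul, smul_neg]
  have e2 : -(-t0 + τ * t) = t0 + τ * -t := by ring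
  rw [e1, e2]
  ring




theorem IsSub.cov (h : Grow w) (hs : IsSub w) (x0 : V) (t0 : ℝ) (p : V) {σ τ η : ℝ}
    (c0 b : ℝ) (hτ : 0 < τ) (hη : 0 < η) (hσ : σ ^ 2 = η * τ) :
    IsSub (cov w x0 t0 p σ τ η c0 b) := by
  intro x t s s' hs0 hss
  have hs' : 0 < s' := lt_of_lt_of_le hs0 hss
  rw [T_cov h x0 t0 p c0 b hτ hη hσ x t hs0, T_cov h x0 t0 p c0 b hτ hη hσ x t hs']
  have h1 := hs (x0 + σ • x + (τ * t) • p) (t0 + τ * t) (τ * s) (τ * s') (mul_pos hτ hs0)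
    (mul_le_mul_of_nonneg_left hss hτ.le)
  have e1 : τ * s / (τ * s') = s / s' := by field_simp
  rw [e1] at h1
  unfold Sol.cov
  rw [← sub_nonneg]
  have e2 : (1 - s / s') * ((w (x0 + σ • x + (τ * t) • p) (t0 + τ * t) - c0 - σ * ⟪p, x⟫_ℝ
        - b * t) / η)
      + s / s' * ((T (τ * s') w (x0 + σ • x + (τ * t) • p) (t0 + τ * t)
          - c0 - σ * ⟪p, x⟫_ℝ - b * (t + s') + τ * s' * (‖p‖ ^ 2 / 2)) / η)
      - (T (τ * s) w (x0 + σ • x + (τ * t) • p) (t0 + τ * t)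
          - c0 - σ * ⟪p, x⟫_ℝ - b * (t + s) + τ * s * (‖p‖ ^ 2 / 2)) / η
      = ((1 - s / s') * w (x0 + σ • x + (τ * t) • p) (t0 + τ * t)
        + s / s' * T (τ * s') w (x0 + σ • x + (τ * t) • p) (t0 + τ * t)
        - T (τ * s) w (x0 + σ • x + (τ * t) • p) (t0 + τ * t)) / η := by
    field_simp
    ring
  rw [e2]
  exact div_nonneg (by linarith) hη.le

theorem IsSup.cov (h : Grow w) (hs : IsSup w) (x0 : V) (t0 : ℝ) (p : V) {σ τ η : ℝ}
    (c0 b : ℝ) (hτ : 0 < τ) (hη : 0 < η) (hσ : σ ^ 2 = η * τ) :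
    IsSup (cov w x0 t0 p σ τ η c0 b) := by
  have h1 := (hs.rev.cov h.rev x0 (-t0) (-p) (-c0) b hτ hη hσ)
  rw [← rev_cov] at h1
  have h2 := h1.rev
  rwa [rev_rev] at h2

theorem IsSol.cov (hw : IsSol w) (x0 : V) (t0 : ℝ) (p : V) {σ τ η : ℝ}
    (c0 b : ℝ) (hτ : 0 < τ) (hη : 0 < η) (hσ : σ ^ 2 = η * τ) :
    IsSol (cov w x0 t0 p σ τ η c0 b) where
  cont := by
    have h1 : Continuous fun q : V × ℝ => (x0 + σ • q.1 + (τ * q.2) • p, t0 + τ * q.2) := by
      fun_prop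
    have h2 := hw.cont.comp h1
    unfold Sol.cov
    have h3 : Continuous fun q : V × ℝ => ⟪p, q.1⟫_ℝ := continuous_const.inner continuous_fst
    exact (((h2.sub continuous_const).sub (h3.const_mul σ |> fun h => h)).sub
      (continuous_snd.const_mul b |> fun h => h)).div_const η
  grow := hw.grow.cov x0 t0 p c0 b hη
  sub := hw.sub.cov hw.grow x0 t0 p c0 b hτ hη hσ
  sup := hw.sup.cov hw.grow x0 t0 p c0 b hτ hη hσ






end Crest.Agent.R094.Sol
end

-- ▼ part R094/ClsInv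
section

/-!
Row 94 (S0124), route 7921.  `ClsRev_stmt`, `ClsNrmz_stmt` and the covariance of `T`, `B`, `hp`,
`hm` under `nrmz` (helper452).
-/

set_option autoImplicit false
set_option linter.unusedSectionVars false

namespace Crest.Agent.R094.GK

open Sol Metric Set Filter Topology

variable {V : Type*} [NormedAddCommGroup V] [InnerProductSpace ℝ V]
variable {w : V → ℝ → ℝ}

theorem nrmz_eq_cov (w : V → ℝ → ℝ) (x₀ : V) (t₀ τ : ℝ) (p : V) (b : ℝ) :
    nrmz w x₀ t₀ τ p b = cov w x₀ t₀ p τ τ τ (w x₀ t₀) (τ * b) := by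
  funext x t
  unfold nrmz cov
  have e : x₀ + τ • (x + t • p) = x₀ + τ • x + (τ * t) • p := by
    rw [smul_add, smul_smul, add_assoc]
  rw [e]

theorem isSol_nrmz (hw : IsSol w) (x₀ : V) (t₀ : ℝ) {τ : ℝ} (hτ : 0 < τ) (p : V) (b : ℝ) :
    IsSol (nrmz w x₀ t₀ τ p b) := by
  rw [nrmz_eq_cov]
  exact hw.cov x₀ t₀ p (w x₀ t₀) (τ * b) hτ hτ (by ring)





theorem FD.rev {K : ℝ} {x₀ : V} {t₀ τ : ℝ} {p : V} {b : ℝ} (h : FD K w x₀ (-t₀) τ p b) :
    FD K (rev w) x₀ t₀ τ (-p) b := by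
  intro x t
  have h1 := h x (-t)
  simp only [Sol.rev]
  have e1 : x₀ + t • (-p) + x = x₀ + (-t) • p + x := by rw [smul_neg, neg_smul]
  have e2 : -(t₀ + t) = -t₀ + -t := by ring
  rw [e1, e2, inner_neg_left]
  rw [abs_neg] at h1
  rw [← abs_neg]
  convert h1 using 2
  ring

theorem Flat.rev {K : ℝ} (h : Flat K w) : Flat K (rev w) := by
  intro x₀ t₀ τ hτ
  obtain ⟨p, b, hpb⟩ := h x₀ (-t₀) τ hτ
  exact ⟨-p, b, hpb.rev⟩

theorem FD.nrmz {K : ℝ} {x₀ : V} {t₀ τ : ℝ} {p : V} {b : ℝ} (hτ : 0 < τ) {y₀ : V} {s₀ ρ : ℝ}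
    {P : V} {β : ℝ} (hρ : 0 < ρ)
    (h : FD K w (x₀ + τ • (y₀ + s₀ • p)) (t₀ + τ * s₀) (τ * ρ) P β) :
    FD K (GK.nrmz w x₀ t₀ τ p b) y₀ s₀ ρ (P - p) (β - b - inner ℝ p (P - p)) := by
  intro x t
  have h1 := h (τ • x) (τ * t)
  unfold GK.nrmz
  have e1 : x₀ + τ • (y₀ + t • (P - p) + x + (s₀ + t) • p)
      = x₀ + τ • (y₀ + s₀ • p) + (τ * t) • P + τ • x := by
    rw [← smul_smul]
    simp only [smul_add, smul_sub, add_smul]
    abel
  have e2 : t₀ + τ * (s₀ + t) = t₀ + τ * s₀ + τ * t := by ring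
  rw [e1, e2]
  have e3 : (w (x₀ + τ • (y₀ + s₀ • p) + (τ * t) • P + τ • x) (t₀ + τ * s₀ + τ * t) - w x₀ t₀
        - τ * inner ℝ p (y₀ + t • (P - p) + x) - τ * b * (s₀ + t)) / τ
      - (w (x₀ + τ • (y₀ + s₀ • p)) (t₀ + τ * s₀) - w x₀ t₀ - τ * inner ℝ p y₀
        - τ * b * s₀) / τ
      - inner ℝ (P - p) x - (β - b - inner ℝ p (P - p)) * t
      = (w (x₀ + τ • (y₀ + s₀ • p) + (τ * t) • P + τ • x) (t₀ + τ * s₀ + τ * t)
        - w (x₀ + τ • (y₀ + s₀ • p)) (t₀ + τ * s₀) - inner ℝ P (τ • x) - β * (τ * t)) / τ := by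
    rw [inner_add_right, inner_add_right, inner_smul_right, inner_smul_right, inner_sub_left]
    field_simp
    ring
  rw [e3, abs_div, abs_of_pos hτ, div_le_iff₀ hτ]
  refine h1.trans (le_of_eq ?_)
  have e4 : (‖τ • x‖ + |τ * t|) / (τ * ρ) = (‖x‖ + |t|) / ρ := by
    rw [norm_smul, abs_mul, Real.norm_eq_abs, abs_of_pos hτ]
    field_simp
  rw [e4]
  ring

theorem Flat.nrmz {K : ℝ} (h : Flat K w) (x₀ : V) (t₀ : ℝ) {τ : ℝ} (hτ : 0 < τ) (p : V)
    (b : ℝ) : Flat K (GK.nrmz w x₀ t₀ τ p b) := by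
  intro y₀ s₀ ρ hρ
  obtain ⟨P, β, hP⟩ := h (x₀ + τ • (y₀ + s₀ • p)) (t₀ + τ * s₀) (τ * ρ) (mul_pos hτ hρ)
  exact ⟨_, _, FD.nrmz hτ hρ hP⟩

theorem Cls.rev {K : ℝ} (h : Cls K w) : Cls K (rev w) := ⟨h.pos, h.sol.rev, h.flat.rev⟩

theorem Cls.nrmz {K : ℝ} (h : Cls K w) (x₀ : V) (t₀ : ℝ) {τ : ℝ} (hτ : 0 < τ) (p : V)
    (b : ℝ) : Cls K (GK.nrmz w x₀ t₀ τ p b) :=
  ⟨h.pos, isSol_nrmz h.sol x₀ t₀ hτ p b, h.flat.nrmz x₀ t₀ hτ p b⟩


theorem ClsRev [FiniteDimensional ℝ V] : ClsRev_stmt V := fun _ _ h => h.rev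

theorem ClsNrmz [FiniteDimensional ℝ V] : ClsNrmz_stmt V :=
  fun _ _ h x₀ t₀ _ p b hτ => h.nrmz x₀ t₀ hτ p b

end Crest.Agent.R094.GK
end

-- ▼ part R094/Rigid
section

/-!
# Row 94: rigidity of blow-ups (step (BU) of note 7921, abstract part)

`W : V → ℝ → ℝ` with `W y (t+s) - ‖x-y‖²/(2s) ≤ W x t + s h` for all `x y t s > 0`, and with attained
equality from the origin (forwards) and into the origin (backwards) for all times is affine.
-/

set_option autoImplicit false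

noncomputable section

open Filter Topology
open scoped RealInnerProductSpace

namespace Crest.Agent.R094.Rigid

variable {V : Type*} [NormedAddCommGroup V] [InnerProductSpace ℝ V]

lemma parallel_of_le {y z : V} {s s' : ℝ} (hs : 0 < s) (hs' : 0 < s')
    (h : ‖y‖ ^ 2 / (2 * s) + ‖z‖ ^ 2 / (2 * s') ≤ ‖z - y‖ ^ 2 / (2 * (s + s'))) :
    s' • y = -(s • z) := by
  have h1 : ‖s' • y + s • z‖ ^ 2 ≤ 0 := by
    have hn : ‖z - y‖ ^ 2 = ‖z‖ ^ 2 - 2 * ⟪z, y⟫ + ‖y‖ ^ 2 := norm_sub_sq_real z y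
    have hm : ‖s' • y + s • z‖ ^ 2 = s' ^ 2 * ‖y‖ ^ 2 + 2 * (s * s') * ⟪z, y⟫ + s ^ 2 * ‖z‖ ^ 2 := by
      rw [norm_add_sq_real, norm_smul, norm_smul, real_inner_smul_left, real_inner_smul_right,
        real_inner_comm, mul_pow, mul_pow, Real.norm_eq_abs, Real.norm_eq_abs, sq_abs, sq_abs]
      ring
    rw [hn] at h
    have hss : 0 < s + s' := by positivity
    rw [div_add_div _ _ (by positivity) (by positivity), div_le_div_iff₀ (by positivity)
      (by positivity)] at h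
    rw [hm]
    have : 4 * (s' ^ 2 * ‖y‖ ^ 2 + 2 * (s * s') * ⟪z, y⟫ + s ^ 2 * ‖z‖ ^ 2) ≤ 0 := by
      nlinarith [h]
    linarith
  have h2 : s' • y + s • z = 0 := by
    have : ‖s' • y + s • z‖ = 0 := by
      have := sq_nonneg ‖s' • y + s • z‖
      exact pow_eq_zero_iff (two_ne_zero) |>.1 (le_antisymm h1 this)
    exact norm_eq_zero.1 this
  exact eq_neg_of_add_eq_zero_left h2

/-- Rigidity. -/
theorem affine_of_rigid (W : V → ℝ → ℝ) (h : ℝ)
    (h1 : ∀ (x y : V) (t s : ℝ), 0 < s → W y (t + s) - ‖x - y‖ ^ 2 / (2 * s) ≤ W x t + s * h)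
    (h2 : ∀ s : ℝ, 0 < s → ∃ y : V, W y s = W 0 0 + s * h + ‖y‖ ^ 2 / (2 * s))
    (h3 : ∀ s : ℝ, 0 < s → ∃ z : V, W z (-s) = W 0 0 - s * h - ‖z‖ ^ 2 / (2 * s)) :
    ∃ v : V, ∀ (x : V) (t : ℝ), W x t = W 0 0 + ⟪v, x⟫ + (h - ‖v‖ ^ 2 / 2) * t := by
  -- pairs are parallel
  have hpar : ∀ s s' : ℝ, 0 < s → 0 < s' → ∀ y z : V,
      W y s = W 0 0 + s * h + ‖y‖ ^ 2 / (2 * s) →
      W z (-s') = W 0 0 - s' * h - ‖z‖ ^ 2 / (2 * s') → s' • y = -(s • z) := by
    intro s s' hs hs' y z hy hz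
    apply parallel_of_le hs hs'
    have := h1 z y (-s') (s + s') (by positivity)
    rw [show -s' + (s + s') = s by ring, hy, hz] at this
    nlinarith [this]
  obtain ⟨y1, hy1⟩ := h2 1 one_pos
  obtain ⟨z1, hz1⟩ := h3 1 one_pos
  have hyz : y1 = -z1 := by
    have := hpar 1 1 one_pos one_pos y1 z1 hy1 hz1
    simpa using this
  -- the line
  have hfwd : ∀ s : ℝ, 0 < s → W (s • y1) s = W 0 0 + s * (h + ‖y1‖ ^ 2 / 2) := by
    intro s hs
    obtain ⟨y, hy⟩ := h2 s hs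
    have := hpar s 1 hs one_pos y z1 hy hz1
    have hyy : y = s • y1 := by
      rw [one_smul] at this
      rw [this, hyz, smul_neg]
    rw [hyy] at hy
    rw [hy, norm_smul, mul_pow, Real.norm_eq_abs, sq_abs]
    field_simp
    ring
  have hbwd : ∀ s : ℝ, 0 < s → W (-(s • y1)) (-s) = W 0 0 - s * (h + ‖y1‖ ^ 2 / 2) := by
    intro s hs
    obtain ⟨z, hz⟩ := h3 s hs
    have := hpar 1 s one_pos hs y1 z hy1 hz
    have hzz : z = -(s • y1) := by
      rw [one_smul] at this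
      rw [this, neg_neg]
    rw [hzz] at hz
    rw [hz, norm_neg, norm_smul, mul_pow, Real.norm_eq_abs, sq_abs]
    field_simp
    ring
  refine ⟨y1, fun x t => le_antisymm ?_ ?_⟩
  · -- upper bound
    have key : ∀ S : ℝ, 0 < S → 0 < t + S →
        W x t ≤ W 0 0 + ⟪y1, x⟫ + (h - ‖y1‖ ^ 2 / 2) * t + ‖x - t • y1‖ ^ 2 / (2 * (t + S)) := by
      intro S hS htS
      have := h1 (-(S • y1)) x (-S) (t + S) htS
      rw [show -S + (t + S) = t by ring, hbwd S hS] at this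
      have e1 : -(S • y1) - x = -((x - t • y1) + (t + S) • y1) := by
        rw [add_smul]; abel
      rw [e1, norm_neg, norm_add_sq_real, norm_smul, mul_pow, Real.norm_eq_abs, sq_abs,
        real_inner_smul_right, inner_sub_left, real_inner_smul_left, real_inner_self_eq_norm_sq,
        real_inner_comm] at this
      have e2 : (‖x - t • y1‖ ^ 2 + 2 * ((t + S) * (⟪y1, x⟫ - t * ‖y1‖ ^ 2)) +
          (t + S) ^ 2 * ‖y1‖ ^ 2) / (2 * (t + S)) =
          ‖x - t • y1‖ ^ 2 / (2 * (t + S)) + (⟪y1, x⟫ - t * ‖y1‖ ^ 2) + (t + S) * ‖y1‖ ^ 2 / 2 := by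
        field_simp
      rw [e2] at this
      nlinarith [this]
    have hlim : Tendsto (fun S : ℝ => W 0 0 + ⟪y1, x⟫ + (h - ‖y1‖ ^ 2 / 2) * t +
        ‖x - t • y1‖ ^ 2 / (2 * (t + S))) atTop
        (𝓝 (W 0 0 + ⟪y1, x⟫ + (h - ‖y1‖ ^ 2 / 2) * t + 0)) := by
      apply Tendsto.add tendsto_const_nhds
      apply Tendsto.div_atTop tendsto_const_nhds
      apply Tendsto.const_mul_atTop (by norm_num)
      exact tendsto_atTop_add_const_left _ _ tendsto_id
    rw [add_zero] at hlim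
    refine ge_of_tendsto hlim ?_
    filter_upwards [eventually_gt_atTop 0, eventually_gt_atTop (-t)] with S hS hS'
    exact key S hS (by linarith)
  · have key : ∀ S : ℝ, 0 < S → t < S →
        W 0 0 + ⟪y1, x⟫ + (h - ‖y1‖ ^ 2 / 2) * t - ‖x - t • y1‖ ^ 2 / (2 * (S - t)) ≤ W x t := by
      intro S hS htS
      have hpos : 0 < S - t := by linarith
      have := h1 x (S • y1) t (S - t) hpos
      rw [show t + (S - t) = S by ring, hfwd S hS] at this
      have e1 : x - S • y1 = (x - t • y1) - (S - t) • y1 := by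
        rw [sub_smul]; abel
      rw [e1, norm_sub_sq_real, norm_smul, mul_pow, Real.norm_eq_abs, sq_abs,
        real_inner_smul_right, inner_sub_left, real_inner_smul_left, real_inner_self_eq_norm_sq,
        real_inner_comm] at this
      have e2 : (‖x - t • y1‖ ^ 2 - 2 * ((S - t) * (⟪y1, x⟫ - t * ‖y1‖ ^ 2)) +
          (S - t) ^ 2 * ‖y1‖ ^ 2) / (2 * (S - t)) =
          ‖x - t • y1‖ ^ 2 / (2 * (S - t)) - (⟪y1, x⟫ - t * ‖y1‖ ^ 2) + (S - t) * ‖y1‖ ^ 2 / 2 := by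
        field_simp
      rw [e2] at this
      nlinarith [this]
    have hlim : Tendsto (fun S : ℝ => W 0 0 + ⟪y1, x⟫ + (h - ‖y1‖ ^ 2 / 2) * t -
        ‖x - t • y1‖ ^ 2 / (2 * (S - t))) atTop
        (𝓝 (W 0 0 + ⟪y1, x⟫ + (h - ‖y1‖ ^ 2 / 2) * t - 0)) := by
      apply Tendsto.sub tendsto_const_nhds
      apply Tendsto.div_atTop tendsto_const_nhds
      apply Tendsto.const_mul_atTop (by norm_num)
      exact tendsto_atTop_add_const_right _ _ tendsto_id
    rw [sub_zero] at hlim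
    refine le_of_tendsto hlim ?_
    filter_upwards [eventually_gt_atTop 0, eventually_gt_atTop t] with S hS hS'
    exact key S hS hS'

end Crest.Agent.R094.Rigid
end
end

-- ▼ part R094/StageF
section

/-!
# Row 94: blow-ups at points with finite `h` are affine (BU), and step (f) of note 7921
-/

set_option autoImplicit false

noncomputable section

open Filter Topology Set
open scoped RealInnerProductSpace

namespace Crest.Agent.R094.StageF

open Crest.Agent.R094.Sol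

set_option linter.unusedSectionVars false
set_option linter.style.longLine false

variable {V : Type*} [NormedAddCommGroup V] [InnerProductSpace ℝ V]

/-- rescaled function around `(Y,0)` with scale `l` and flat slopes `p, b` -/
def Nr (W : V → ℝ → ℝ) (Y : V) (l : ℝ) (p : V) (b : ℝ) (x : V) (t : ℝ) : ℝ :=
  (W (Y + l • (x + t • p)) (l * t) - W Y 0 - l * ⟪p, x⟫ - l * b * t) / l

lemma Nr_zero (W : V → ℝ → ℝ) (Y : V) (l : ℝ) (p : V) (b : ℝ) :
    Nr W Y l p b 0 0 = 0 := by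
  simp [Nr]

/-- exact transformation of the one-step functional -/
lemma Nr_step (W : V → ℝ → ℝ) (Y : V) (l : ℝ) (hl : 0 < l) (p : V) (b : ℝ)
    (x y : V) (t s : ℝ) (hs : 0 < s) :
    Nr W Y l p b y (t + s) - ‖x - y‖ ^ 2 / (2 * s) - Nr W Y l p b x t
      = (W (Y + l • (y + (t + s) • p)) (l * t + l * s)
          - ‖(Y + l • (x + t • p)) - (Y + l • (y + (t + s) • p))‖ ^ 2 / (2 * (l * s))
          - W (Y + l • (x + t • p)) (l * t)) / l - s * (b - ‖p‖ ^ 2 / 2) := by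
  have e1 : (Y + l • (x + t • p)) - (Y + l • (y + (t + s) • p)) = l • ((x - y) - s • p) := by
    simp only [smul_add, smul_sub, add_smul, smul_smul, mul_comm l]
    abel
  have e2 : l * (t + s) = l * t + l * s := by ring
  have e3 : ‖l • (x - y - s • p)‖ ^ 2
      = l ^ 2 * (‖x - y‖ ^ 2 - 2 * s * (⟪p, x⟫ - ⟪p, y⟫) + s ^ 2 * ‖p‖ ^ 2) := by
    rw [norm_smul, mul_pow, Real.norm_eq_abs, sq_abs, norm_sub_sq_real (x - y) (s • p),
      norm_smul, mul_pow, Real.norm_eq_abs, sq_abs, real_inner_smul_right, inner_sub_left,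
      real_inner_comm p x, real_inner_comm p y]
    ring
  rw [Nr, Nr, e1, e2, e3]
  field_simp
  ring

/-- bounded sequences converge along ultrafilters (finite dimension) -/
lemma exists_ulim [FiniteDimensional ℝ V] {ι : Type*} (𝓤 : Ultrafilter ι) (y : ι → V) (C : ℝ)
    (h : ∀ᶠ i in (𝓤 : Filter ι), ‖y i‖ ≤ C) : ∃ y0 : V, Tendsto y 𝓤 (𝓝 y0) := by
  have : IsCompact (Metric.closedBall (0 : V) C) := isCompact_closedBall _ _
  obtain ⟨y0, -, hy0⟩ := this.ultrafilter_le_nhds' (𝓤.map y) (by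
    change ∀ᶠ i in (𝓤 : Filter ι), y i ∈ Metric.closedBall (0 : V) C
    filter_upwards [h] with i hi
    simpa using hi)
  exact ⟨y0, hy0⟩

lemma exists_ulim_real {ι : Type*} (𝓤 : Ultrafilter ι) (y : ι → ℝ) (C : ℝ)
    (h : ∀ᶠ i in (𝓤 : Filter ι), |y i| ≤ C) : ∃ y0 : ℝ, Tendsto y 𝓤 (𝓝 y0) := by
  have : IsCompact (Metric.closedBall (0 : ℝ) C) := isCompact_closedBall _ _
  obtain ⟨y0, -, hy0⟩ := this.ultrafilter_le_nhds' (𝓤.map y) (by
    change ∀ᶠ i in (𝓤 : Filter ι), y i ∈ Metric.closedBall (0 : ℝ) C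
    filter_upwards [h] with i hi
    simpa using hi)
  exact ⟨y0, hy0⟩

section BU

variable [FiniteDimensional ℝ V]

/-- the common limit value of the slopes -/
lemma exists_H (W : V → ℝ → ℝ) (hW : IsSol W) (Y : V) (t c : ℝ)
    (hc : ∀ s : ℝ, 0 < s → c ≤ hm s W Y t) :
    ∃ H : ℝ, (∀ s : ℝ, 0 < s → H ≤ hp s W Y t) ∧ (∀ s : ℝ, 0 < s → H ≤ hm s W Y t) ∧
      (∀ ε : ℝ, 0 < ε → ∃ s0 : ℝ, 0 < s0 ∧ hp s0 W Y t < H + ε) ∧
      (∀ ε : ℝ, 0 < ε → ∃ s0 : ℝ, 0 < s0 ∧ hm s0 W Y t < H + ε) := by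
  set S : Set ℝ := (fun s => hp s W Y t) '' Ioi 0 with hS
  have hcp : ∀ s : ℝ, 0 < s → c ≤ hp s W Y t := ((Sol.le_hp_iff_le_hm hW (x := Y) (t := t) (c := c))).2 hc
  have hbdd : BddBelow S := ⟨c, by rintro _ ⟨s, hs, rfl⟩; exact hcp s hs⟩
  have hne : S.Nonempty := ⟨_, 1, by simp, rfl⟩
  have h1 : ∀ s : ℝ, 0 < s → sInf S ≤ hp s W Y t := fun s hs => csInf_le hbdd ⟨s, hs, rfl⟩
  have h3 : ∀ ε : ℝ, 0 < ε → ∃ s0 : ℝ, 0 < s0 ∧ hp s0 W Y t < sInf S + ε := by
    intro ε hε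
    obtain ⟨_, ⟨s0, hs0, rfl⟩, h⟩ := exists_lt_of_csInf_lt hne (show sInf S < sInf S + ε by linarith)
    exact ⟨s0, hs0, h⟩
  refine ⟨sInf S, h1, ((Sol.le_hp_iff_le_hm hW (x := Y) (t := t))).1 h1, h3, ?_⟩
  intro ε hε
  by_contra hcon
  push Not at hcon
  have := ((Sol.le_hp_iff_le_hm hW (x := Y) (t := t) (c := sInf S + ε))).2 hcon
  obtain ⟨s0, hs0, h⟩ := h3 ε hε
  linarith [this s0 hs0]

theorem bu_affine {ι : Type*} (𝓤 : Ultrafilter ι) (W : V → ℝ → ℝ) (hW : IsSol W) (Y : V) (c : ℝ)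
    (hc : ∀ s : ℝ, 0 < s → c ≤ hm s W Y 0)
    (l : ι → ℝ) (hl : ∀ i, 0 < l i) (hl0 : Tendsto l 𝓤 (𝓝 0)) (p : ι → V) (b : ι → ℝ)
    (grow : ∀ R ε : ℝ, 0 < ε → ∃ C : ℝ, ∀ i (x : V) (t : ℝ), |t| ≤ R →
      |Nr W Y (l i) (p i) (b i) x t| ≤ ε * ‖x‖ ^ 2 + C)
    (Wt : V → ℝ → ℝ)
    (hcc : ∀ (X : ι → V) (x : V) (t : ℝ), Tendsto X 𝓤 (𝓝 x) →
      Tendsto (fun i => Nr W Y (l i) (p i) (b i) (X i) t) 𝓤 (𝓝 (Wt x t))) :
    ∃ (v : V) (β : ℝ), ∀ x t, Wt x t = ⟪v, x⟫ + β * t := by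
  obtain ⟨H, hHp, hHm, hHp', hHm'⟩ := exists_H W hW Y 0 c hc
  have hW0 : Wt 0 0 = 0 := by
    have h1 := hcc (fun _ => 0) 0 0 tendsto_const_nhds
    simp only [Nr_zero] at h1
    exact tendsto_nhds_unique h1 tendsto_const_nhds |>.symm ▸ rfl
  -- `l • p → 0`
  obtain ⟨C1, hC1⟩ := grow 0 1 one_pos
  have hlp : Tendsto (fun i => l i • p i) 𝓤 (𝓝 0) := by
    rw [Metric.tendsto_nhds]
    intro ε hε
    have hc0 : ContinuousAt (fun x : V => W x 0) Y :=
      (hW.cont.comp (continuous_id.prodMk continuous_const)).continuousAt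
    rw [Metric.continuousAt_iff] at hc0
    obtain ⟨δ, hδ, hδ'⟩ := hc0 (ε / 3) (by positivity)
    have e1 : ∀ᶠ i in (𝓤 : Filter ι), l i < δ := hl0.eventually (gt_mem_nhds hδ)
    have e2 : ∀ᶠ i in (𝓤 : Filter ι), l i * (1 + C1) < ε / 3 := by
      have : Tendsto (fun i => l i * (1 + C1)) 𝓤 (𝓝 (0 * (1 + C1))) := hl0.mul_const _
      rw [zero_mul] at this
      exact this.eventually (gt_mem_nhds (by positivity))
    filter_upwards [e1, e2] with i h1 h2
    rw [dist_zero_right, norm_smul, Real.norm_eq_abs, abs_of_pos (hl i)]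
    by_cases hp : p i = 0
    · rw [hp]; simpa using hε
    have hpn : 0 < ‖p i‖ := norm_pos_iff.2 hp
    set u : V := (‖p i‖)⁻¹ • p i with hu
    have hun : ‖u‖ = 1 := by
      rw [hu, norm_smul, norm_inv, norm_norm]
      field_simp
    have hui : ⟪p i, u⟫ = ‖p i‖ := by
      rw [hu, real_inner_smul_right, real_inner_self_eq_norm_sq]
      field_simp
    have h3 := hC1 i u 0 (by simp)
    rw [Nr, zero_smul, add_zero, mul_zero, mul_zero, sub_zero, hui, hun,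
      abs_div, abs_of_pos (hl i), div_le_iff₀ (hl i)] at h3
    have h4 := hδ' (x := Y + l i • u) (by
      rw [dist_eq_norm, add_sub_cancel_left, norm_smul, hun, Real.norm_eq_abs, abs_of_pos (hl i)]
      simpa using h1)
    rw [Real.dist_eq] at h4
    have h5 := abs_le.1 h3
    have h6 := abs_lt.1 h4
    nlinarith [h5.1, h5.2, h6.1, h6.2]
  -- the points converge to `(Y, 0)`
  have hpt : ∀ (x : V) (t : ℝ),
      Tendsto (fun i => ((Y + l i • (x + t • p i), l i * t) : V × ℝ)) 𝓤 (𝓝 (Y, 0)) := by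
    intro x t
    have a1 : Tendsto (fun i => Y + (l i • x + t • (l i • p i))) 𝓤 (𝓝 (Y + ((0:ℝ) • x + t • (0 : V)))) :=
      tendsto_const_nhds.add ((hl0.smul_const x).add (hlp.const_smul t))
    have a2 : Tendsto (fun i => l i * t) 𝓤 (𝓝 (0 * t)) := hl0.mul_const t
    simp only [zero_smul, smul_zero, add_zero, zero_mul] at a1 a2
    refine (a1.congr fun i => ?_).prodMk_nhds a2
    rw [smul_add, smul_comm (l i) t]
  have hupper : ∀ (x : V) (t s ε : ℝ), 0 < s → 0 < ε →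
      ∀ᶠ i in (𝓤 : Filter ι), hp (l i * s) W (Y + l i • (x + t • p i)) (l i * t) ≤ H + ε := by
    intro x t s ε hs hε
    obtain ⟨s0, hs0, hs0'⟩ := hHp' ε hε
    have hct : Continuous (fun q : V × ℝ => hp s0 W q.1 q.2) := by
      exact Sol.continuous_hp hW.cont hW.grow hs0
    have b1 := (hct.tendsto (Y, 0)).comp (hpt x t)
    have b2 := b1.eventually (gt_mem_nhds hs0')
    have b3 : ∀ᶠ i in (𝓤 : Filter ι), l i * s < s0 := by
      have : Tendsto (fun i => l i * s) 𝓤 (𝓝 (0 * s)) := hl0.mul_const s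
      rw [zero_mul] at this
      exact this.eventually (gt_mem_nhds hs0)
    filter_upwards [b2, b3] with i h1 h2
    have := hW.sub.hp_mono (mul_pos (hl i) hs) h2.le (Y + l i • (x + t • p i)) (l i * t)
    simp only [Function.comp] at h1
    linarith
  -- the slopes at the base point
  obtain ⟨h, hhi⟩ : ∃ h : ι → ℝ, ∀ i, h i = b i - ‖p i‖ ^ 2 / 2 :=
    ⟨fun i => b i - ‖p i‖ ^ 2 / 2, fun i => rfl⟩
  have step : ∀ i (x y : V) (t s : ℝ), 0 < s →
      Nr W Y (l i) (p i) (b i) y (t + s) - ‖x - y‖ ^ 2 / (2 * s) - Nr W Y (l i) (p i) (b i) x t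
        ≤ s * hp (l i * s) W (Y + l i • (x + t • p i)) (l i * t) - s * h i := by
    intro i x y t s hs
    rw [Nr_step W Y (l i) (hl i) (p i) (b i) x y t s hs, ← hhi]
    have := Sol.le_T hW.grow (mul_pos (hl i) hs) (Y + l i • (x + t • p i))
      (Y + l i • (y + (t + s) • p i)) (l i * t)
    have e : s * hp (l i * s) W (Y + l i • (x + t • p i)) (l i * t)
        = (T (l i * s) W (Y + l i • (x + t • p i)) (l i * t) - W (Y + l i • (x + t • p i)) (l i * t))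
          / l i := by
      unfold hp
      have := (hl i).ne'
      field_simp
    rw [e]
    have := div_le_div_of_nonneg_right (sub_le_sub_right this (W (Y + l i • (x + t • p i)) (l i * t)))
      (hl i).le
    linarith
  -- attained forward at the origin
  have fwd : ∀ i (s : ℝ), 0 < s → ∃ y : V,
      Nr W Y (l i) (p i) (b i) y s - ‖y‖ ^ 2 / (2 * s) = s * hp (l i * s) W Y 0 - s * h i := by
    intro i s hs
    obtain ⟨y', hy'⟩ := Sol.exists_T hW.cont hW.grow (mul_pos (hl i) hs) Y 0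
    set y : V := (l i)⁻¹ • (y' - Y) - s • p i with hy
    have hyy : Y + l i • (y + s • p i) = y' := by
      rw [hy, sub_add_cancel, smul_smul, mul_inv_cancel₀ (hl i).ne', one_smul]; abel
    refine ⟨y, ?_⟩
    have := Nr_step W Y (l i) (hl i) (p i) (b i) 0 y 0 s hs
    rw [← hhi, Nr_zero, zero_add, zero_sub, norm_neg, sub_zero] at this
    rw [this]
    simp only [zero_smul, add_zero, smul_zero, mul_zero, zero_add]
    rw [hyy]
    rw [zero_add] at hy'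
    rw [← hy']
    unfold hp
    have := (hl i).ne'
    field_simp
  have bwd : ∀ i (s : ℝ), 0 < s → ∃ z : V,
      Nr W Y (l i) (p i) (b i) z (-s) + ‖z‖ ^ 2 / (2 * s) = -(s * hm (l i * s) W Y 0 - s * h i) := by
    intro i s hs
    obtain ⟨z', hz'⟩ := Sol.exists_B hW.cont hW.grow (mul_pos (hl i) hs) Y 0
    set z : V := (l i)⁻¹ • (z' - Y) + s • p i with hz
    have hzz : Y + l i • (z + (-s) • p i) = z' := by
      rw [hz, neg_smul, add_neg_cancel_right, smul_smul, mul_inv_cancel₀ (hl i).ne', one_smul]; abel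
    refine ⟨z, ?_⟩
    have := Nr_step W Y (l i) (hl i) (p i) (b i) z 0 (-s) s hs
    rw [← hhi, neg_add_cancel, Nr_zero, sub_zero] at this
    have e0 : l i * -s + l i * s = 0 := by ring
    rw [e0, hzz] at this
    simp only [zero_smul, add_zero, smul_zero] at this
    have e1 : l i * -s = 0 - l i * s := by ring
    rw [e1] at this
    rw [norm_sub_rev z' Y] at this
    have e2 : Nr W Y (l i) (p i) (b i) z (-s) + ‖z‖ ^ 2 / (2 * s)
        = -((W Y 0 - ‖Y - z'‖ ^ 2 / (2 * (l i * s)) - W z' (0 - l i * s)) / l i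
            - s * h i) := by
      linarith
    rw [e2]
    have e3 : W Y 0 - ‖Y - z'‖ ^ 2 / (2 * (l i * s)) - W z' (0 - l i * s)
        = W Y 0 - B (l i * s) W Y 0 := by linarith
    rw [e3]
    unfold hm
    have := (hl i).ne'
    field_simp
  -- limits of slopes at the base point
  have hplim : ∀ s : ℝ, 0 < s → Tendsto (fun i => hp (l i * s) W Y 0) 𝓤 (𝓝 H) := by
    intro s hs
    rw [Metric.tendsto_nhds]
    intro ε hε
    have := hupper 0 0 s (ε / 2) hs (by positivity)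
    filter_upwards [this] with i hi
    simp only [zero_smul, add_zero, smul_zero, mul_zero] at hi
    rw [Real.dist_eq, abs_lt]
    constructor
    · linarith [hHp (l i * s) (mul_pos (hl i) hs)]
    · linarith
  have hmlim : ∀ s : ℝ, 0 < s → Tendsto (fun i => hm (l i * s) W Y 0) 𝓤 (𝓝 H) := by
    intro s hs
    rw [Metric.tendsto_nhds]
    intro ε hε
    obtain ⟨s0, hs0, hs0'⟩ := hHm' ε hε
    have b3 : ∀ᶠ i in (𝓤 : Filter ι), l i * s < s0 := by
      have : Tendsto (fun i => l i * s) 𝓤 (𝓝 (0 * s)) := hl0.mul_const s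
      rw [zero_mul] at this
      exact this.eventually (gt_mem_nhds hs0)
    filter_upwards [b3] with i hi
    have := hW.sup.hm_mono (mul_pos (hl i) hs) hi.le Y 0
    rw [Real.dist_eq, abs_lt]
    constructor
    · linarith [hHm (l i * s) (mul_pos (hl i) hs)]
    · linarith
  -- `h` converges
  obtain ⟨h0, hh0⟩ : ∃ h0 : ℝ, Tendsto h 𝓤 (𝓝 h0) := by
    obtain ⟨C, hC⟩ := grow 1 (1 / 2) (by norm_num)
    apply exists_ulim_real 𝓤 h (|H| + 1 + |C|)
    have := (hplim 1 one_pos).eventually (Metric.ball_mem_nhds H one_pos)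
    filter_upwards [this] with i hi
    rw [Real.dist_eq] at hi
    obtain ⟨y, hy⟩ := fwd i 1 one_pos
    have h1 := step i 0 0 0 1 one_pos
    simp only [zero_add, sub_self, norm_zero, zero_smul, smul_zero, add_zero, mul_zero,
      Nr_zero, one_mul, mul_one] at h1 hy
    have h2 := abs_le.1 (hC i y 1 (by norm_num))
    have h3 := abs_le.1 (hC i 0 1 (by norm_num))
    simp only [norm_zero] at h3
    have h4 := abs_lt.1 hi
    have h5 := le_abs_self H
    have h6 := neg_abs_le H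
    have h7 := le_abs_self C
    simp only [mul_one] at h4
    rw [abs_le]
    constructor
    · nlinarith [h2.1, h2.2]
    · nlinarith [h3.1, h3.2]
  -- now apply the rigidity lemma
  suffices hmain : ∃ v : V, ∀ (x : V) (t : ℝ),
      Wt x t = Wt 0 0 + ⟪v, x⟫ + (H - h0 - ‖v‖ ^ 2 / 2) * t by
    obtain ⟨v, hv⟩ := hmain
    exact ⟨v, _, fun x t => by rw [hv x t, hW0, zero_add]⟩
  refine Rigid.affine_of_rigid Wt (H - h0) ?_ ?_ ?_
  · intro x y t s hs
    have key : ∀ ε : ℝ, 0 < ε → Wt y (t + s) - ‖x - y‖ ^ 2 / (2 * s) - Wt x t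
        ≤ s * (H + ε) - s * h0 := by
      intro ε hε
      have l1 : Tendsto (fun i => Nr W Y (l i) (p i) (b i) y (t + s) - ‖x - y‖ ^ 2 / (2 * s)
          - Nr W Y (l i) (p i) (b i) x t) 𝓤 (𝓝 (Wt y (t + s) - ‖x - y‖ ^ 2 / (2 * s) - Wt x t)) :=
        ((hcc (fun _ => y) y (t + s) tendsto_const_nhds).sub_const _).sub
          (hcc (fun _ => x) x t tendsto_const_nhds)
      have l2 : Tendsto (fun i => s * (H + ε) - s * h i) 𝓤 (𝓝 (s * (H + ε) - s * h0)) :=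
        tendsto_const_nhds.sub (hh0.const_mul s)
      refine le_of_tendsto_of_tendsto l1 l2 ?_
      filter_upwards [hupper x t s ε hs hε] with i hi
      have := step i x y t s hs
      nlinarith
    have : Wt y (t + s) - ‖x - y‖ ^ 2 / (2 * s) - Wt x t ≤ s * H - s * h0 := by
      apply le_of_forall_pos_le_add
      intro ε hε
      have := key (ε / s) (by positivity)
      have e : s * (H + ε / s) = s * H + ε := by field_simp
      rw [e] at this
      linarith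
    linarith
  · intro s hs
    choose y hy using fun i => fwd i s hs
    obtain ⟨C, hC⟩ := grow s (1 / (4 * s)) (by positivity)
    obtain ⟨y0, hy0⟩ : ∃ y0 : V, Tendsto y 𝓤 (𝓝 y0) := by
      apply exists_ulim 𝓤 y (4 * s * (2 * |C|) + 1)
      refine Eventually.of_forall fun i => ?_
      have h1 := step i 0 0 0 s hs
      simp only [zero_add, sub_self, norm_zero, zero_smul, smul_zero, add_zero, mul_zero,
        Nr_zero, sub_zero] at h1
      have h2 := abs_le.1 (hC i (y i) s (by rw [abs_of_pos hs]))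
      have h3 := abs_le.1 (hC i 0 s (by rw [abs_of_pos hs]))
      have h4 := hy i
      have z1 : (0:ℝ) ^ 2 / (2 * s) = 0 := by simp
      have z2 : 1 / (4 * s) * (0:ℝ) ^ 2 = 0 := by simp
      simp only [norm_zero] at h3
      rw [z1] at h1
      rw [z2] at h3
      have h5 : ‖y i‖ ^ 2 / (2 * s) - 1 / (4 * s) * ‖y i‖ ^ 2 ≤ 2 * C := by
        nlinarith [h1, h2.2, h3.1, h4]
      have h6 : ‖y i‖ ^ 2 / (2 * s) - 1 / (4 * s) * ‖y i‖ ^ 2 = ‖y i‖ ^ 2 / (4 * s) := by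
        field_simp; ring
      rw [h6, div_le_iff₀ (by positivity)] at h5
      have h7 : ‖y i‖ ^ 2 ≤ 4 * s * (2 * |C|) := by
        have := le_abs_self C
        nlinarith
      nlinarith [norm_nonneg (y i), sq_nonneg (‖y i‖ - 1)]
    refine ⟨y0, ?_⟩
    have l1 := (hcc y y0 s hy0).sub ((hy0.norm.pow 2).div_const (2 * s))
    have l2 : Tendsto (fun i => s * hp (l i * s) W Y 0 - s * h i) 𝓤 (𝓝 (s * H - s * h0)) :=
      ((hplim s hs).const_mul s).sub (hh0.const_mul s)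
    have := tendsto_nhds_unique (l1.congr hy) l2
    rw [hW0]
    linarith
  · intro s hs
    choose z hz using fun i => bwd i s hs
    obtain ⟨C, hC⟩ := grow s (1 / (4 * s)) (by positivity)
    obtain ⟨z0, hz0⟩ : ∃ z0 : V, Tendsto z 𝓤 (𝓝 z0) := by
      apply exists_ulim 𝓤 z (4 * s * (2 * |C|) + 1)
      refine Eventually.of_forall fun i => ?_
      have h1 := step i 0 0 (-s) s hs
      rw [neg_add_cancel, Nr_zero, sub_self, norm_zero] at h1
      have h4 := hz i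
      have h2 := abs_le.1 (hC i (z i) (-s) (by rw [abs_neg, abs_of_pos hs]))
      have h3 := abs_le.1 (hC i 0 (-s) (by rw [abs_neg, abs_of_pos hs]))
      simp only [norm_zero] at h3
      have z1 : (0:ℝ) ^ 2 / (2 * s) = 0 := by simp
      have z2 : 1 / (4 * s) * (0:ℝ) ^ 2 = 0 := by simp
      rw [z1] at h1
      rw [z2] at h3
      -- compare with the point 0
      have hB : B (l i * s) W Y 0 ≤ W (Y + l i • ((0 : V) + (-s) • p i)) (0 - l i * s)
          + ‖Y - (Y + l i • ((0 : V) + (-s) • p i))‖ ^ 2 / (2 * (l i * s)) :=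
        Sol.B_le hW.grow (mul_pos (hl i) hs) Y _ 0
      have h8 := Nr_step W Y (l i) (hl i) (p i) (b i) 0 0 (-s) s hs
      rw [← hhi, neg_add_cancel, Nr_zero, sub_self, norm_zero, z1] at h8
      have e0 : l i * -s + l i * s = 0 := by ring
      have e1 : l i * -s = 0 - l i * s := by ring
      rw [e0, e1] at h8
      simp only [zero_smul, add_zero, smul_zero] at h8
      rw [norm_sub_rev] at h8
      have h9 : -(Nr W Y (l i) (p i) (b i) 0 (-s)) ≤ s * hm (l i * s) W Y 0 - s * h i := by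
        have e5 : s * hm (l i * s) W Y 0 = (W Y 0 - B (l i * s) W Y 0) / l i := by
          unfold hm
          have := (hl i).ne'
          field_simp
        rw [e5]
        have e6 := div_le_div_of_nonneg_right (sub_le_sub_left hB (W Y 0)) (hl i).le
        have e7 : (W Y 0 - (W (Y + l i • ((0 : V) + (-s) • p i)) (0 - l i * s)
          + ‖Y - (Y + l i • ((0 : V) + (-s) • p i))‖ ^ 2 / (2 * (l i * s)))) / l i
          = (W Y 0 - ‖Y - (Y + l i • ((0 : V) + (-s) • p i))‖ ^ 2 / (2 * (l i * s))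
          - W (Y + l i • ((0 : V) + (-s) • p i)) (0 - l i * s)) / l i := by
          congr 1; ring
        rw [e7] at e6
        have : -(Nr W Y (l i) (p i) (b i) 0 (-s)) =
          (W Y 0 - ‖Y - (Y + l i • ((0 : V) + (-s) • p i))‖ ^ 2 / (2 * (l i * s))
          - W (Y + l i • ((0 : V) + (-s) • p i)) (0 - l i * s)) / l i - s * h i := by
          linarith
        rw [this]
        linarith
      have h5 : ‖z i‖ ^ 2 / (2 * s) - 1 / (4 * s) * ‖z i‖ ^ 2 ≤ 2 * C := by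
        nlinarith [h9, h2.1, h3.2, h4]
      have h6 : ‖z i‖ ^ 2 / (2 * s) - 1 / (4 * s) * ‖z i‖ ^ 2 = ‖z i‖ ^ 2 / (4 * s) := by
        field_simp; ring
      rw [h6, div_le_iff₀ (by positivity)] at h5
      have h7 : ‖z i‖ ^ 2 ≤ 4 * s * (2 * |C|) := by
        have := le_abs_self C
        nlinarith
      nlinarith [norm_nonneg (z i), sq_nonneg (‖z i‖ - 1)]
    refine ⟨z0, ?_⟩
    have l1 := (hcc z z0 (-s) hz0).add ((hz0.norm.pow 2).div_const (2 * s))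
    have l2 : Tendsto (fun i => -(s * hm (l i * s) W Y 0 - s * h i)) 𝓤 (𝓝 (-(s * H - s * h0))) :=
      (((hmlim s hs).const_mul s).sub (hh0.const_mul s)).neg
    have := tendsto_nhds_unique (l1.congr hz) l2
    rw [hW0]
    linarith


/-! ### step (f) -/

open GK in
lemma nrmz_eq_Nr (w : V → ℝ → ℝ) (Y : V) (l : ℝ) (p : V) (b : ℝ) :
    nrmz w Y 0 l p b = Nr w Y l p b := by
  funext x t
  simp only [nrmz, Nr, zero_add]

open GK in
lemma Uf_le_of [FiniteDimensional ℝ V] {w : V → ℝ → ℝ} (hw : IsSol w) {x q : V} {t a : ℝ}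
    (ht : 0 < t) (h : ∀ y, w y t ≤ a + ⟪q, y - x⟫ + ‖y - x‖ ^ 2 / (2 * t)) : GK.Uf w x t ≤ a := by
  rw [Uf_eq, ← envU_eq_env (slice_cont hw.cont t) (slice_subQ hw.grow t) ht]
  apply EnvU.Uf_le_of_majorant (q := q)
  intro y
  linarith [h y]

end BU

open GK in
set_option maxHeartbeats 2000000 in
theorem stageF [FiniteDimensional ℝ V] (hCpt : Compact_stmt V) : StageF_stmt V := by
  rintro K κ hκ - W hW ⟨Y, hν⟩
  have hS := hW.sol
  set l : ℕ → ℝ := fun k => 1 / ((k : ℝ) + 2) with hldef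
  have hl : ∀ k, 0 < l k := fun k => by simp only [hldef]; positivity
  have hl1 : ∀ k, l k < 1 := fun k => by
    simp only [hldef]
    rw [div_lt_one (by positivity)]
    have : (0:ℝ) ≤ k := by positivity
    linarith
  have hl0' : Tendsto l atTop (𝓝 0) := by
    have : Tendsto (fun k : ℕ => (k : ℝ) + 2) atTop atTop :=
      tendsto_atTop_add_const_right _ _ tendsto_natCast_atTop_atTop
    exact tendsto_const_nhds.div_atTop this
  have hl0 : Tendsto l (hyperfilter ℕ) (𝓝 0) := hl0'.mono_left (by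
    rw [← Nat.cofinite_eq_atTop]; exact hyperfilter_le_cofinite)
  choose ν hν1 hν2 hν3 using fun k => hν (l k) (hl k) (hl1 k)
  choose p b hfd using fun k => hW.flat Y 0 (l k) (hl k)
  obtain ⟨Wt, hWt, -, hJC⟩ := hCpt (hyperfilter ℕ) K K (fun k => nrmz W Y 0 (l k) (p k) (b k))
    (Eventually.of_forall fun k => ClsNrmz K W hW Y 0 (l k) (p k) (b k) (hl k))
    (Eventually.of_forall fun k => nrm_nrmz (hl k) (hfd k))
  have hg : ∀ R ε : ℝ, 0 < ε → ∃ C : ℝ, ∀ k (x : V) (t : ℝ), |t| ≤ R →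
      |Nr W Y (l k) (p k) (b k) x t| ≤ ε * ‖x‖ ^ 2 + C := by
    intro R ε hε
    obtain ⟨C, -, hC⟩ := nrm_growth (V := V) K R ε hε
    refine ⟨C, fun k x t ht => ?_⟩
    rw [← nrmz_eq_Nr]
    exact hC _ (nrm_nrmz (hl k) (hfd k)) x t ht
  have hcc : ∀ (X : ℕ → V) (x : V) (t : ℝ), Tendsto X (hyperfilter ℕ) (𝓝 x) →
      Tendsto (fun k => Nr W Y (l k) (p k) (b k) (X k) t) (hyperfilter ℕ) (𝓝 (Wt x t)) := by
    intro X x t hX
    have := hJC X (fun _ => t) x t hX tendsto_const_nhds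
    simpa only [nrmz_eq_Nr] using this
  -- the global one-sided bound
  have hsup : ∀ k y, W y (l k) ≤ W (Y + l k • ν k) (l k) + κ * l k + ⟪ν k, y - (Y + l k • ν k)⟫
        + ‖y - (Y + l k • ν k)‖ ^ 2 / (2 * l k) := by
    intro k y
    have h1 := hν2 k (y - (Y + l k • ν k))
    simp only [add_sub_cancel] at h1
    rw [hν1 k] at h1
    exact (le_Uf hS.grow (hl k) y).trans h1
  -- the touching points converge to `Y`
  have hxY : Tendsto (fun k => Y + l k • ν k) (hyperfilter ℕ) (𝓝 Y) := by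
    obtain ⟨C, hCC⟩ := hS.grow 1 (1 / 8) (by norm_num)
    have hb : ∀ k, ‖l k • ν k‖ ^ 2 ≤ l k * (4 * (‖Y‖ ^ 2 + 2 * C + κ)) := by
      intro k
      have h1 := hsup k Y
      have e1 : Y - (Y + l k • ν k) = -(l k • ν k) := by abel
      have e2 : ⟪ν k, -(l k • ν k)⟫ = -(‖l k • ν k‖ ^ 2 / l k) := by
        rw [inner_neg_right, real_inner_smul_right, real_inner_self_eq_norm_sq, norm_smul, mul_pow,
          Real.norm_eq_abs, sq_abs]
        have := (hl k).ne'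
        field_simp
      rw [e1, e2, norm_neg] at h1
      have h2 := abs_le.1 (hCC (Y + l k • ν k) (l k) (by rw [abs_of_pos (hl k)]; exact (hl1 k).le))
      have h3 := abs_le.1 (hCC Y (l k) (by rw [abs_of_pos (hl k)]; exact (hl1 k).le))
      have h4 : ‖Y + l k • ν k‖ ^ 2 ≤ 2 * ‖Y‖ ^ 2 + 2 * ‖l k • ν k‖ ^ 2 := by
        have h5 := norm_add_le Y (l k • ν k)
        have h6 : ‖Y + l k • ν k‖ ^ 2 ≤ (‖Y‖ + ‖l k • ν k‖) ^ 2 := by gcongr
        nlinarith [sq_nonneg (‖Y‖ - ‖l k • ν k‖)]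
      set r := ‖l k • ν k‖ ^ 2 with hr
      have hr0 : 0 ≤ r := by positivity
      have e3 : r / (2 * l k) = r / l k / 2 := by field_simp
      rw [e3] at h1
      have h7 : κ * l k ≤ κ := by nlinarith [hl1 k]
      have h8 : r / l k / 2 ≤ r / 4 + (3 / 8 * ‖Y‖ ^ 2 + 2 * C + κ) := by
        nlinarith [h2.2, h3.1]
      have h9 : r ≤ r / l k := by
        rw [le_div_iff₀ (hl k)]
        nlinarith [hl1 k]
      have h10 : r / l k ≤ 4 * (3 / 8 * ‖Y‖ ^ 2 + 2 * C + κ) := by linarith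
      rw [div_le_iff₀ (hl k)] at h10
      nlinarith [hl k, sq_nonneg ‖Y‖, mul_nonneg (hl k).le (sq_nonneg ‖Y‖)]
    have hb2 : Tendsto (fun k => ‖l k • ν k‖ ^ 2) (hyperfilter ℕ) (𝓝 0) := by
      have : Tendsto (fun k => l k * (4 * (‖Y‖ ^ 2 + 2 * C + κ))) (hyperfilter ℕ) (𝓝 0) := by
        have := hl0.mul_const (4 * (‖Y‖ ^ 2 + 2 * C + κ))
        rwa [zero_mul] at this
      exact squeeze_zero (fun k => by positivity) hb this
    have hb3 : Tendsto (fun k => ‖l k • ν k‖) (hyperfilter ℕ) (𝓝 0) := by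
      have := hb2.sqrt
      simpa using this
    have hb4 : Tendsto (fun k => l k • ν k) (hyperfilter ℕ) (𝓝 0) :=
      tendsto_zero_iff_norm_tendsto_zero.2 hb3
    simpa using hb4.const_add Y
  -- slopes at `(Y,0)` are nonnegative
  have hhm : ∀ s : ℝ, 0 < s → 0 ≤ hm s W Y 0 := by
    intro s hs
    have l1 := tendsto_B hS.cont hS.grow hs (tendsto_const_nhds (x := s)) hxY hl0
    have l2 := tendsto_w hS.cont hxY hl0
    have h1 := le_of_tendsto_of_tendsto l1 l2 (Eventually.of_forall fun k => hν3 k s hs)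
    unfold hm
    apply div_nonneg _ hs.le
    linarith
  obtain ⟨v, β, hv⟩ := bu_affine (hyperfilter ℕ) W hS Y 0 hhm l hl hl0 p b hg Wt hcc
  -- scaled touching points
  have hscale : ∀ k (y : V), Nr W Y (l k) (p k) (b k) ((l k)⁻¹ • (y - Y) - p k) 1
      = (W y (l k) - W Y 0 - ⟪p k, y - Y⟫ + l k * ‖p k‖ ^ 2 - l k * b k) / l k := by
    intro k y
    rw [Nr]
    have e1 : Y + l k • ((l k)⁻¹ • (y - Y) - p k + (1:ℝ) • p k) = y := by
      rw [one_smul, sub_add_cancel, smul_smul, mul_inv_cancel₀ (hl k).ne', one_smul]; abel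
    rw [e1, mul_one, inner_sub_right, real_inner_smul_right, real_inner_self_eq_norm_sq]
    have := (hl k).ne'
    field_simp
    ring
  obtain ⟨C, hCC⟩ := hg 1 (1 / 8) (by norm_num)
  have hgr : ∀ k (x : V), |Nr W Y (l k) (p k) (b k) x 1| ≤ 1 / 8 * ‖x‖ ^ 2 + C := fun k x =>
    hCC k x 1 (by norm_num)
  have hx' : ∀ k, (l k)⁻¹ • ((Y + l k • ν k) - Y) - p k = ν k - p k := by
    intro k
    rw [add_sub_cancel_left, smul_smul, inv_mul_cancel₀ (hl k).ne', one_smul]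
  -- one-sided bound in scaled coordinates
  have hbound : ∀ k, ‖ν k - p k‖ ^ 2 ≤ 8 * C + 8 * κ := by
    intro k
    have h1 := hsup k (Y + l k • p k)
    have h2 := hscale k (Y + l k • p k)
    have h3 := hscale k (Y + l k • ν k)
    rw [hx'] at h3
    rw [add_sub_cancel_left, smul_smul, inv_mul_cancel₀ (hl k).ne', one_smul, sub_self] at h2
    have h4 := abs_le.1 (hgr k 0)
    have h5 := abs_le.1 (hgr k (ν k - p k))
    rw [norm_zero] at h4
    have e1 : Y + l k • p k - (Y + l k • ν k) = -(l k • (ν k - p k)) := by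
      rw [smul_sub]; abel
    rw [e1, inner_neg_right, real_inner_smul_right, norm_neg, norm_smul, mul_pow,
      Real.norm_eq_abs, sq_abs] at h1
    rw [h2] at h4
    rw [h3] at h5
    rw [add_sub_cancel_left, real_inner_smul_right] at h3 h5
    rw [real_inner_smul_right, real_inner_self_eq_norm_sq] at h4
    rw [le_div_iff₀ (hl k), div_le_iff₀ (hl k)] at h4 h5
    have e2 : l k ^ 2 * ‖ν k - p k‖ ^ 2 / (2 * l k) = l k * ‖ν k - p k‖ ^ 2 / 2 := by
      have := (hl k).ne'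
      field_simp
    rw [e2] at h1
    have e3 : ⟪ν k, ν k - p k⟫ = ‖ν k - p k‖ ^ 2 + ⟪p k, ν k⟫ - ‖p k‖ ^ 2 := by
      rw [norm_sub_sq_real, inner_sub_right, real_inner_self_eq_norm_sq, real_inner_comm (p k) (ν k)]
      ring
    rw [e3] at h1
    have hC0 : 0 ≤ l k * C := by
      apply mul_nonneg (hl k).le
      have := (abs_nonneg _).trans (hgr k 0)
      simpa using this
    have hκl : 0 ≤ l k * κ := mul_nonneg (hl k).le hκ.le
    have h6 : l k * ‖ν k - p k‖ ^ 2 ≤ l k * (8 * C + 8 * κ) := by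
      nlinarith [h4.1, h5.2, h1]
    exact le_of_mul_le_mul_left h6 (hl k)
  have hbound' : ∀ k, ‖ν k - p k‖ ≤ 8 * C + 8 * κ + 1 := by
    intro k
    nlinarith [hbound k, sq_nonneg (‖ν k - p k‖ - 1), norm_nonneg (ν k - p k)]
  -- the limit is affine
  set δ : ℝ := κ / 4 with hδ
  have hδ0 : 0 < δ := by positivity
  set M : ℝ := 8 * C + 8 * κ with hM
  set R : ℝ := max (8 * C + 8 * κ + 1) (16 * (‖v‖ + 1) + 8 * (|C| + |β| + M)) with hR
  have h1 := hJC.unif hWt.sol.cont (t := fun _ => 1) tendsto_const_nhds R δ hδ0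
  simp only [nrmz_eq_Nr] at h1
  obtain ⟨k, hk, hkR, hkb⟩ : ∃ k, (∀ x, ‖x‖ ≤ R →
      |Nr W Y (l k) (p k) (b k) x 1 - Wt x 1| < δ) ∧ 1 ≤ R ∧ ‖ν k - p k‖ ≤ R := by
    obtain ⟨k, hk⟩ := h1.exists
    refine ⟨k, hk, ?_, (hbound' k).trans (le_max_left _ _)⟩
    have hC0 : 0 ≤ C := by
      have := (abs_nonneg _).trans (hgr 0 0)
      simpa using this
    have : 1 ≤ 8 * C + 8 * κ + 1 := by nlinarith
    exact this.trans (le_max_left _ _)
  -- one-sided estimate everywhere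
  have hall : ∀ η : V, Nr W Y (l k) (p k) (b k) η 1 ≤ Wt η 1 + δ + ‖η - (ν k - p k)‖ ^ 2 / 2 := by
    intro η
    by_cases hη : ‖η‖ ≤ R
    · have := (abs_lt.1 (hk η hη)).2
      have : 0 ≤ ‖η - (ν k - p k)‖ ^ 2 / 2 := by positivity
      linarith
    · push Not at hη
      have g1 := (abs_le.1 (hgr k η)).2
      have g2 := hv η 1
      have g3 : -(‖v‖ * ‖η‖) ≤ ⟪v, η⟫ := by
        have := abs_real_inner_le_norm v η
        exact (abs_le.1 this).1
      have g4 : -|β| ≤ β := neg_abs_le β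
      have g5 : ‖η‖ ^ 2 / 2 - ‖ν k - p k‖ ^ 2 ≤ ‖η - (ν k - p k)‖ ^ 2 := by
        have h5 : ‖η‖ ≤ ‖η - (ν k - p k)‖ + ‖ν k - p k‖ := by
          calc ‖η‖ = ‖(η - (ν k - p k)) + (ν k - p k)‖ := by congr 1; abel
            _ ≤ _ := norm_add_le _ _
        have h6 : ‖η‖ ^ 2 ≤ (‖η - (ν k - p k)‖ + ‖ν k - p k‖) ^ 2 := by gcongr
        nlinarith [sq_nonneg (‖η - (ν k - p k)‖ - ‖ν k - p k‖)]
      have g6 := hbound k
      have g7 : 16 * (‖v‖ + 1) + 8 * (|C| + |β| + M) < ‖η‖ := (le_max_right _ _).trans_lt hη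
      have g8 := le_abs_self C
      have g9 : 0 ≤ M := (sq_nonneg ‖ν k - p k‖).trans (hbound k)
      have g10 := norm_nonneg v
      have g11 := abs_nonneg C
      have g12 := abs_nonneg β
      -- ‖η‖²/8 ≥ ‖v‖‖η‖ + C + |β| + M/2
      have g13 : ‖v‖ * ‖η‖ + |C| + |β| + M / 2 ≤ ‖η‖ ^ 2 / 8 := by
        have g14 : 1 ≤ ‖η‖ := by nlinarith
        have g15 : (16 * (‖v‖ + 1) + 8 * (|C| + |β| + M)) * ‖η‖ ≤ ‖η‖ ^ 2 := by nlinarith
        have g16 : 8 * (|C| + |β| + M) * 1 ≤ 8 * (|C| + |β| + M) * ‖η‖ := by gcongr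
        have g17 : 0 ≤ ‖v‖ * ‖η‖ := by positivity
        nlinarith
      rw [hM] at g13
      nlinarith
  have hle : Uf W (Y + l k • ν k) (l k) ≤
      l k * (Wt (ν k - p k) 1 + δ) + W Y 0 + l k * ⟪p k, ν k - p k⟫ + l k * b k := by
    apply Uf_le_of hS (q := v + p k) (hl k)
    intro y
    have g1 := hall ((l k)⁻¹ • (y - Y) - p k)
    rw [hscale k y, div_le_iff₀ (hl k)] at g1
    have g2 : (l k)⁻¹ • (y - Y) - p k - (ν k - p k) = (l k)⁻¹ • (y - (Y + l k • ν k)) := by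
      have : ν k = (l k)⁻¹ • (l k • ν k) := by
        rw [smul_smul, inv_mul_cancel₀ (hl k).ne', one_smul]
      rw [sub_sub_sub_cancel_right]
      conv_lhs => rw [this]
      rw [← smul_sub]
      congr 1
      abel
    have g3 : Wt ((l k)⁻¹ • (y - Y) - p k) 1
        = Wt (ν k - p k) 1 + ⟪v, y - (Y + l k • ν k)⟫ / l k := by
      have : (l k)⁻¹ • (y - Y) - p k = (ν k - p k) + (l k)⁻¹ • (y - (Y + l k • ν k)) := by
        rw [← g2]; abel
      rw [hv, hv, this, inner_add_right, real_inner_smul_right]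
      ring
    rw [g2, g3, norm_smul, mul_pow, norm_inv, Real.norm_eq_abs, abs_of_pos (hl k)] at g1
    have g4 : (Wt (ν k - p k) 1 + ⟪v, y - (Y + l k • ν k)⟫ / l k + δ
        + (l k)⁻¹ ^ 2 * ‖y - (Y + l k • ν k)‖ ^ 2 / 2) * l k
        = l k * (Wt (ν k - p k) 1 + δ) + ⟪v, y - (Y + l k • ν k)⟫
          + ‖y - (Y + l k • ν k)‖ ^ 2 / (2 * l k) := by
      have := (hl k).ne'
      field_simp
      ring
    rw [g4] at g1
    have g5 : ⟪p k, y - Y⟫ = ⟪p k, y - (Y + l k • ν k)⟫ + l k * ⟪p k, ν k⟫ := by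
      have : y - Y = (y - (Y + l k • ν k)) + l k • ν k := by abel
      rw [this, inner_add_right, real_inner_smul_right]
    have g6 : ⟪p k, ν k - p k⟫ = ⟪p k, ν k⟫ - ‖p k‖ ^ 2 := by
      rw [inner_sub_right, real_inner_self_eq_norm_sq]
    rw [inner_add_left, g6]
    rw [g5] at g1
    linarith
  rw [hν1 k] at hle
  have h3 := hscale k (Y + l k • ν k)
  rw [hx', add_sub_cancel_left, real_inner_smul_right] at h3
  have h4 := (abs_lt.1 (hk (ν k - p k) hkb)).1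
  rw [h3] at h4
  have h5 : ⟪p k, ν k - p k⟫ = ⟪p k, ν k⟫ - ‖p k‖ ^ 2 := by
    rw [inner_sub_right, real_inner_self_eq_norm_sq]
  rw [h5] at hle
  have h6 : (Wt (ν k - p k) 1 - δ) * l k ≤ W (Y + l k • ν k) (l k) - W Y 0 - l k * ⟪p k, ν k⟫
      + l k * ‖p k‖ ^ 2 - l k * b k := by
    rw [← le_div_iff₀ (hl k)]
    linarith
  have h7 : κ * l k ≤ 2 * δ * l k := by nlinarith
  have h8 := le_of_mul_le_mul_right h7 (hl k)
  rw [hδ] at h8
  linarith

end Crest.Agent.R094.StageF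

namespace Crest.Agent.R094.GK

variable {V : Type*} [NormedAddCommGroup V] [InnerProductSpace ℝ V]

theorem StageF [FiniteDimensional ℝ V] (hCpt : Compact_stmt V) : StageF_stmt V :=
  Crest.Agent.R094.StageF.stageF hCpt

end Crest.Agent.R094.GK
end
end

-- ▼ part R094/FlatCpt

set_option autoImplicit false

/-!
Row 94 (S0124), route 7921 (helper240).  Flat part of the class `Cls`, slope bounds,
convergence along ultrafilters, compactness.
-/

namespace Crest.Agent.R094.FlatCpt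

open Sol GK Filter Topology Set
open scoped InnerProductSpace

variable {V : Type*} [NormedAddCommGroup V] [InnerProductSpace ℝ V]

/-! ### FD: invariances -/

theorem _root_.Crest.Agent.R094.GK.FD.nonneg {K : ℝ} {w : V → ℝ → ℝ} {x₀ : V} {t₀ τ : ℝ} {p : V} {b : ℝ} (hτ : 0 < τ)
    (h : FD K w x₀ t₀ τ p b) : 0 ≤ K := by
  have h1 := (abs_nonneg _).trans (h 0 0)
  simp only [norm_zero, abs_zero, add_zero, zero_div, Real.one_rpow, mul_one] at h1
  by_contra hK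
  push Not at hK
  nlinarith

theorem _root_.Crest.Agent.R094.GK.FD.win {K : ℝ} {w : V → ℝ → ℝ} {x₀ : V} {t₀ τ : ℝ} {p : V} {b : ℝ} (hτ : 0 < τ)
    (h : FD K w x₀ t₀ τ p b) : Flat.Win (1 + K * Flat.g 2) w x₀ t₀ τ p b := by
  intro x t hx ht
  have hK := h.nonneg hτ
  refine (h x t).trans ?_
  have h1 : (‖x‖ + |t|) / τ ≤ 2 := by rw [div_le_iff₀ hτ]; linarith
  have h2 := Flat.g_mono (by positivity) h1
  unfold Flat.g at h2 ⊢
  calc K * τ * (1 + (‖x‖ + |t|) / τ) ^ (3 / 2 : ℝ) ≤ K * τ * (1 + 2) ^ (3 / 2 : ℝ) := by gcongr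
    _ ≤ (1 + K * (1 + 2) ^ (3 / 2 : ℝ)) * τ := by nlinarith

/-! ### Growth -/

theorem _root_.Crest.Agent.R094.GK.Nrm.nonneg {K' : ℝ} {w : V → ℝ → ℝ} (h : Nrm K' w) : 0 ≤ K' := by
  have h1 := (abs_nonneg _).trans (h 0 0)
  simpa using h1

theorem _root_.Crest.Agent.R094.GK.Nrm.bound {K' R : ℝ} {w : V → ℝ → ℝ} (h : Nrm K' w) {x : V} {t : ℝ}
    (hx : ‖x‖ + |t| ≤ R) : |w x t| ≤ K' * (1 + R) ^ (3 / 2 : ℝ) := by
  refine (h x t).trans ?_
  have := h.nonneg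
  have h2 : 0 ≤ ‖x‖ + |t| := by positivity
  gcongr

theorem _root_.Crest.Agent.R094.GK.Nrm.rev {K' : ℝ} {w : V → ℝ → ℝ} (h : Nrm K' w) : Nrm K' (Sol.rev w) := by
  intro x t
  have := h x (-t)
  simp only [Sol.rev, abs_neg] at this ⊢
  exact this

/-- subquadratic growth, uniform over `Nrm K'`. -/
theorem nrm_quad (K' R : ℝ) {ε : ℝ} (hε : 0 < ε) : ∃ C : ℝ, 0 ≤ C ∧ ∀ w : V → ℝ → ℝ, Nrm K' w →
    ∀ y t, |t| ≤ R → |w y t| ≤ ε * ‖y‖ ^ 2 + C := by
  rcases lt_or_ge K' 0 with hK | hK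
  · refine ⟨0, le_rfl, fun w hw => ?_⟩
    exact absurd hw.nonneg (not_le.2 hK)
  set c : ℝ := ε / (2 * (K' + 1)) with hc
  have hc0 : 0 < c := by positivity
  obtain ⟨C₀, hC₀⟩ := Flat.g_le_quad hc0
  refine ⟨|K' * (2 * c * R ^ 2 + C₀)|, abs_nonneg _, fun w hw y t ht => ?_⟩
  have h1 := hw y t
  have h2 := hC₀ (‖y‖ + |t|) (by positivity)
  unfold Flat.g at h2
  have hR : 0 ≤ R := (abs_nonneg t).trans ht
  have h3 : (‖y‖ + |t|) ^ 2 ≤ 2 * ‖y‖ ^ 2 + 2 * R ^ 2 := by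
    have h4 : ‖y‖ + |t| ≤ ‖y‖ + R := by linarith
    have h5 : (‖y‖ + |t|) ^ 2 ≤ (‖y‖ + R) ^ 2 := by gcongr
    nlinarith [sq_nonneg (‖y‖ - R)]
  have h6 : K' * (c * (2 * ‖y‖ ^ 2)) ≤ ε * ‖y‖ ^ 2 := by
    have h7 : K' * (c * 2) ≤ ε := by
      have : K' * (c * 2) = ε * (K' / (K' + 1)) := by rw [hc]; field_simp
      rw [this]
      have h8 : K' / (K' + 1) ≤ 1 := by rw [div_le_one (by positivity)]; linarith
      nlinarith
    nlinarith [sq_nonneg ‖y‖]
  calc |w y t| ≤ K' * (1 + (‖y‖ + |t|)) ^ (3 / 2 : ℝ) := h1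
    _ ≤ K' * (c * (‖y‖ + |t|) ^ 2 + C₀) := by gcongr
    _ ≤ K' * (c * (2 * ‖y‖ ^ 2 + 2 * R ^ 2) + C₀) := by gcongr
    _ = K' * (c * (2 * ‖y‖ ^ 2)) + K' * (2 * c * R ^ 2 + C₀) := by ring
    _ ≤ ε * ‖y‖ ^ 2 + |K' * (2 * c * R ^ 2 + C₀)| := add_le_add h6 (le_abs_self _)

theorem _root_.Crest.Agent.R094.GK.Nrm.grow {K' : ℝ} {w : V → ℝ → ℝ} (h : Nrm K' w) : Grow w := by
  intro R ε hε
  obtain ⟨C, _, hC⟩ := nrm_quad (V := V) K' R hε
  exact ⟨C, hC w h⟩

/-! ### Limits along ultrafilters -/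

section limits

variable {ι : Type*}

theorem exists_limit (F : Ultrafilter ι) (f : ι → ℝ) (M : ℝ) (h : ∀ᶠ k in F, |f k| ≤ M) :
    ∃ a, |a| ≤ M ∧ Tendsto f F (𝓝 a) := by
  have h1 : Icc (-M) M ∈ F.map f := by
    rw [Ultrafilter.mem_map]
    filter_upwards [h] with k hk
    exact abs_le.1 hk
  obtain ⟨a, ha, hle⟩ := isCompact_Icc.ultrafilter_le_nhds' (F.map f) h1
  exact ⟨a, abs_le.2 ha, hle⟩

omit [InnerProductSpace ℝ V] in
theorem exists_limitV [ProperSpace V] (F : Ultrafilter ι) (f : ι → V) (M : ℝ)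
    (h : ∀ᶠ k in F, ‖f k‖ ≤ M) : ∃ a, ‖a‖ ≤ M ∧ Tendsto f F (𝓝 a) := by
  have h1 : Metric.closedBall (0:V) M ∈ F.map f := by
    rw [Ultrafilter.mem_map]
    filter_upwards [h] with k hk
    simpa using hk
  obtain ⟨a, ha, hle⟩ := (isCompact_closedBall (0:V) M).ultrafilter_le_nhds' (F.map f) h1
  exact ⟨a, by simpa using ha, hle⟩

/-- uniform equicontinuity of `Flat K ∩ Nrm K'` on bounded sets. -/
theorem equi (K K' R : ℝ) {ε : ℝ} (hε : 0 < ε) : ∃ δ : ℝ, 0 < δ ∧ δ ≤ 1 ∧ ∀ w : V → ℝ → ℝ,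
    GK.Flat K w → Nrm K' w → ∀ (x₀ : V) (t₀ : ℝ), ‖x₀‖ + |t₀| ≤ R → ∀ x t, ‖x‖ ≤ δ → |t| ≤ δ →
      |w (x₀ + x) (t₀ + t) - w x₀ t₀| ≤ ε := by
  by_cases hK : 0 ≤ K
  swap
  · refine ⟨1, one_pos, le_rfl, fun w hw => ?_⟩
    obtain ⟨p, b, hp⟩ := hw 0 0 1 one_pos
    exact absurd (hp.nonneg one_pos) hK
  by_cases hK' : 0 ≤ K'
  swap
  · exact ⟨1, one_pos, le_rfl, fun w _ hn => absurd hn.nonneg hK'⟩
  have hg2 : 0 ≤ Flat.g 2 := Flat.g_nonneg (by norm_num)
  have hκ : 1 ≤ 1 + K * Flat.g 2 := by nlinarith [mul_nonneg hK hg2]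
  have hM : 0 ≤ K' * (1 + (|R| + 2)) ^ (3 / 2 : ℝ) := by positivity
  obtain ⟨δ, hδ0, hδ1, N, hN⟩ := Flat.modulus (V := V) hκ hM hε
  refine ⟨δ, hδ0, hδ1, fun w hw hn x₀ t₀ hR x t hx ht => ?_⟩
  refine hN w x₀ t₀ ?_ ?_ x t hx ht
  · intro y s hy hs
    apply hn.bound
    have h1 := norm_add_le x₀ y
    have h2 := abs_add_le t₀ s
    have h3 := le_abs_self R
    linarith
  · intro j _
    obtain ⟨p, b, hp⟩ := hw x₀ t₀ (2 ^ j * (1 / 2 ^ N)) (by positivity)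
    exact ⟨p, b, hp.win (by positivity)⟩

/-- compactness of the flat part. -/
theorem compact_flat [FiniteDimensional ℝ V] (F : Ultrafilter ι) (K K' : ℝ) (w : ι → V → ℝ → ℝ)
    (hf : ∀ᶠ k in (F : Filter ι), GK.Flat K (w k)) (hn : ∀ᶠ k in (F : Filter ι), Nrm K' (w k)) :
    ∃ W : V → ℝ → ℝ, GK.Flat K W ∧ Nrm K' W ∧ JC F w W ∧
      Continuous (fun p : V × ℝ => W p.1 p.2) := by
  have := FiniteDimensional.proper_real V
  have hlim : ∀ (x : V) (t : ℝ), ∃ a, |a| ≤ K' * (1 + (‖x‖ + |t|)) ^ (3 / 2 : ℝ) ∧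
      Tendsto (fun k => w k x t) F (𝓝 a) := fun x t =>
    exists_limit F (fun k => w k x t) _ (hn.mono fun k hk => hk x t)
  choose W hW1 hW2 using hlim
  -- equicontinuity
  have hequi : ∀ (R ε : ℝ), 0 < ε → ∃ δ : ℝ, 0 < δ ∧ δ ≤ 1 ∧ ∀ᶠ k in (F : Filter ι),
      ∀ (x₀ : V) (t₀ : ℝ), ‖x₀‖ + |t₀| ≤ R → ∀ x t, ‖x‖ ≤ δ → |t| ≤ δ →
        |w k (x₀ + x) (t₀ + t) - w k x₀ t₀| ≤ ε := by
    intro R ε hε
    obtain ⟨δ, hδ0, hδ1, hδ⟩ := equi (V := V) K K' R hε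
    refine ⟨δ, hδ0, hδ1, ?_⟩
    filter_upwards [hf, hn] with k hk1 hk2
    exact hδ (w k) hk1 hk2
  -- joint convergence
  have hJ : JC F w W := by
    intro x t x₀ t₀ hx ht
    rw [Metric.tendsto_nhds]
    intro ε hε
    obtain ⟨δ, hδ0, _, hδ⟩ := hequi (‖x₀‖ + |t₀|) (ε / 2) (by linarith)
    have h1 := (Metric.tendsto_nhds.1 hx) δ hδ0
    have h2 := (Metric.tendsto_nhds.1 ht) δ hδ0
    have h3 := (Metric.tendsto_nhds.1 (hW2 x₀ t₀)) (ε / 2) (by linarith)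
    filter_upwards [hδ, h1, h2, h3] with k hk hk1 hk2 hk3
    have h4 := hk x₀ t₀ le_rfl (x k - x₀) (t k - t₀)
      (by rw [← dist_eq_norm]; exact hk1.le) (by rw [← Real.dist_eq]; exact hk2.le)
    rw [add_sub_cancel, add_sub_cancel] at h4
    rw [Real.dist_eq] at hk3 ⊢
    calc |w k (x k) (t k) - W x₀ t₀|
        = |(w k (x k) (t k) - w k x₀ t₀) + (w k x₀ t₀ - W x₀ t₀)| := by congr 1; ring
      _ ≤ |w k (x k) (t k) - w k x₀ t₀| + |w k x₀ t₀ - W x₀ t₀| := abs_add_le _ _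
      _ < ε := by linarith
  -- continuity of `W`
  have hWc : Continuous (fun p : V × ℝ => W p.1 p.2) := by
    rw [continuous_iff_continuousAt]
    rintro ⟨x₀, t₀⟩
    rw [ContinuousAt, Metric.tendsto_nhds]
    intro ε hε
    obtain ⟨δ, hδ0, _, hδ⟩ := hequi (‖x₀‖ + |t₀|) (ε / 2) (by linarith)
    filter_upwards [Metric.ball_mem_nhds (x₀, t₀) hδ0] with q hq
    obtain ⟨y, s⟩ := q
    rw [Metric.mem_ball, Prod.dist_eq, max_lt_iff] at hq
    have h5 : Tendsto (fun k => |w k y s - w k x₀ t₀|) F (𝓝 |W y s - W x₀ t₀|) :=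
      ((hW2 y s).sub (hW2 x₀ t₀)).abs
    have h6 : |W y s - W x₀ t₀| ≤ ε / 2 := by
      refine le_of_tendsto h5 ?_
      filter_upwards [hδ] with k hk
      have h4 := hk x₀ t₀ le_rfl (y - x₀) (s - t₀)
        (by rw [← dist_eq_norm]; exact hq.1.le) (by rw [← Real.dist_eq]; exact hq.2.le)
      rwa [add_sub_cancel, add_sub_cancel] at h4
    simp only
    rw [Real.dist_eq]
    linarith
  refine ⟨W, ?_, hW1, hJ, hWc⟩
  -- flatness of `W`
  intro x₀ t₀ τ hτ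
  obtain ⟨k₀, hk₀⟩ := hf.exists
  have hK : 0 ≤ K := by
    obtain ⟨p, b, hp⟩ := hk₀ 0 0 1 one_pos
    exact hp.nonneg one_pos
  obtain ⟨k₁, hk₁⟩ := hn.exists
  have hK' : 0 ≤ K' := hk₁.nonneg
  have hg2 : 0 ≤ Flat.g 2 := Flat.g_nonneg (by norm_num)
  set κ : ℝ := 1 + K * Flat.g 2 with hκdef
  have hκ0 : 0 ≤ κ := by positivity
  set M : ℝ := K' * (1 + (‖x₀‖ + |t₀| + 2 * τ)) ^ (3 / 2 : ℝ) with hMdef
  have hM : 0 ≤ M := by positivity
  set A : ℝ := κ + 2 * M / τ with hA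
  have hA0 : 0 ≤ A := by positivity
  have hex : ∀ᶠ k in (F : Filter ι), ∃ q : V × ℝ, FD K (w k) x₀ t₀ τ q.1 q.2 ∧ ‖q.1‖ ≤ A ∧
      |q.2| ≤ 2 * (1 + κ + 2 * M / τ) ^ 2 + A ^ 2 / 2 := by
    filter_upwards [hf, hn] with k hk1 hk2
    obtain ⟨p, b, hp⟩ := hk1 x₀ t₀ τ hτ
    have hb := (hp.win hτ).bounds hκ0 hM hτ (fun x t hx ht => by
      apply hk2.bound
      have h1 := norm_add_le x₀ x
      have h2 := abs_add_le t₀ t
      linarith)
    refine ⟨(p, b), hp, hb.1, ?_⟩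
    simp only
    have h1 : |b| ≤ |b - ‖p‖ ^ 2 / 2| + ‖p‖ ^ 2 / 2 := by
      have : b = (b - ‖p‖ ^ 2 / 2) + ‖p‖ ^ 2 / 2 := by ring
      calc |b| = |(b - ‖p‖ ^ 2 / 2) + ‖p‖ ^ 2 / 2| := by rw [← this]
        _ ≤ |b - ‖p‖ ^ 2 / 2| + |‖p‖ ^ 2 / 2| := abs_add_le _ _
        _ = _ := by rw [abs_of_nonneg (by positivity : 0 ≤ ‖p‖ ^ 2 / 2)]
    have h2 : ‖p‖ ^ 2 ≤ A ^ 2 := by have := hb.1; gcongr
    linarith [hb.2]
  obtain ⟨q, hq⟩ := hex.choice
  obtain ⟨p, _, hp⟩ := exists_limitV F (fun k => (q k).1) A (hq.mono fun k hk => hk.2.1)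
  obtain ⟨b, _, hb⟩ := exists_limit F (fun k => (q k).2) _ (hq.mono fun k hk => hk.2.2)
  refine ⟨p, b, fun x t => ?_⟩
  have h1 : Tendsto (fun k => w k (x₀ + t • (q k).1 + x) (t₀ + t)) F
      (𝓝 (W (x₀ + t • p + x) (t₀ + t))) := by
    apply hJ
    · exact (tendsto_const_nhds.add (hp.const_smul t)).add tendsto_const_nhds
    · exact tendsto_const_nhds
  have h2 : Tendsto (fun k => ⟪(q k).1, x⟫_ℝ) F (𝓝 ⟪p, x⟫_ℝ) := hp.inner tendsto_const_nhds
  have h3 : Tendsto (fun k => |w k (x₀ + t • (q k).1 + x) (t₀ + t) - w k x₀ t₀ - ⟪(q k).1, x⟫_ℝ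
      - (q k).2 * t|) F (𝓝 |W (x₀ + t • p + x) (t₀ + t) - W x₀ t₀ - ⟪p, x⟫_ℝ - b * t|) :=
    (((h1.sub (hW2 x₀ t₀)).sub h2).sub (hb.mul_const t)).abs
  exact le_of_tendsto h3 (hq.mono fun k hk => hk.1 x t)

/-! ### Convergence of sup- and inf-convolutions -/

/-- joint convergence of functions on `V` -/
def JS (F : Ultrafilter ι) (f : ι → V → ℝ) (f₀ : V → ℝ) : Prop :=
  ∀ (x : ι → V) (x₀ : V), Tendsto x F (𝓝 x₀) → Tendsto (fun k => f k (x k)) F (𝓝 (f₀ x₀))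

/-- uniform subquadratic growth -/
def UQ (F : Ultrafilter ι) (f : ι → V → ℝ) : Prop :=
  ∀ ε : ℝ, 0 < ε → ∃ C : ℝ, ∀ᶠ k in (F : Filter ι), ∀ y, f k y ≤ ε * ‖y‖ ^ 2 + C

omit [InnerProductSpace ℝ V] in
theorem JS.neg {F : Ultrafilter ι} {f : ι → V → ℝ} {f₀ : V → ℝ} (h : JS F f f₀) :
    JS F (fun k y => - f k y) (fun y => - f₀ y) := fun x x₀ hx => (h x x₀ hx).neg

omit [InnerProductSpace ℝ V] in
theorem JS.qup {F : Ultrafilter ι} {f : ι → V → ℝ} {f₀ : V → ℝ} (h : JS F f f₀) (hq : UQ F f) :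
    QUp f₀ := by
  intro ε hε
  obtain ⟨C, hC⟩ := hq ε hε
  refine ⟨C, fun y => ?_⟩
  exact le_of_tendsto (h (fun _ => y) y tendsto_const_nhds) (hC.mono fun k hk => hk y)

/-- maximisers stay bounded and subconverge; the sup-convolutions converge. -/
theorem JS.supc_aux [FiniteDimensional ℝ V] {F : Ultrafilter ι} {f : ι → V → ℝ} {f₀ : V → ℝ}
    (h : JS F f f₀) (hq : UQ F f) {s : ι → ℝ} {s₀ : ℝ} (hs₀ : 0 < s₀) (hs : Tendsto s F (𝓝 s₀))
    {x y : ι → V} {x₀ : V} (hx : Tendsto x F (𝓝 x₀))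
    (hy : ∀ᶠ k in (F : Filter ι), ∀ z, f k z - ‖x k - z‖ ^ 2 / (2 * s k)
      ≤ f k (y k) - ‖x k - y k‖ ^ 2 / (2 * s k)) :
    ∃ y₀, Tendsto y F (𝓝 y₀) ∧ supc s₀ f₀ x₀ = f₀ y₀ - ‖x₀ - y₀‖ ^ 2 / (2 * s₀) ∧
      Tendsto (fun k => f k (y k) - ‖x k - y k‖ ^ 2 / (2 * s k)) F (𝓝 (supc s₀ f₀ x₀)) := by
  have := FiniteDimensional.proper_real V
  obtain ⟨C, hC⟩ := hq (1 / (8 * (2 * s₀))) (by positivity)
  have hs1 : ∀ᶠ k in (F : Filter ι), s k ≤ 2 * s₀ := hs.eventually (ge_mem_nhds (by linarith))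
  have hs2 : ∀ᶠ k in (F : Filter ι), s₀ / 2 ≤ s k := hs.eventually (le_mem_nhds (by linarith))
  have hx1 : ∀ᶠ k in (F : Filter ι), ‖x k‖ ≤ ‖x₀‖ + 1 :=
    hx.norm.eventually (ge_mem_nhds (by linarith))
  have hf1 : ∀ᶠ k in (F : Filter ι), f₀ x₀ - 1 ≤ f k (x k) :=
    (h x x₀ hx).eventually (le_mem_nhds (by linarith))
  set D : ℝ := (C + (‖x₀‖ + 1) ^ 2 / s₀ - (f₀ x₀ - 1)) * (16 * s₀) with hD
  have hyb : ∀ᶠ k in (F : Filter ι), ‖y k‖ ≤ Real.sqrt |D| := by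
    filter_upwards [hy, hC, hs1, hs2, hx1, hf1] with k h1 h2 h3 h4 h5 h6
    have hsk : 0 < s k := by linarith
    have h7 := coer hsk h3 h2 (x k) (y k)
    have h8 := h1 (x k)
    rw [sub_self, norm_zero] at h8
    have h9 : ‖x k‖ ^ 2 / (2 * s k) ≤ (‖x₀‖ + 1) ^ 2 / s₀ := by
      rw [div_le_div_iff₀ (by positivity) hs₀]
      have : ‖x k‖ ^ 2 ≤ (‖x₀‖ + 1) ^ 2 := by gcongr
      have h10 : 0 ≤ ‖x k‖ ^ 2 := by positivity
      nlinarith
    have h10 : ‖y k‖ ^ 2 / (8 * s k) ≤ C + (‖x₀‖ + 1) ^ 2 / s₀ - (f₀ x₀ - 1) := by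
      simp only [ne_eq, OfNat.ofNat_ne_zero, not_false_eq_true, zero_pow, zero_div, sub_zero] at h8
      linarith
    have h11 : ‖y k‖ ^ 2 ≤ D := by
      rw [div_le_iff₀ (by positivity)] at h10
      have h12 : 0 ≤ C + (‖x₀‖ + 1) ^ 2 / s₀ - (f₀ x₀ - 1) := by
        by_contra hneg
        push Not at hneg
        nlinarith [sq_nonneg ‖y k‖]
      refine h10.trans ?_
      rw [hD]
      have h13 : 8 * s k ≤ 16 * s₀ := by linarith
      exact mul_le_mul_of_nonneg_left h13 h12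
    calc ‖y k‖ = Real.sqrt (‖y k‖ ^ 2) := (Real.sqrt_sq (norm_nonneg _)).symm
      _ ≤ Real.sqrt |D| := Real.sqrt_le_sqrt (h11.trans (le_abs_self _))
  obtain ⟨y₀, _, hy₀⟩ := exists_limitV F y _ hyb
  have hlim : ∀ (z : ι → V) (z₀ : V), Tendsto z F (𝓝 z₀) →
      Tendsto (fun k => f k (z k) - ‖x k - z k‖ ^ 2 / (2 * s k)) F
        (𝓝 (f₀ z₀ - ‖x₀ - z₀‖ ^ 2 / (2 * s₀))) := by
    intro z z₀ hz
    refine (h z z₀ hz).sub (Tendsto.div ((hx.sub hz).norm.pow 2) (hs.const_mul 2) ?_)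
    positivity
  have hsup : supc s₀ f₀ x₀ = f₀ y₀ - ‖x₀ - y₀‖ ^ 2 / (2 * s₀) := by
    apply le_antisymm
    · apply supc_le
      intro z
      refine le_of_tendsto_of_tendsto (hlim (fun _ => z) z tendsto_const_nhds) (hlim y y₀ hy₀) ?_
      filter_upwards [hy] with k hk
      exact hk z
    · exact le_supc (h.qup hq) hs₀ x₀ y₀
  refine ⟨y₀, hy₀, hsup, ?_⟩
  rw [hsup]
  exact hlim y y₀ hy₀

/-- sup-convolutions converge jointly (also in `s`) -/
theorem JS.supc [FiniteDimensional ℝ V] {F : Ultrafilter ι} {f : ι → V → ℝ} {f₀ : V → ℝ}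
    (h : JS F f f₀) (hc : ∀ᶠ k in (F : Filter ι), Continuous (f k)) (hq : UQ F f)
    {s : ι → ℝ} {s₀ : ℝ} (hs₀ : 0 < s₀) (hs : Tendsto s F (𝓝 s₀)) :
    JS F (fun k => Sol.supc (s k) (f k)) (Sol.supc s₀ f₀) := by
  intro x x₀ hx
  obtain ⟨C, hC⟩ := hq (1 / (8 * (2 * s₀))) (by positivity)
  have hs1 : ∀ᶠ k in (F : Filter ι), 0 < s k := hs.eventually (lt_mem_nhds hs₀)
  -- eventually `QUp`
  have hex : ∀ᶠ k in (F : Filter ι), ∃ y, (∀ z, f k z - ‖x k - z‖ ^ 2 / (2 * s k)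
      ≤ f k y - ‖x k - y‖ ^ 2 / (2 * s k)) ∧
      Sol.supc (s k) (f k) (x k) = f k y - ‖x k - y‖ ^ 2 / (2 * s k) := by
    have hs2 : ∀ᶠ k in (F : Filter ι), s k ≤ 2 * s₀ := hs.eventually (ge_mem_nhds (by linarith))
    filter_upwards [hc, hC, hs1, hs2] with k h1 h2 h3 h4
    -- a version of `exists_supc` with the weaker growth hypothesis
    have hcont : Continuous fun y => f k y - ‖x k - y‖ ^ 2 / (2 * s k) := by fun_prop
    have hev : ∀ᶠ y in cocompact V, f k y - ‖x k - y‖ ^ 2 / (2 * s k)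
        ≤ f k (x k) - ‖x k - x k‖ ^ 2 / (2 * s k) := by
      have i1 : Tendsto (fun y : V => ‖y‖) (cocompact V) atTop := tendsto_norm_cocompact_atTop
      have i2 : Tendsto (fun y : V => ‖y‖ ^ 2) (cocompact V) atTop :=
        (tendsto_pow_atTop (by norm_num)).comp i1
      filter_upwards [i2.eventually_ge_atTop
        ((C + ‖x k‖ ^ 2 / (2 * s k) - f k (x k)) * (8 * s k))] with y hy
      have i3 := coer h3 h4 h2 (x k) y
      have i4 : C + ‖x k‖ ^ 2 / (2 * s k) - f k (x k) ≤ ‖y‖ ^ 2 / (8 * s k) := by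
        rw [le_div_iff₀ (by positivity)]; exact hy
      simp only [sub_self, norm_zero]
      norm_num
      linarith
    obtain ⟨y, hy⟩ := hcont.exists_forall_ge' (x k) hev
    refine ⟨y, hy, le_antisymm (supc_le hy) ?_⟩
    exact le_ciSup (f := fun y => f k y - ‖x k - y‖ ^ 2 / (2 * s k))
      ⟨_, by rintro _ ⟨z, rfl⟩; exact hy z⟩ y
  obtain ⟨y, hy⟩ := hex.choice
  obtain ⟨y₀, _, _, h3⟩ := h.supc_aux hq hs₀ hs hx (hy.mono fun k hk => hk.1)
  refine h3.congr' ?_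
  filter_upwards [hy] with k hk
  exact hk.2.symm

theorem JS.infc [FiniteDimensional ℝ V] {F : Ultrafilter ι} {f : ι → V → ℝ} {f₀ : V → ℝ}
    (h : JS F f f₀) (hc : ∀ᶠ k in (F : Filter ι), Continuous (f k))
    (hq : UQ F (fun k y => - f k y))
    {s : ι → ℝ} {s₀ : ℝ} (hs₀ : 0 < s₀) (hs : Tendsto s F (𝓝 s₀)) :
    JS F (fun k => Sol.infc (s k) (f k)) (Sol.infc s₀ f₀) := by
  have h1 := (h.neg).supc (hc.mono fun k hk => hk.neg) hq hs₀ hs
  intro x x₀ hx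
  have h2 := (h1 x x₀ hx).neg
  simp only [infc_eq_neg_supc]
  exact h2

/-! ### Convergence of the operators, closedness of the class, compactness -/

omit [InnerProductSpace ℝ V] in
theorem _root_.Crest.Agent.R094.GK.JC.slice {F : Ultrafilter ι} {w : ι → V → ℝ → ℝ}
    {W : V → ℝ → ℝ} (h : JC F w W) {t : ι → ℝ} {t₀ : ℝ} (ht : Tendsto t F (𝓝 t₀)) :
    JS F (fun k y => w k y (t k)) (fun y => W y t₀) := fun x x₀ hx => h x t x₀ t₀ hx ht

omit [InnerProductSpace ℝ V] in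
theorem _root_.Crest.Agent.R094.GK.JC.rev {F : Ultrafilter ι} {w : ι → V → ℝ → ℝ}
    {W : V → ℝ → ℝ} (h : JC F w W) : JC F (fun k => Sol.rev (w k)) (Sol.rev W) :=
  fun x t x₀ t₀ hx ht => (h x (fun k => - t k) x₀ (-t₀) hx ht.neg).neg

theorem uq_slice {F : Ultrafilter ι} {w : ι → V → ℝ → ℝ} {K' : ℝ}
    (hn : ∀ᶠ k in (F : Filter ι), Nrm K' (w k)) {t : ι → ℝ} {t₀ : ℝ} (ht : Tendsto t F (𝓝 t₀)) :
    UQ F (fun k y => w k y (t k)) ∧ UQ F (fun k y => - w k y (t k)) := by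
  have h1 : ∀ᶠ k in (F : Filter ι), |t k| ≤ |t₀| + 1 :=
    ht.abs.eventually (ge_mem_nhds (by linarith))
  constructor
  · intro ε hε
    obtain ⟨C, _, hC⟩ := nrm_quad (V := V) K' (|t₀| + 1) hε
    refine ⟨C, ?_⟩
    filter_upwards [hn, h1] with k h2 h3 y
    exact (le_abs_self _).trans (hC (w k) h2 y (t k) h3)
  · intro ε hε
    obtain ⟨C, _, hC⟩ := nrm_quad (V := V) K' (|t₀| + 1) hε
    refine ⟨C, ?_⟩
    filter_upwards [hn, h1] with k h2 h3 y
    exact (neg_le_abs _).trans (hC (w k) h2 y (t k) h3)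

/-- the forward operator converges jointly -/
theorem _root_.Crest.Agent.R094.GK.JC.T [FiniteDimensional ℝ V] {F : Ultrafilter ι}
    {w : ι → V → ℝ → ℝ} {W : V → ℝ → ℝ} (h : JC F w W) {K' : ℝ}
    (hn : ∀ᶠ k in (F : Filter ι), Nrm K' (w k))
    (hc : ∀ᶠ k in (F : Filter ι), Continuous (fun p : V × ℝ => w k p.1 p.2))
    {s t : ι → ℝ} {s₀ t₀ : ℝ} {x : ι → V} {x₀ : V} (hs₀ : 0 < s₀) (hs : Tendsto s F (𝓝 s₀))
    (ht : Tendsto t F (𝓝 t₀)) (hx : Tendsto x F (𝓝 x₀)) :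
    Tendsto (fun k => Sol.T (s k) (w k) (x k) (t k)) F (𝓝 (Sol.T s₀ W x₀ t₀)) := by
  have hts : Tendsto (fun k => t k + s k) F (𝓝 (t₀ + s₀)) := ht.add hs
  have h1 := (h.slice hts).supc (hc.mono fun k hk => hk.comp (Continuous.prodMk_left (t k + s k)))
    (uq_slice hn hts).1 hs₀ hs
  exact h1 x x₀ hx

/-- the backward operator converges jointly -/
theorem _root_.Crest.Agent.R094.GK.JC.B [FiniteDimensional ℝ V] {F : Ultrafilter ι}
    {w : ι → V → ℝ → ℝ} {W : V → ℝ → ℝ} (h : JC F w W) {K' : ℝ}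
    (hn : ∀ᶠ k in (F : Filter ι), Nrm K' (w k))
    (hc : ∀ᶠ k in (F : Filter ι), Continuous (fun p : V × ℝ => w k p.1 p.2))
    {s t : ι → ℝ} {s₀ t₀ : ℝ} {x : ι → V} {x₀ : V} (hs₀ : 0 < s₀) (hs : Tendsto s F (𝓝 s₀))
    (ht : Tendsto t F (𝓝 t₀)) (hx : Tendsto x F (𝓝 x₀)) :
    Tendsto (fun k => Sol.B (s k) (w k) (x k) (t k)) F (𝓝 (Sol.B s₀ W x₀ t₀)) := by
  have hts : Tendsto (fun k => t k - s k) F (𝓝 (t₀ - s₀)) := ht.sub hs
  have h1 := (h.slice hts).infc (hc.mono fun k hk => hk.comp (Continuous.prodMk_left (t k - s k)))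
    (uq_slice hn hts).2 hs₀ hs
  exact h1 x x₀ hx

theorem isSub_limit [FiniteDimensional ℝ V] {F : Ultrafilter ι}
    {w : ι → V → ℝ → ℝ} {W : V → ℝ → ℝ} (h : JC F w W) {K' : ℝ}
    (hn : ∀ᶠ k in (F : Filter ι), Nrm K' (w k))
    (hc : ∀ᶠ k in (F : Filter ι), Continuous (fun p : V × ℝ => w k p.1 p.2))
    (hsub : ∀ᶠ k in (F : Filter ι), IsSub (w k)) : IsSub W := by
  intro x t s s' hs hss
  have hs' : 0 < s' := hs.trans_le hss
  have h1 := h.T hn hc hs (tendsto_const_nhds (x := s)) (tendsto_const_nhds (x := t))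
    (tendsto_const_nhds (x := x))
  have h2 := h.T hn hc hs' (tendsto_const_nhds (x := s')) (tendsto_const_nhds (x := t))
    (tendsto_const_nhds (x := x))
  have h3 := h (fun _ => x) (fun _ => t) x t tendsto_const_nhds tendsto_const_nhds
  refine le_of_tendsto_of_tendsto h1 ((h3.const_mul (1 - s / s')).add (h2.const_mul (s / s'))) ?_
  filter_upwards [hsub] with k hk
  exact hk x t s s' hs hss

theorem isSol_limit [FiniteDimensional ℝ V] {F : Ultrafilter ι}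
    {w : ι → V → ℝ → ℝ} {W : V → ℝ → ℝ} (h : JC F w W) {K' : ℝ}
    (hn : ∀ᶠ k in (F : Filter ι), Nrm K' (w k)) (hN : Nrm K' W)
    (hWc : Continuous (fun p : V × ℝ => W p.1 p.2))
    (hsol : ∀ᶠ k in (F : Filter ι), IsSol (w k)) : IsSol W := by
  refine ⟨hWc, hN.grow, ?_, ?_⟩
  · exact isSub_limit h hn (hsol.mono fun k hk => hk.cont) (hsol.mono fun k hk => hk.sub)
  · have h1 : IsSub (Sol.rev W) := isSub_limit (w := fun k => Sol.rev (w k)) h.rev
      (hn.mono fun k hk => hk.rev) (hsol.mono fun k hk => hk.rev.cont)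
      (hsol.mono fun k hk => hk.rev.sub)
    have h2 := h1.rev
    rwa [rev_rev] at h2

/-- compactness of the normalised class, for any ultrafilter on any type -/
theorem compact' [FiniteDimensional ℝ V] (F : Ultrafilter ι) (K K' : ℝ) (w : ι → V → ℝ → ℝ)
    (hw : ∀ᶠ k in (F : Filter ι), Cls K (w k)) (hn : ∀ᶠ k in (F : Filter ι), Nrm K' (w k)) :
    ∃ W : V → ℝ → ℝ, Cls K W ∧ Nrm K' W ∧ JC F w W := by
  obtain ⟨W, h1, h2, h3, h4⟩ := compact_flat F K K' w (hw.mono fun k hk => hk.flat) hn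
  obtain ⟨k, hk⟩ := hw.exists
  exact ⟨W, ⟨hk.pos, isSol_limit h3 hn h2 h4 (hw.mono fun k hk => hk.sol), h1⟩, h2, h3⟩

end limits

/-- `Compact_stmt` -/
theorem compact [FiniteDimensional ℝ V] : Compact_stmt V := fun F K K' w hw hn =>
  compact' F K K' w hw hn

end Crest.Agent.R094.FlatCpt
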