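import Mathlib
import Crest.Agent.R094.Iface
import Crest.Agent.R094.SolBasic

-- ▼ part R094/StageD0
section

/-!
# Row 94, step (d) of the blueprint 7921: the zoom (helper566)

Definition-free: `V` finite dimensional inner product space, `w : V → ℝ → ℝ`.
-/

set_option autoImplicit false
set_option linter.unusedSectionVars false
set_option linter.style.haveILetI false

namespace Crest.Agent.R094.StageD

open Filter Topology
open scoped InnerProductSpace RealInnerProductSpace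

variable {V : Type*} [NormedAddCommGroup V] [InnerProductSpace ℝ V]

/-- the envelope `U = B_t T_t w` (vertex time `0`), `t > 0`. -/
noncomputable def envU (w : V → ℝ → ℝ) (x : V) (t : ℝ) : ℝ :=
  sInf {a | ∃ q : V, ∀ y, w y t ≤ a + ⟪q, y - x⟫_ℝ + ‖y - x‖ ^ 2 / (2 * t)}

/-- normalisation of `w` at `(Y,0)`, scale `l`, frame `p, b`. -/
noncomputable def Nrm (w : V → ℝ → ℝ) (Y : V) (l : ℝ) (p : V) (b : ℝ) : V → ℝ → ℝ :=
  fun x t => (w (Y + l • (x + t • p)) (l * t) - w Y 0 - l * ⟪p, x⟫_ℝ - l * b * t) / l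

/-- `h⁻(x,t;s) ≥ γ` -/
def Hm (w : V → ℝ → ℝ) (x : V) (t s γ : ℝ) : Prop :=
  ∃ z, w z (t - s) + ‖x - z‖ ^ 2 / (2 * s) ≤ w x t - γ * s

/-- `h⁺(x,t;s) ≥ γ` -/
def Hp (w : V → ℝ → ℝ) (x : V) (t s γ : ℝ) : Prop :=
  ∃ y, w x t + γ * s ≤ w y (t + s) - ‖y - x‖ ^ 2 / (2 * s)

/-- the weighted functional of Prop C -/
noncomputable def val (w U : V → ℝ → ℝ) (c s t : ℝ) (x z : V) : ℝ :=
  U x t - w z (t - s) - ‖x - z‖ ^ 2 / (2 * s) - (s * c / 2) * ‖x - (t / s) • (x - z)‖ ^ 2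

/-- what is needed of the class `G_K` -/
structure ClassHyp (G : ℝ → ℝ) (Cls : (V → ℝ → ℝ) → Prop) : Prop where
  monoG : ∀ r r', r ≤ r' → G r ≤ G r'
  subquad : ∀ ε > 0, ∃ C, ∀ r, 0 ≤ r → G r ≤ ε * r ^ 2 + C
  norm : ∀ w, Cls w → ∀ (Y : V) (l : ℝ), 0 < l → ∃ p b, ∀ x t, |Nrm w Y l p b x t| ≤ G (‖x‖ + |t|)
  nrm : ∀ w, Cls w → ∀ (Y : V) (l : ℝ) p b, 0 < l → Cls (Nrm w Y l p b)
  lin : ∀ w, Cls w → ∀ a : ℝ, Cls (fun x t => w x t + a * t)
  cpt : ∀ wk : ℕ → V → ℝ → ℝ, (∀ k, Cls (wk k)) → (∀ k x t, |wk k x t| ≤ G (‖x‖ + |t|)) →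
    ∃ W, Cls W ∧ ∀ R > 0, ∀ ε > 0, ∀ᶠ k in (hyperfilter ℕ : Filter ℕ), ∀ x t, ‖x‖ ≤ R → |t| ≤ R →
      |wk k x t - W x t| ≤ ε
  cont : ∀ w, Cls w → Continuous (fun X : V × ℝ => w X.1 X.2)
  monoM : ∀ w, Cls w → ∀ x t s s' γ, 0 < s → s ≤ s' → Hm w x t s γ → Hm w x t s' γ
  monoP : ∀ w, Cls w → ∀ x t s s' γ, 0 < s → s ≤ s' → Hp w x t s γ → Hp w x t s' γ

/-! ### algebra -/

theorem norm_add_smul_sq (a p : V) (s : ℝ) :
    ‖a + s • p‖ ^ 2 = ‖a‖ ^ 2 + 2 * s * ⟪a, p⟫_ℝ + s ^ 2 * ‖p‖ ^ 2 := by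
  rw [norm_add_sq_real, inner_smul_right, norm_smul, mul_pow, Real.norm_eq_abs, sq_abs]; ring

theorem norm_smul_sq (a : V) (s : ℝ) : ‖s • a‖ ^ 2 = s ^ 2 * ‖a‖ ^ 2 := by
  rw [norm_smul, mul_pow, Real.norm_eq_abs, sq_abs]

/-- normalisation of the envelope -/
noncomputable def NrmU (w U : V → ℝ → ℝ) (Y : V) (l : ℝ) (p : V) (b : ℝ) : V → ℝ → ℝ :=
  fun x t => (U (Y + l • (x + t • p)) (l * t) - w Y 0 - l * ⟪p, x⟫_ℝ - l * b * t) / l

/-- exact covariance of the functional -/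
theorem val_nrm (w U : V → ℝ → ℝ) (Y : V) {l : ℝ} (hl : 0 < l) (p : V) (b c s t : ℝ)
    (hs : 0 < s) (x z : V) :
    val w U c (l * s) (l * t) (Y + l • (x + t • p)) (Y + l • (z + (t - s) • p)) =
      l * (NrmU w U Y l p b x t - Nrm w Y l p b z (t - s) - ‖x - z‖ ^ 2 / (2 * s)
        + s * (b - ‖p‖ ^ 2 / 2) - (s * c / 2) * ‖Y + l • (x - (t / s) • (x - z))‖ ^ 2) := by
  have hl0 : l ≠ 0 := hl.ne'
  have hs0 : s ≠ 0 := hs.ne'
  have e1 : Y + l • (x + t • p) - (Y + l • (z + (t - s) • p)) = l • ((x - z) + s • p) := by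
    module
  have e2 : Y + l • (x + t • p) - (l * t / (l * s)) • (l • ((x - z) + s • p)) =
      Y + l • (x - (t / s) • (x - z)) := by
    have : l * t / (l * s) = t / s := by field_simp
    rw [this]
    have h3 : (t / s) • (l • ((x - z) + s • p)) = l • ((t / s) • (x - z)) + l • (t • p) := by
      rw [smul_comm, smul_add, smul_smul (t / s) s p, div_mul_cancel₀ _ hs0, smul_add]
    rw [h3]
    module
  have e3 : l * t - l * s = l * (t - s) := by ring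
  unfold val NrmU Nrm
  rw [e1, e2, e3, norm_smul_sq, norm_add_smul_sq]
  have e4 : ⟪p, x⟫_ℝ - ⟪p, z⟫_ℝ = ⟪x - z, p⟫_ℝ := by
    rw [← inner_sub_right, real_inner_comm]
  have e5 : ⟪p, x⟫_ℝ = ⟪p, z⟫_ℝ + ⟪x - z, p⟫_ℝ := by linarith
  rw [e5]
  field_simp
  ring

/-! ### the envelope -/

/-- subquadratic growth of `w`, uniformly on bounded times -/
def Grow (G : ℝ → ℝ) (w : V → ℝ → ℝ) : Prop := ∀ x t, |w x t| ≤ G (‖x‖ + |t|)

/-- assumptions on the growth function -/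
structure GOK (G : ℝ → ℝ) : Prop where
  mono : ∀ r r', r ≤ r' → G r ≤ G r'
  sub : ∀ ε > 0, ∃ C, ∀ r, 0 ≤ r → G r ≤ ε * r ^ 2 + C

theorem GOK.shift {G : ℝ → ℝ} (h : GOK G) (B : ℝ) : ∀ ε > 0, ∃ C, ∀ r, 0 ≤ r →
    G (r + B) ≤ ε * r ^ 2 + C := by
  intro ε hε
  obtain ⟨C, hC⟩ := h.sub (ε / 2) (by positivity)
  refine ⟨ε * B ^ 2 + C, fun r hr => ?_⟩
  have h1 : G (r + B) ≤ G (r + |B|) := h.mono _ _ (by linarith [le_abs_self B])
  have h2 := hC (r + |B|) (by positivity)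
  have h3 : (r + |B|) ^ 2 ≤ 2 * r ^ 2 + 2 * B ^ 2 := by
    nlinarith [sq_nonneg (r - |B|), sq_abs B]
  nlinarith


/-- `lam r² ≤ A + G (r + B)` bounds `r`. -/
theorem GOK.bound {G : ℝ → ℝ} (h : GOK G) {lam : ℝ} (hl : 0 < lam) (A B : ℝ) :
    ∃ C, 0 ≤ C ∧ ∀ r, 0 ≤ r → lam * r ^ 2 ≤ A + G (r + B) → r ≤ C := by
  obtain ⟨C, hC⟩ := h.shift B (lam / 2) (by positivity)
  refine ⟨Real.sqrt (2 * (|A| + |C|) / lam), Real.sqrt_nonneg _, fun r hr h1 => ?_⟩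
  apply Real.le_sqrt_of_sq_le
  rw [le_div_iff₀ hl]
  have h2 := hC r hr
  nlinarith [le_abs_self A, le_abs_self C]

theorem envU_le {w : V → ℝ → ℝ} {x : V} {t a : ℝ} {q : V}
    (h : ∀ y, w y t ≤ a + ⟪q, y - x⟫_ℝ + ‖y - x‖ ^ 2 / (2 * t)) : envU w x t ≤ a := by
  refine csInf_le ?_ (show a ∈ {a | ∃ q : V, ∀ y, w y t ≤ a + ⟪q, y - x⟫_ℝ +
    ‖y - x‖ ^ 2 / (2 * t)} from ⟨q, h⟩)
  refine ⟨w x t, ?_⟩
  rintro a' ⟨q', h'⟩
  have := h' x
  simpa using this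

theorem exists_upper {G : ℝ → ℝ} (hG : GOK G) {t : ℝ} (ht : 0 < t) (x : V) :
    ∃ a, ∀ w : V → ℝ → ℝ, Grow G w → ∀ y, w y t ≤ a + ⟪(0 : V), y - x⟫_ℝ +
      ‖y - x‖ ^ 2 / (2 * t) := by
  obtain ⟨C, hC⟩ := hG.shift (‖x‖ + |t|) (1 / (2 * t)) (by positivity)
  refine ⟨C, fun w hw y => ?_⟩
  have h1 := (le_abs_self _).trans (hw y t)
  have h2 : G (‖y‖ + |t|) ≤ G (‖y - x‖ + (‖x‖ + |t|)) := by
    apply hG.mono
    have := norm_add_le (y - x) x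
    rw [sub_add_cancel] at this
    linarith
  have h3 := hC ‖y - x‖ (norm_nonneg _)
  rw [inner_zero_left]
  have h4 : 1 / (2 * t) * ‖y - x‖ ^ 2 = ‖y - x‖ ^ 2 / (2 * t) := by ring
  linarith

/-- uniform bound of the envelope -/
theorem exists_envU_le {G : ℝ → ℝ} (hG : GOK G) {t : ℝ} (ht : 0 < t) (x : V) :
    ∃ a, ∀ w : V → ℝ → ℝ, Grow G w → envU w x t ≤ a := by
  obtain ⟨a, ha⟩ := exists_upper hG ht x
  exact ⟨a, fun w hw => envU_le (ha w hw)⟩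

theorem le_envU {G : ℝ → ℝ} (hG : GOK G) {w : V → ℝ → ℝ} (hw : Grow G w) {x : V} {t : ℝ}
    (ht : 0 < t) : w x t ≤ envU w x t := by
  obtain ⟨a, ha⟩ := exists_upper hG ht x
  have hne : {a | ∃ q : V, ∀ y, w y t ≤ a + ⟪q, y - x⟫_ℝ + ‖y - x‖ ^ 2 / (2 * t)}.Nonempty :=
    ⟨a, 0, ha w hw⟩
  refine le_csInf hne ?_
  rintro a' ⟨q', h'⟩
  have := h' x
  simpa using this

/-- bound of the slope `q` of a paraboloid touching from above -/
theorem slope_bound {G : ℝ → ℝ} (hG : GOK G) {w : V → ℝ → ℝ} (hw : Grow G w) {x : V} {t : ℝ}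
    (ht : 0 < t) {a : ℝ} {q : V}
    (h : ∀ y, w y t ≤ a + ⟪q, y - x⟫_ℝ + ‖y - x‖ ^ 2 / (2 * t)) :
    ‖q‖ ≤ a + 1 / (2 * t) + G (‖x‖ + 1 + |t|) := by
  by_cases hq : q = 0
  · subst hq
    have h1 := h x
    simp only [sub_self, inner_zero_right, norm_zero] at h1
    have h2 := neg_le_of_abs_le (hw x t)
    have h3 : G (‖x‖ + |t|) ≤ G (‖x‖ + 1 + |t|) := hG.mono _ _ (by linarith)
    have h4 : 0 < 1 / (2 * t) := by positivity
    simp only [norm_zero]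
    norm_num at h1
    linarith
  · have hq' : ‖q‖ ≠ 0 := norm_ne_zero_iff.2 hq
    have h1 := h (x - ‖q‖⁻¹ • q)
    have e1 : x - ‖q‖⁻¹ • q - x = -(‖q‖⁻¹ • q) := by abel
    have e2 : ‖‖q‖⁻¹ • q‖ = 1 := by
      rw [norm_smul, norm_inv, norm_norm, inv_mul_cancel₀ hq']
    rw [e1, inner_neg_right, inner_smul_right, real_inner_self_eq_norm_sq, norm_neg, e2] at h1
    have e3 : ‖q‖⁻¹ * ‖q‖ ^ 2 = ‖q‖ := by field_simp
    rw [e3] at h1
    have h2 := neg_le_of_abs_le (hw (x - ‖q‖⁻¹ • q) t)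
    have h3 : G (‖x - ‖q‖⁻¹ • q‖ + |t|) ≤ G (‖x‖ + 1 + |t|) := by
      apply hG.mono
      have := norm_sub_le x (‖q‖⁻¹ • q)
      rw [e2] at this
      linarith
    norm_num at h1 ⊢
    linarith

theorem ultra_exists_lim [FiniteDimensional ℝ V] (𝒰 : Ultrafilter ℕ) {x : ℕ → V} {R : ℝ}
    (h : ∀ᶠ k in (𝒰 : Filter ℕ), ‖x k‖ ≤ R) : ∃ a, Tendsto x (𝒰 : Filter ℕ) (𝓝 a) := by
  have := FiniteDimensional.proper ℝ V
  have hc : IsCompact (Metric.closedBall (0 : V) R) := isCompact_closedBall 0 R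
  obtain ⟨a, _, ha⟩ := hc.ultrafilter_le_nhds (𝒰.map x) (by
    rw [Ultrafilter.coe_map, le_principal_iff, mem_map]
    filter_upwards [h] with k hk
    simpa using hk)
  exact ⟨a, ha⟩

theorem ultra_exists_lim_real (𝒰 : Ultrafilter ℕ) {x : ℕ → ℝ} {R : ℝ}
    (h : ∀ᶠ k in (𝒰 : Filter ℕ), |x k| ≤ R) : ∃ a, Tendsto x (𝒰 : Filter ℕ) (𝓝 a) := by
  have hc : IsCompact (Metric.closedBall (0 : ℝ) R) := isCompact_closedBall 0 R
  obtain ⟨a, _, ha⟩ := hc.ultrafilter_le_nhds (𝒰.map x) (by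
    rw [Ultrafilter.coe_map, le_principal_iff, mem_map]
    filter_upwards [h] with k hk
    simpa using hk)
  exact ⟨a, ha⟩

/-- convergence of functions: uniform on bounded sets along the ultrafilter -/
def LU (𝒰 : Ultrafilter ℕ) (wk : ℕ → V → ℝ → ℝ) (W : V → ℝ → ℝ) : Prop :=
  ∀ R > 0, ∀ ε > 0, ∀ᶠ k in (𝒰 : Filter ℕ), ∀ x t, ‖x‖ ≤ R → |t| ≤ R → |wk k x t - W x t| ≤ ε

theorem LU.tendsto {𝒰 : Ultrafilter ℕ} {wk : ℕ → V → ℝ → ℝ} {W : V → ℝ → ℝ} (h : LU 𝒰 wk W)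
    (hW : Continuous (fun X : V × ℝ => W X.1 X.2)) {x : ℕ → V} {t : ℕ → ℝ} {x₀ : V} {t₀ : ℝ}
    (hx : Tendsto x (𝒰 : Filter ℕ) (𝓝 x₀)) (ht : Tendsto t (𝒰 : Filter ℕ) (𝓝 t₀)) :
    Tendsto (fun k => wk k (x k) (t k)) (𝒰 : Filter ℕ) (𝓝 (W x₀ t₀)) := by
  have h1 : Tendsto (fun k => W (x k) (t k)) (𝒰 : Filter ℕ) (𝓝 (W x₀ t₀)) :=
    (hW.tendsto (x₀, t₀)).comp (hx.prodMk_nhds ht)
  have h2 : Tendsto (fun k => wk k (x k) (t k) - W (x k) (t k)) (𝒰 : Filter ℕ) (𝓝 0) := by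
    rw [Metric.tendsto_nhds]
    intro ε hε
    have b1 : ∀ᶠ k in (𝒰 : Filter ℕ), ‖x k‖ < ‖x₀‖ + 1 :=
      (hx.norm).eventually (gt_mem_nhds (by linarith))
    have b2 : ∀ᶠ k in (𝒰 : Filter ℕ), |t k| < |t₀| + 1 :=
      (ht.abs).eventually (gt_mem_nhds (by linarith))
    filter_upwards [b1, b2, h (‖x₀‖ + |t₀| + 1) (by positivity) (ε / 2) (by positivity)]
      with k h1 h2 h3
    rw [dist_zero_right, Real.norm_eq_abs]
    have := h3 (x k) (t k) (by linarith [abs_nonneg t₀]) (by linarith [norm_nonneg x₀])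
    linarith
  have := h2.add h1
  simpa using this

theorem LU.grow {𝒰 : Ultrafilter ℕ} {wk : ℕ → V → ℝ → ℝ} {W : V → ℝ → ℝ} (h : LU 𝒰 wk W)
    {G : ℝ → ℝ} (hg : ∀ k, Grow G (wk k)) : Grow G W := by
  intro x t
  refine le_of_forall_pos_le_add fun ε hε => ?_
  have h1 := h (‖x‖ + |t| + 1) (by positivity) ε hε
  obtain ⟨k, hk⟩ := h1.exists
  have h2 := hk x t (by linarith [abs_nonneg t]) (by linarith [norm_nonneg x])
  have h3 := hg k x t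
  have : |W x t| ≤ |wk k x t| + |wk k x t - W x t| := by
    have := abs_sub_abs_le_abs_sub (W x t) (wk k x t)
    rw [abs_sub_comm] at this
    linarith
  linarith

/-- the envelope is attained -/
theorem envU_spec [FiniteDimensional ℝ V] {G : ℝ → ℝ} (hG : GOK G) {w : V → ℝ → ℝ}
    (hw : Grow G w) {x : V} {t : ℝ} (ht : 0 < t) :
    ∃ q, ∀ y, w y t ≤ envU w x t + ⟪q, y - x⟫_ℝ + ‖y - x‖ ^ 2 / (2 * t) := by
  obtain ⟨a₀, ha₀⟩ := exists_upper hG ht x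
  have hne : {a | ∃ q : V, ∀ y, w y t ≤ a + ⟪q, y - x⟫_ℝ + ‖y - x‖ ^ 2 / (2 * t)}.Nonempty :=
    ⟨a₀, 0, ha₀ w hw⟩
  have hex : ∀ n : ℕ, ∃ a : ℝ, ∃ q : V, a < envU w x t + 1 / ((n : ℝ) + 1) ∧
      ∀ y, w y t ≤ a + ⟪q, y - x⟫_ℝ + ‖y - x‖ ^ 2 / (2 * t) := by
    intro n
    obtain ⟨a, ⟨q, hq⟩, ha⟩ := exists_lt_of_csInf_lt hne
      (show envU w x t < envU w x t + 1 / ((n : ℝ) + 1) by
        have : (0 : ℝ) < 1 / ((n : ℝ) + 1) := by positivity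
        linarith)
    exact ⟨a, q, ha, hq⟩
  choose a q ha hq using hex
  have hqb : ∀ n, ‖q n‖ ≤ envU w x t + 1 + 1 / (2 * t) + G (‖x‖ + 1 + |t|) := by
    intro n
    have h1 := slope_bound hG hw ht (hq n)
    have h2 := ha n
    have h3 : 1 / ((n : ℝ) + 1) ≤ 1 := by
      rw [div_le_one (by positivity)]
      have : (0 : ℝ) ≤ n := Nat.cast_nonneg n
      linarith
    linarith
  obtain ⟨q₀, hq₀⟩ := ultra_exists_lim (hyperfilter ℕ) (x := q) (Eventually.of_forall hqb)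
  refine ⟨q₀, fun y => ?_⟩
  have hlim : Tendsto (fun n : ℕ => envU w x t + 1 / ((n : ℝ) + 1) + ⟪q n, y - x⟫_ℝ
      + ‖y - x‖ ^ 2 / (2 * t)) (hyperfilter ℕ : Filter ℕ)
      (𝓝 (envU w x t + 0 + ⟪q₀, y - x⟫_ℝ + ‖y - x‖ ^ 2 / (2 * t))) := by
    have l1 : Tendsto (fun n : ℕ => 1 / ((n : ℝ) + 1)) (hyperfilter ℕ : Filter ℕ) (𝓝 0) :=
      tendsto_one_div_add_atTop_nhds_zero_nat.mono_left Nat.hyperfilter_le_atTop
    exact ((l1.const_add _).add (hq₀.inner tendsto_const_nhds)).add_const _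
  rw [add_zero] at hlim
  refine ge_of_tendsto hlim (Eventually.of_forall fun n => ?_)
  have := hq n y
  have := ha n
  linarith

/-- lower semicontinuity of the envelope under locally uniform convergence -/
theorem envU_lsc [FiniteDimensional ℝ V] {G : ℝ → ℝ} (hG : GOK G) {𝒰 : Ultrafilter ℕ}
    {wk : ℕ → V → ℝ → ℝ} {W : V → ℝ → ℝ} (hk : ∀ k, Grow G (wk k)) (h : LU 𝒰 wk W)
    {x : V} {t : ℝ} (ht : 0 < t) {β : ℕ → ℝ} {β₀ : ℝ}
    (hβ : ∀ᶠ k in (𝒰 : Filter ℕ), envU (wk k) x t ≤ β k)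
    (hβ₀ : Tendsto β (𝒰 : Filter ℕ) (𝓝 β₀)) : envU W x t ≤ β₀ := by
  obtain ⟨A, hA⟩ := exists_envU_le (V := V) hG ht x
  choose q hq using fun k => envU_spec hG (hk k) (x := x) ht
  have hqb : ∀ k, ‖q k‖ ≤ A + 1 / (2 * t) + G (‖x‖ + 1 + |t|) := by
    intro k
    have h1 := slope_bound hG (hk k) ht (hq k)
    have h2 := hA (wk k) (hk k)
    linarith
  obtain ⟨q₀, hq₀⟩ := ultra_exists_lim 𝒰 (x := q) (Eventually.of_forall hqb)
  apply envU_le (q := q₀)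
  intro y
  have l1 : Tendsto (fun k => wk k y t) (𝒰 : Filter ℕ) (𝓝 (W y t)) := by
    rw [Metric.tendsto_nhds]
    intro ε hε
    filter_upwards [h (‖y‖ + |t| + 1) (by positivity) (ε / 2) (by positivity)] with k hk'
    rw [Real.dist_eq]
    have := hk' y t (by linarith [abs_nonneg t]) (by linarith [norm_nonneg y])
    linarith
  have l2 : Tendsto (fun k => β k + ⟪q k, y - x⟫_ℝ + ‖y - x‖ ^ 2 / (2 * t)) (𝒰 : Filter ℕ)
      (𝓝 (β₀ + ⟪q₀, y - x⟫_ℝ + ‖y - x‖ ^ 2 / (2 * t))) :=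
    (hβ₀.add (hq₀.inner tendsto_const_nhds)).add_const _
  refine le_of_tendsto_of_tendsto l1 l2 ?_
  filter_upwards [hβ] with k hβk
  have := hq k y
  linarith

/-- upper semicontinuity -/
theorem envU_usc [FiniteDimensional ℝ V] {G : ℝ → ℝ} (hG : GOK G) {𝒰 : Ultrafilter ℕ}
    {wk : ℕ → V → ℝ → ℝ} {W : V → ℝ → ℝ} (hk : ∀ k, Grow G (wk k)) (h : LU 𝒰 wk W)
    {xk : ℕ → V} {x : V} (hx : Tendsto xk (𝒰 : Filter ℕ) (𝓝 x))
    {t : ℝ} (ht : 0 < t) {β : ℕ → ℝ} {β₀ : ℝ}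
    (hβ : ∀ᶠ k in (𝒰 : Filter ℕ), β k ≤ envU (wk k) (xk k) t)
    (hβ₀ : Tendsto β (𝒰 : Filter ℕ) (𝓝 β₀)) : β₀ ≤ envU W x t := by
  have hW := h.grow hk
  obtain ⟨q, hq⟩ := envU_spec hG hW (x := x) ht
  refine le_of_forall_pos_le_add fun δ hδ => ?_
  set P : V → ℝ := fun y => envU W x t + ⟪q, y - x⟫_ℝ + ‖y - x‖ ^ 2 / (2 * t) with hP
  -- outside a large ball `G ≤ P`
  obtain ⟨R, hR⟩ : ∃ R, 0 < R ∧ ∀ y, R ≤ ‖y‖ → G (‖y‖ + |t|) ≤ P y := by
    obtain ⟨C, hC⟩ := hG.shift |t| (1 / (16 * t)) (by positivity)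
    obtain ⟨R₁, hR₁⟩ : ∃ R₁ : ℝ, ∀ r, R₁ ≤ r → 1 / (16 * t) * r ^ 2 + C ≤
        envU W x t - ‖q‖ * r - ‖q‖ * ‖x‖ + (r - ‖x‖) ^ 2 / (2 * t) := by
      set B : ℝ := |C| + |envU W x t| + ‖q‖ * ‖x‖ with hB
      have hB0 : 0 ≤ B := by positivity
      refine ⟨‖x‖ * 4 + 16 * t * (‖q‖ + B) + 1, fun r hr => ?_⟩
      have hx0 := norm_nonneg x
      have hq0 := norm_nonneg q
      have hr1 : 1 ≤ r := by
        have : 0 ≤ 16 * t * (‖q‖ + B) := by positivity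
        linarith
      have h1 : (r / 2) ^ 2 ≤ (r - ‖x‖) ^ 2 := by
        have : r / 2 ≤ r - ‖x‖ := by
          have : 0 ≤ 16 * t * (‖q‖ + B) := by positivity
          linarith
        exact pow_le_pow_left₀ (by linarith) this 2
      have h2 : (r / 2) ^ 2 / (2 * t) ≤ (r - ‖x‖) ^ 2 / (2 * t) := by
        gcongr
      have h3 : (r / 2) ^ 2 / (2 * t) = 1 / (16 * t) * r ^ 2 + 1 / (16 * t) * r ^ 2 := by
        field_simp; ring
      have h4 : (‖q‖ + B) * r ≤ 1 / (16 * t) * r ^ 2 := by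
        have h5 : 16 * t * (‖q‖ + B) ≤ r := by linarith
        have h6 : (‖q‖ + B) ≤ r / (16 * t) := by
          rw [le_div_iff₀ (by positivity)]; linarith
        have h7 := mul_le_mul_of_nonneg_right h6 (by linarith : 0 ≤ r)
        calc (‖q‖ + B) * r ≤ r / (16 * t) * r := h7
          _ = 1 / (16 * t) * r ^ 2 := by ring
      have h8 : B ≤ B * r := by nlinarith
      have h9 := le_abs_self C
      have h10 := neg_abs_le (envU W x t)
      nlinarith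
    refine ⟨max R₁ 1, by positivity, fun y hy => ?_⟩
    have h1 := hC ‖y‖ (norm_nonneg _)
    have h2 := hR₁ ‖y‖ ((le_max_left _ _).trans hy)
    have h3 : -(‖q‖ * (‖y‖ + ‖x‖)) ≤ ⟪q, y - x⟫_ℝ := by
      have := neg_le_of_abs_le (abs_real_inner_le_norm q (y - x))
      have h4 : ‖q‖ * ‖y - x‖ ≤ ‖q‖ * (‖y‖ + ‖x‖) :=
        mul_le_mul_of_nonneg_left (norm_sub_le y x) (norm_nonneg _)
      linarith
    have h4 : (‖y‖ - ‖x‖) ^ 2 ≤ ‖y - x‖ ^ 2 := by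
      rw [← sq_abs (‖y‖ - ‖x‖)]
      exact pow_le_pow_left₀ (abs_nonneg _) (abs_norm_sub_norm_le y x) 2
    have h5 : (‖y‖ - ‖x‖) ^ 2 / (2 * t) ≤ ‖y - x‖ ^ 2 / (2 * t) := by gcongr
    simp only [hP]
    nlinarith
  have key : ∀ᶠ k in (𝒰 : Filter ℕ), ∀ y, wk k y t ≤ P y + δ := by
    filter_upwards [h (R + |t|) (by have := abs_nonneg t; linarith [hR.1]) δ hδ] with k hk'
    intro y
    rcases le_or_gt R ‖y‖ with hy | hy
    · have h1 := (le_abs_self _).trans (hk k y t)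
      have h2 := hR.2 y hy
      linarith
    · have h1 := hk' y t (by linarith [abs_nonneg t]) (by linarith [hR.1])
      have h2 := hq y
      have h3 := (abs_le.1 h1).2
      simp only [hP]
      linarith
  have key2 : ∀ᶠ k in (𝒰 : Filter ℕ), β k ≤ P (xk k) + δ := by
    filter_upwards [key, hβ] with k h1 h2
    refine h2.trans (envU_le (q := q + (1 / t) • (xk k - x)) fun y => (h1 y).trans (le_of_eq ?_))
    simp only [hP]
    have e1 : y - x = (y - xk k) + (xk k - x) := by abel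
    rw [inner_add_left, inner_smul_left, e1, norm_add_sq_real, inner_add_right,
      real_inner_comm (xk k - x) (y - xk k)]
    simp only [RCLike.conj_to_real]
    rw [real_inner_comm (y - xk k) (xk k - x)]
    field_simp
    ring
  have l1 : Tendsto (fun k => P (xk k) + δ) (𝒰 : Filter ℕ) (𝓝 (P x + δ)) := by
    have hc : Continuous P := by
      simp only [hP]
      fun_prop
    exact ((hc.tendsto x).comp hx).add_const δ
  have l2 := le_of_tendsto_of_tendsto hβ₀ l1 key2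
  simpa [hP] using l2

/-! ### covariance of the envelope -/

theorem envU_nrm [FiniteDimensional ℝ V] {G : ℝ → ℝ} (hG : GOK G) {w : V → ℝ → ℝ}
    (hw : Grow G w) {G' : ℝ → ℝ} (hG' : GOK G') (Y : V) {l : ℝ} (hl : 0 < l) (p : V) (b : ℝ)
    (hw' : Grow G' (Nrm w Y l p b)) {x : V} {t : ℝ} (ht : 0 < t) :
    envU (Nrm w Y l p b) x t = NrmU w (envU w) Y l p b x t := by
  have hl0 : l ≠ 0 := hl.ne'
  have hlt : 0 < l * t := mul_pos hl ht
  apply le_antisymm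
  · obtain ⟨q, hq⟩ := envU_spec hG hw (x := Y + l • (x + t • p)) hlt
    apply envU_le (q := q - p)
    intro y
    have h1 := hq (Y + l • (y + t • p))
    have e1 : Y + l • (y + t • p) - (Y + l • (x + t • p)) = l • (y - x) := by module
    rw [e1, inner_smul_right, norm_smul_sq] at h1
    unfold Nrm NrmU
    rw [inner_sub_left, div_add' _ _ _ hl0, div_add' _ _ _ hl0, div_le_div_iff_of_pos_right hl]
    have e2 : ⟪p, y - x⟫_ℝ = ⟪p, y⟫_ℝ - ⟪p, x⟫_ℝ := inner_sub_right _ _ _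
    have e3 : l ^ 2 * ‖y - x‖ ^ 2 / (2 * (l * t)) = ‖y - x‖ ^ 2 / (2 * t) * l := by
      field_simp
    rw [e2]
    rw [e3] at h1
    linarith
  · obtain ⟨q, hq⟩ := envU_spec hG' hw' (x := x) ht
    generalize envU (Nrm w Y l p b) x t = M at hq ⊢
    unfold NrmU
    rw [div_le_iff₀ hl]
    have h2 : envU w (Y + l • (x + t • p)) (l * t) ≤
        M * l + w Y 0 + l * ⟪p, x⟫_ℝ + l * b * t := by
      apply envU_le (q := q + p)
      intro y
      -- y = Y + l • (z + t • p)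
      set z : V := l⁻¹ • (y - Y) - t • p with hz
      have e1 : Y + l • (z + t • p) = y := by
        rw [hz, sub_add_cancel, smul_smul, mul_inv_cancel₀ hl0, one_smul]; abel
      have h1 := hq z
      unfold Nrm at h1
      rw [e1, div_le_iff₀ hl] at h1
      have e2 : y - (Y + l • (x + t • p)) = l • (z - x) := by
        rw [← e1]; module
      rw [e2, inner_smul_right, norm_smul_sq, inner_add_left]
      have e3 : ⟪p, z - x⟫_ℝ = ⟪p, z⟫_ℝ - ⟪p, x⟫_ℝ := inner_sub_right _ _ _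
      have e4 : l ^ 2 * ‖z - x‖ ^ 2 / (2 * (l * t)) = ‖z - x‖ ^ 2 / (2 * t) * l := by
        field_simp
      rw [e3, e4]
      nlinarith
    linarith


/-! ### limits of `Hm` -/

theorem Hm_limit [FiniteDimensional ℝ V] {G : ℝ → ℝ} (hG : GOK G) {𝒰 : Ultrafilter ℕ}
    {wk : ℕ → V → ℝ → ℝ} {W : V → ℝ → ℝ} (hk : ∀ k, Grow G (wk k)) (h : LU 𝒰 wk W)
    (hW : Continuous (fun X : V × ℝ => W X.1 X.2))
    {xk : ℕ → V} {x : V} (hx : Tendsto xk (𝒰 : Filter ℕ) (𝓝 x)) {t s : ℝ} (hs : 0 < s)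
    {γ : ℕ → ℝ} {γ₀ : ℝ} (hγ : Tendsto γ (𝒰 : Filter ℕ) (𝓝 γ₀))
    (hH : ∀ᶠ k in (𝒰 : Filter ℕ), Hm (wk k) (xk k) t s (γ k)) : Hm W x t s γ₀ := by
  classical
  have hex : ∀ k, ∃ z, Hm (wk k) (xk k) t s (γ k) →
      wk k z (t - s) + ‖xk k - z‖ ^ 2 / (2 * s) ≤ wk k (xk k) t - γ k * s := by
    intro k
    by_cases hc : Hm (wk k) (xk k) t s (γ k)
    · obtain ⟨z, hz⟩ := hc
      exact ⟨z, fun _ => hz⟩
    · exact ⟨0, fun h => absurd h hc⟩
  choose z hz using hex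
  have l1 : Tendsto (fun k => wk k (xk k) t) (𝒰 : Filter ℕ) (𝓝 (W x t)) :=
    h.tendsto hW hx tendsto_const_nhds
  have l2 : Tendsto (fun k => wk k (xk k) t - γ k * s) (𝒰 : Filter ℕ) (𝓝 (W x t - γ₀ * s)) :=
    l1.sub (hγ.mul_const s)
  -- `z` bounded
  obtain ⟨C, hC0, hC⟩ := hG.bound (lam := 1 / (2 * s)) (by positivity)
    (W x t - γ₀ * s + 1) (‖x‖ + 1 + |t - s|)
  have hzb : ∀ᶠ k in (𝒰 : Filter ℕ), ‖z k‖ ≤ C + (‖x‖ + 1) := by
    filter_upwards [hH, l2.eventually (gt_mem_nhds (lt_add_one _)),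
      (hx.norm).eventually (gt_mem_nhds (lt_add_one _))] with k h1 h2 h3
    have h4 := hz k h1
    have h5 := neg_le_of_abs_le (hk k (z k) (t - s))
    have h6 : ‖z k‖ ≤ ‖xk k - z k‖ + ‖xk k‖ := by
      have := norm_sub_norm_le (z k) (xk k)
      rw [norm_sub_rev] at this
      linarith
    have h7 : G (‖z k‖ + |t - s|) ≤ G (‖xk k - z k‖ + (‖x‖ + 1 + |t - s|)) :=
      hG.mono _ _ (by linarith)
    have h8 := hC ‖xk k - z k‖ (norm_nonneg _) (by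
      have e : 1 / (2 * s) * ‖xk k - z k‖ ^ 2 = ‖xk k - z k‖ ^ 2 / (2 * s) := by ring
      rw [e]
      linarith)
    linarith
  obtain ⟨z₀, hz₀⟩ := ultra_exists_lim 𝒰 hzb
  refine ⟨z₀, ?_⟩
  have l3 : Tendsto (fun k => wk k (z k) (t - s) + ‖xk k - z k‖ ^ 2 / (2 * s)) (𝒰 : Filter ℕ)
      (𝓝 (W z₀ (t - s) + ‖x - z₀‖ ^ 2 / (2 * s))) :=
    (h.tendsto hW hz₀ tendsto_const_nhds).add (((hx.sub hz₀).norm.pow 2).div_const _)
  refine le_of_tendsto_of_tendsto l3 l2 ?_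
  filter_upwards [hH] with k hk'
  exact hz k hk'

end Crest.Agent.R094.StageD
end

-- ▼ part R094/StageD

/-!
# Row 94, step (d) of the blueprint 7921: `StageD_stmt` (helper566)
-/

set_option autoImplicit false
set_option linter.unusedSectionVars false

namespace Crest.Agent.R094.StageD

open Filter Topology
open scoped InnerProductSpace RealInnerProductSpace

variable {V : Type*} [NormedAddCommGroup V] [InnerProductSpace ℝ V]

/-! ### bridges -/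

theorem Uf_eq_envU {w : V → ℝ → ℝ} {x : V} {t : ℝ} (hf : Sol.QUp fun y => w y t) (ht : 0 < t) :
    GK.Uf w x t = envU w x t := by
  have hlow : ∀ z : V, w x t ≤ Sol.supc t (fun y => w y t) z + ‖x - z‖ ^ 2 / (2 * t) := by
    intro z
    have := Sol.le_supc hf ht z x
    rw [norm_sub_rev] at this
    linarith
  have hb : BddBelow (Set.range fun z => Sol.supc t (fun y => w y t) z + ‖x - z‖ ^ 2 / (2 * t)) := by
    refine ⟨w x t, ?_⟩
    rintro _ ⟨z, rfl⟩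
    exact hlow z
  have hmem : ∀ z : V, ∀ y, w y t ≤ (Sol.supc t (fun y => w y t) z + ‖x - z‖ ^ 2 / (2 * t)) +
      ⟪(1 / t) • (x - z), y - x⟫_ℝ + ‖y - x‖ ^ 2 / (2 * t) := by
    intro z y
    have h1 := Sol.le_supc hf ht z y
    have e1 : z - y = -((y - x) + (x - z)) := by abel
    rw [e1, norm_neg, norm_add_sq_real] at h1
    rw [inner_smul_left, real_inner_comm]
    simp only [conj_trivial]
    have e2 : (‖y - x‖ ^ 2 + 2 * ⟪y - x, x - z⟫_ℝ + ‖x - z‖ ^ 2) / (2 * t) =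
        ‖y - x‖ ^ 2 / (2 * t) + 1 / t * ⟪y - x, x - z⟫_ℝ + ‖x - z‖ ^ 2 / (2 * t) := by
      field_simp
    rw [e2] at h1
    linarith
  apply le_antisymm
  · refine le_csInf ⟨_, _, hmem x⟩ ?_
    rintro a ⟨q, hq⟩
    have h1 : GK.Uf w x t ≤ Sol.supc t (fun y => w y t) (x - t • q) +
        ‖x - (x - t • q)‖ ^ 2 / (2 * t) := ciInf_le hb (x - t • q)
    refine h1.trans ?_
    have h2 : Sol.supc t (fun y => w y t) (x - t • q) ≤ a - t * ‖q‖ ^ 2 / 2 := by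
      apply Sol.supc_le
      intro y
      have h3 := hq y
      have e1 : x - t • q - y = -((y - x) + t • q) := by abel
      rw [e1, norm_neg, norm_add_smul_sq, real_inner_comm]
      have e2 : (‖y - x‖ ^ 2 + 2 * t * ⟪q, y - x⟫_ℝ + t ^ 2 * ‖q‖ ^ 2) / (2 * t) =
          ‖y - x‖ ^ 2 / (2 * t) + ⟪q, y - x⟫_ℝ + t * ‖q‖ ^ 2 / 2 := by
        field_simp
      rw [e2]
      linarith
    have e3 : ‖x - (x - t • q)‖ ^ 2 / (2 * t) = t * ‖q‖ ^ 2 / 2 := by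
      rw [sub_sub_cancel, norm_smul_sq]
      field_simp
    linarith
  · refine le_ciInf fun z => ?_
    exact envU_le (hmem z)

theorem LU_of_JC [FiniteDimensional ℝ V] {F : Ultrafilter ℕ} {w : ℕ → V → ℝ → ℝ}
    {W : V → ℝ → ℝ} (h : GK.JC F w W) (hW : Continuous (fun X : V × ℝ => W X.1 X.2)) :
    LU F w W := by
  classical
  intro R hR ε hε
  by_contra hcon
  rw [← Ultrafilter.eventually_not] at hcon
  have hex : ∀ k, ∃ x : V, ∃ t : ℝ, (¬ ∀ x t, ‖x‖ ≤ R → |t| ≤ R → |w k x t - W x t| ≤ ε) →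
      ‖x‖ ≤ R ∧ |t| ≤ R ∧ ε < |w k x t - W x t| := by
    intro k
    by_cases hc : ∀ x t, ‖x‖ ≤ R → |t| ≤ R → |w k x t - W x t| ≤ ε
    · exact ⟨0, 0, fun h => absurd hc h⟩
    · push Not at hc
      obtain ⟨x, t, h1, h2, h3⟩ := hc
      exact ⟨x, t, fun _ => ⟨h1, h2, h3⟩⟩
  choose x t hxt using hex
  obtain ⟨x₀, hx₀⟩ := ultra_exists_lim F (x := x) (R := R) (by
    filter_upwards [hcon] with k hk
    exact (hxt k hk).1)
  obtain ⟨t₀, ht₀⟩ := ultra_exists_lim_real F (x := t) (R := R) (by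
    filter_upwards [hcon] with k hk
    exact (hxt k hk).2.1)
  have l1 := h x t x₀ t₀ hx₀ ht₀
  have l2 : Tendsto (fun k => W (x k) (t k)) (F : Filter ℕ) (𝓝 (W x₀ t₀)) :=
    (hW.tendsto (x₀, t₀)).comp (hx₀.prodMk_nhds ht₀)
  have l3 := (l1.sub l2).abs
  rw [sub_self, abs_zero] at l3
  obtain ⟨k, hk1, hk2⟩ := ((l3.eventually (gt_mem_nhds hε)).and hcon).exists
  exact absurd (hxt k hk2).2.2 (not_lt.2 hk1.le)

/-- growth function -/
noncomputable def GG (K : ℝ) (r : ℝ) : ℝ := K * (1 + max r 0) ^ (3 / 2 : ℝ)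

theorem GG_of_nonneg {K r : ℝ} (hr : 0 ≤ r) : GG K r = K * (1 + r) ^ (3 / 2 : ℝ) := by
  unfold GG; rw [max_eq_left hr]

theorem GOK_GG {K : ℝ} (hK : 0 < K) : GOK (GG K) where
  mono := by
    intro r r' h
    unfold GG
    apply mul_le_mul_of_nonneg_left _ hK.le
    apply Real.rpow_le_rpow (by positivity) _ (by norm_num)
    have := max_le_max_right 0 h
    linarith
  sub := by
    intro ε hε
    refine ⟨K * (4 * K / ε) ^ 3 + ε, fun r hr => ?_⟩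
    rw [GG_of_nonneg hr]
    have h1 : (0 : ℝ) ≤ 1 + r := by linarith
    have e1 : (1 + r) ^ (3 / 2 : ℝ) = (1 + r) * Real.sqrt (1 + r) := by
      rw [show (3 / 2 : ℝ) = 1 + 1 / 2 by norm_num, Real.rpow_add' h1 (by norm_num),
        Real.rpow_one, ← Real.sqrt_eq_rpow]
    rw [e1]
    have hy0 : 0 ≤ Real.sqrt (1 + r) := Real.sqrt_nonneg _
    have hy2 : 1 + r = Real.sqrt (1 + r) ^ 2 := (Real.sq_sqrt h1).symm
    generalize Real.sqrt (1 + r) = y at hy0 hy2 ⊢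
    rw [hy2]
    have e2 : r = y ^ 2 - 1 := by linarith
    rw [e2]
    have hKe : 0 ≤ K * (4 * K / ε) ^ 3 := by positivity
    by_cases hc : 4 * K / ε ≤ y
    · have h3 : 4 * K ≤ ε * y := by rwa [div_le_iff₀' hε] at hc
      have h4 : K * (y ^ 2 * y) * 4 ≤ ε * y ^ 4 := by
        have h5 : 0 ≤ y ^ 3 := by positivity
        nlinarith
      have h5 : ε * (y ^ 4 / 2) ≤ ε * ((y ^ 2 - 1) ^ 2 + 1) := by
        apply mul_le_mul_of_nonneg_left _ hε.le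
        nlinarith [sq_nonneg (y ^ 2 - 2)]
      have h6 : 0 ≤ ε * y ^ 4 := by positivity
      linarith
    · push Not at hc
      have h3 : y ^ 3 ≤ (4 * K / ε) ^ 3 := pow_le_pow_left₀ hy0 hc.le 3
      have h4 : K * (y ^ 2 * y) ≤ K * (4 * K / ε) ^ 3 := by
        have : y ^ 2 * y = y ^ 3 := by ring
        rw [this]
        exact mul_le_mul_of_nonneg_left h3 hK.le
      have h5 : 0 ≤ ε * (y ^ 2 - 1) ^ 2 := by positivity
      linarith

theorem grow_GG {K : ℝ} {w : V → ℝ → ℝ} (h : GK.Nrm K w) : Grow (GG K) w := by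
  intro x t
  rw [GG_of_nonneg (by positivity)]
  exact h x t

/-! ### monotonicity of `Hm`, `Hp` -/

theorem Hm_mono [FiniteDimensional ℝ V] {w : V → ℝ → ℝ} (hw : Sol.IsSol w) {x : V}
    {t s s' γ : ℝ} (hs : 0 < s) (hss : s ≤ s') (h : Hm w x t s γ) : Hm w x t s' γ := by
  have hs' : 0 < s' := lt_of_lt_of_le hs hss
  obtain ⟨z, hz⟩ := h
  have h1 := Sol.B_le hw.grow hs x z t
  have h2 := hw.sup.hm_mono hs hss x t
  have h3 := Sol.B_eq_hm s hs w x t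
  have h4 := Sol.B_eq_hm s' hs' w x t
  have h5 : γ ≤ Sol.hm s w x t := by
    have : γ * s ≤ s * Sol.hm s w x t := by linarith
    nlinarith
  obtain ⟨z', hz'⟩ := Sol.exists_B hw.cont hw.grow hs' x t
  refine ⟨z', ?_⟩
  rw [← hz', h4]
  nlinarith

theorem Hp_mono [FiniteDimensional ℝ V] {w : V → ℝ → ℝ} (hw : Sol.IsSol w) {x : V}
    {t s s' γ : ℝ} (hs : 0 < s) (hss : s ≤ s') (h : Hp w x t s γ) : Hp w x t s' γ := by
  have hs' : 0 < s' := lt_of_lt_of_le hs hss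
  obtain ⟨z, hz⟩ := h
  have h1 := Sol.le_T hw.grow hs x z t
  rw [norm_sub_rev] at h1
  have h2 := hw.sub.hp_mono hs hss x t
  have h3 := Sol.T_eq_hp s hs w x t
  have h4 := Sol.T_eq_hp s' hs' w x t
  have h5 : γ ≤ Sol.hp s w x t := by
    have : γ * s ≤ s * Sol.hp s w x t := by linarith
    nlinarith
  obtain ⟨z', hz'⟩ := Sol.exists_T hw.cont hw.grow hs' x t
  refine ⟨z', ?_⟩
  rw [norm_sub_rev, ← hz', h4]
  nlinarith

/-! ### normalisation -/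

theorem nrmz_eq (w : V → ℝ → ℝ) (Y : V) (l : ℝ) (p : V) (b : ℝ) :
    GK.nrmz w Y 0 l p b = Nrm w Y l p b := by
  funext x t
  unfold GK.nrmz Nrm
  rw [zero_add]

theorem Nrm_bound {K : ℝ} {w : V → ℝ → ℝ} {Y : V} {l : ℝ} (hl : 0 < l) {p : V} {b : ℝ}
    (h : GK.FD K w Y 0 l p b) : GK.Nrm K (Nrm w Y l p b) := by
  intro x t
  have h1 := h (l • x) (l * t)
  unfold Nrm
  rw [abs_div, abs_of_pos hl, div_le_iff₀ hl]
  have e1 : Y + (l * t) • p + l • x = Y + l • (x + t • p) := by module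
  have e2 : (‖l • x‖ + |l * t|) / l = ‖x‖ + |t| := by
    rw [norm_smul, abs_mul, Real.norm_eq_abs, abs_of_pos hl]; field_simp
  rw [e1, e2, zero_add, inner_smul_right] at h1
  have e3 : w (Y + l • (x + t • p)) (l * t) - w Y 0 - l * ⟪p, x⟫_ℝ - l * b * t =
      w (Y + l • (x + t • p)) (l * t) - w Y 0 - l * ⟪p, x⟫_ℝ - b * (l * t) := by ring
  rw [e3]
  calc _ ≤ _ := h1
    _ = _ := by ring

/-- exact covariance of the weighted functional (frozen form) -/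
theorem gkval_nrm (w U : V → ℝ → ℝ) (Y : V) {l : ℝ} (hl : 0 < l) (p : V) (b c s t : ℝ)
    (hs : 0 < s) (x z : V) :
    GK.val U w c 0 (l * s) (l * t) (Y + l • (x + t • p)) (Y + l • (z + (t - s) • p)) =
      l * (NrmU w U Y l p b x t - Nrm w Y l p b z (t - s) - ‖x - z‖ ^ 2 / (2 * s)
        + s * (b - ‖p‖ ^ 2 / 2) - (s * c / 2) * ‖Y + l • (x - (t / s) • (x - z))‖ ^ 2) := by
  rw [← val_nrm w U Y hl p b c s t hs x z]
  unfold GK.val GK.Phi val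
  rw [sub_zero]
  ring

/-- every member of the class has global growth `3/2` -/
theorem exists_Nrm {K : ℝ} {w : V → ℝ → ℝ} (hw : GK.Cls K w) : ∃ K', 0 < K' ∧ GK.Nrm K' w := by
  obtain ⟨p, b, h⟩ := hw.flat 0 0 1 one_pos
  have hK := hw.pos
  have hp0 : (0 : ℝ) ≤ ‖p‖ := norm_nonneg p
  refine ⟨|w 0 0| + ‖p‖ * (1 + ‖p‖) + |b| + K * (1 + ‖p‖) ^ (3 / 2 : ℝ), by positivity, ?_⟩
  intro x t
  have h1 := h (x - t • p) t
  have e1 : (0 : V) + t • p + (x - t • p) = x := by abel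
  rw [e1, zero_add, div_one, mul_one] at h1
  set r : ℝ := 1 + (‖x‖ + |t|) with hr
  have hr1 : 1 ≤ r := by
    have := norm_nonneg x
    have := abs_nonneg t
    linarith
  have hr32 : r ≤ r ^ (3 / 2 : ℝ) := by
    calc r = r ^ (1 : ℝ) := (Real.rpow_one r).symm
      _ ≤ r ^ (3 / 2 : ℝ) := Real.rpow_le_rpow_of_exponent_le hr1 (by norm_num)
  have h2 : ‖x - t • p‖ ≤ ‖x‖ + |t| * ‖p‖ := by
    have := norm_sub_le x (t • p)
    rwa [norm_smul, Real.norm_eq_abs] at this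
  have h3 : 1 + (‖x - t • p‖ + |t|) ≤ (1 + ‖p‖) * r := by
    rw [hr]
    nlinarith [norm_nonneg x, abs_nonneg t]
  have h4 : (1 + (‖x - t • p‖ + |t|)) ^ (3 / 2 : ℝ) ≤
      (1 + ‖p‖) ^ (3 / 2 : ℝ) * r ^ (3 / 2 : ℝ) := by
    rw [← Real.mul_rpow (by positivity) (by positivity)]
    exact Real.rpow_le_rpow (by positivity) h3 (by norm_num)
  have h5 : |inner ℝ p (x - t • p)| ≤ ‖p‖ * (1 + ‖p‖) * r := by
    refine (abs_real_inner_le_norm _ _).trans ?_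
    rw [mul_assoc]
    apply mul_le_mul_of_nonneg_left _ hp0
    have := abs_nonneg t
    linarith
  have h6 : |t| ≤ r := by
    have := norm_nonneg x
    linarith
  have h7 : K * (1 + (‖x - t • p‖ + |t|)) ^ (3 / 2 : ℝ) ≤
      K * (1 + ‖p‖) ^ (3 / 2 : ℝ) * r ^ (3 / 2 : ℝ) := by
    rw [mul_assoc]
    exact mul_le_mul_of_nonneg_left h4 hK.le
  have h8 : |b * t| ≤ |b| * r := by
    rw [abs_mul]
    exact mul_le_mul_of_nonneg_left h6 (abs_nonneg b)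
  have h9 : |w x t| ≤ |w x t - w 0 0 - inner ℝ p (x - t • p) - b * t| + |w 0 0| +
      |inner ℝ p (x - t • p)| + |b * t| := by
    have e : w x t = (w x t - w 0 0 - inner ℝ p (x - t • p) - b * t) + w 0 0 +
      inner ℝ p (x - t • p) + b * t := by ring
    calc |w x t| = |(w x t - w 0 0 - inner ℝ p (x - t • p) - b * t) + w 0 0 +
      inner ℝ p (x - t • p) + b * t| := by rw [← e]
      _ ≤ _ := (abs_add_le _ _).trans (add_le_add_left ((abs_add_le _ _).trans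
          (add_le_add_left (abs_add_le _ _) _)) _)
  have h10 : |w 0 0| ≤ |w 0 0| * r ^ (3 / 2 : ℝ) :=
    le_mul_of_one_le_right (abs_nonneg _) (hr1.trans hr32)
  have h11 : ‖p‖ * (1 + ‖p‖) * r ≤ ‖p‖ * (1 + ‖p‖) * r ^ (3 / 2 : ℝ) :=
    mul_le_mul_of_nonneg_left hr32 (by positivity)
  have h12 : |b| * r ≤ |b| * r ^ (3 / 2 : ℝ) := mul_le_mul_of_nonneg_left hr32 (abs_nonneg b)
  linarith

/-- the set of admissible asymptotic excess slopes -/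
def Adm (κ : ℝ) (w : V → ℝ → ℝ) (β : ℝ) : Prop :=
  ∀ η : ℝ, 0 < η → ∃ ε₀ : ℝ, 0 < ε₀ ∧ ∀ ε : ℝ, 0 < ε → ε < ε₀ → ∃ τ₀ : ℝ, 0 < τ₀ ∧
    ∀ t : ℝ, 0 < t → t < τ₀ → ∀ x z : V,
      GK.val (GK.Uf w) w (1 / 36) 0 (ε * t) t x z ≤ κ * t + (β + η) * (ε * t)

/-- the data of step `k` -/
structure Step (κ C β : ℝ) (w : V → ℝ → ℝ) (k : ℕ) (ε t : ℝ) (x z : V) : Prop where
  epos : 0 < ε
  esmall : ε < 1 / ((k : ℝ) + 2)
  tpos : 0 < t
  tsmall : t < 1 / ((k : ℝ) + 1)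
  low : κ * t + (β - 1 / ((k : ℝ) + 1)) * (ε * t) ≤
    GK.val (GK.Uf w) w (1 / 36) 0 (ε * t) t x z
  vert : ‖x - (t / (ε * t)) • (x - z)‖ ≤ C
  sup : GK.SupGrad t (fun y => GK.Uf w y t) x
    ((1 / (ε * t)) • (x - z) - ((1 / 36) * (t - ε * t)) • (x - (t / (ε * t)) • (x - z)))

theorem exists_slope {κ C : ℝ} {w : V → ℝ → ℝ}
    (hC : ∀ t s, 0 < t → t ≤ 1 → 0 < s → s ≤ t / 2 →
      (∀ x z, GK.val (GK.Uf w) w (1 / 36) 0 s t x z ≤ κ * t + C * s) ∧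
      ∃ x z, (∀ x' z', GK.val (GK.Uf w) w (1 / 36) 0 s t x' z' ≤
          GK.val (GK.Uf w) w (1 / 36) 0 s t x z) ∧
        κ * t - C * s ≤ GK.val (GK.Uf w) w (1 / 36) 0 s t x z ∧
        ‖x - (t / s) • (x - z)‖ ≤ C ∧
        GK.SupGrad t (fun y => GK.Uf w y t) x
          ((1 / s) • (x - z) - ((1 / 36) * (t - s)) • (x - (t / s) • (x - z)))) :
    ∃ β : ℝ, Adm κ w β ∧ ∀ k : ℕ, ∃ (ε t : ℝ) (x z : V), Step κ C β w k ε t x z := by
  have memC : C ∈ {β | Adm κ w β} := by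
    intro η hη
    refine ⟨1 / 2, by norm_num, fun ε he he' => ⟨1, one_pos, fun t ht ht' x z => ?_⟩⟩
    have h1 := (hC t (ε * t) ht ht'.le (mul_pos he ht) (by nlinarith)).1 x z
    have h2 : 0 < η * (ε * t) := by positivity
    linarith
  have hbdd : BddBelow {β | Adm κ w β} := by
    refine ⟨-C - 1, fun β hβ => ?_⟩
    obtain ⟨ε₀, he0, h1⟩ := hβ 1 one_pos
    obtain ⟨ε, he, hee, he2⟩ : ∃ ε, 0 < ε ∧ ε < ε₀ ∧ ε ≤ 1 / 2 :=
      ⟨min (ε₀ / 2) (1 / 2), by positivity, lt_of_le_of_lt (min_le_left _ _) (by linarith),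
        min_le_right _ _⟩
    obtain ⟨τ₀, ht0, h2⟩ := h1 ε he hee
    obtain ⟨t, ht, htt, ht2⟩ : ∃ t, 0 < t ∧ t < τ₀ ∧ t ≤ 1 :=
      ⟨min (τ₀ / 2) 1, by positivity, lt_of_le_of_lt (min_le_left _ _) (by linarith),
        min_le_right _ _⟩
    obtain ⟨-, x, z, -, h3, -, -⟩ := hC t (ε * t) ht ht2 (mul_pos he ht) (by nlinarith)
    have h4 := h2 t ht htt x z
    have h5 : 0 < ε * t := mul_pos he ht
    have h6 : -C * (ε * t) ≤ (β + 1) * (ε * t) := by linarith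
    have h7 := le_of_mul_le_mul_right h6 h5
    linarith
  refine ⟨sInf {β | Adm κ w β}, ?_, ?_⟩
  · intro η hη
    obtain ⟨β, hβ, hlt⟩ := exists_lt_of_csInf_lt ⟨C, memC⟩
      (show sInf {β | Adm κ w β} < sInf {β | Adm κ w β} + η / 2 by linarith)
    obtain ⟨ε₀, he0, h1⟩ := hβ (η / 2) (by positivity)
    refine ⟨ε₀, he0, fun ε he hee => ?_⟩
    obtain ⟨τ₀, ht0, h2⟩ := h1 ε he hee
    refine ⟨τ₀, ht0, fun t ht htt x z => (h2 t ht htt x z).trans ?_⟩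
    have h5 : 0 < ε * t := mul_pos he ht
    nlinarith
  · intro k
    have hk0 : (0 : ℝ) ≤ k := Nat.cast_nonneg k
    have hnot : sInf {β | Adm κ w β} - 1 / ((k : ℝ) + 1) ∉ {β | Adm κ w β} := by
      intro hmem
      have h1 := csInf_le hbdd hmem
      have h2 : (0 : ℝ) < 1 / ((k : ℝ) + 1) := by positivity
      linarith
    simp only [Set.mem_ofPred_eq, Adm] at hnot
    push Not at hnot
    obtain ⟨η, hη, h1⟩ := hnot
    obtain ⟨ε, he, hee, h2⟩ := h1 (1 / ((k : ℝ) + 2)) (by positivity)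
    obtain ⟨t, ht, htt, x', z', h3⟩ := h2 (1 / ((k : ℝ) + 1)) (by positivity)
    have he2 : ε < 1 / 2 := by
      refine hee.trans_le ?_
      apply one_div_le_one_div_of_le (by norm_num) (by linarith)
    have ht2 : t ≤ 1 := by
      refine htt.le.trans ?_
      rw [div_le_one (by positivity)]
      linarith
    obtain ⟨-, x, z, h4, -, h5, h6⟩ := hC t (ε * t) ht ht2 (mul_pos he ht) (by nlinarith)
    refine ⟨ε, t, x, z, he, hee, ht, htt, ?_, h5, h6⟩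
    have h7 := h4 x' z'
    have h8 : 0 < η * (ε * t) := by positivity
    change κ * t + (sInf {β | Adm κ w β} - 1 / ((k : ℝ) + 1)) * (ε * t) ≤ _
    have h9 : κ * t + (sInf {β | Adm κ w β} - 1 / ((k : ℝ) + 1) + η) * (ε * t) <
      GK.val (GK.Uf w) w (1 / 36) 0 (ε * t) t x' z' := h3
    linarith

/-! ### one step -/

theorem sub_Y_eq {x z : V} {ε t : ℝ} (hε : 0 < ε) (ht : 0 < t) :
    x - (x - (t / (ε * t)) • (x - z)) = (1 / ε) • (x - z) := by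
  have : t / (ε * t) = 1 / ε := by field_simp
  rw [this, sub_sub_cancel]

theorem x_eq {x Y p : V} {t : ℝ} (ht : 0 < t) :
    Y + t • ((t⁻¹ • (x - Y) - p) + (1 : ℝ) • p) = x := by
  rw [one_smul, sub_add_cancel, smul_smul, mul_inv_cancel₀ ht.ne', one_smul]; abel

theorem z_eq {x z Y p : V} {ε t : ℝ} (hε : 0 < ε) (ht : 0 < t)
    (hY : x - Y = (1 / ε) • (x - z)) :
    Y + t • ((1 - ε) • (t⁻¹ • (x - Y) - p) + (1 - ε) • p) = z := by
  rw [← smul_add, sub_add_cancel, smul_comm (1 - ε), smul_smul, mul_inv_cancel₀ ht.ne', one_smul,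
    sub_smul, one_smul]
  have h1 : ε • (x - Y) = x - z := by
    rw [hY, smul_smul, mul_one_div_cancel hε.ne', one_smul]
  rw [h1]; abel

theorem step_ineq {w U : V → ℝ → ℝ} {Y x z : V} (p : V) (b : ℝ) {c ε t κ β' : ℝ} (hε : 0 < ε)
    (ht : 0 < t) (hY : x - Y = (1 / ε) • (x - z))
    (hlow : κ * t + β' * (ε * t) ≤ GK.val U w c 0 (ε * t) t x z) :
    κ + ε * (β' - (b - ‖p‖ ^ 2 / 2) + c / 2 * ‖Y‖ ^ 2) +
      (Nrm w Y t p b ((1 - ε) • (t⁻¹ • (x - Y) - p)) (1 - ε) +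
        ‖(t⁻¹ • (x - Y) - p) - (1 - ε) • (t⁻¹ • (x - Y) - p)‖ ^ 2 / (2 * ε)) ≤
      NrmU w U Y t p b (t⁻¹ • (x - Y) - p) 1 := by
  have h1 := gkval_nrm w U Y ht p b c ε 1 hε (t⁻¹ • (x - Y) - p)
    ((1 - ε) • (t⁻¹ • (x - Y) - p))
  rw [x_eq ht, z_eq hε ht hY, mul_comm t ε, mul_one] at h1
  have e1 : (t⁻¹ • (x - Y) - p) - (1 / ε) • ((t⁻¹ • (x - Y) - p) -
      (1 - ε) • (t⁻¹ • (x - Y) - p)) = 0 := by
    generalize t⁻¹ • (x - Y) - p = a
    have : a - (1 - ε) • a = ε • a := by rw [sub_smul, one_smul]; abel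
    rw [this, smul_smul, one_div_mul_cancel hε.ne', one_smul, sub_self]
  rw [e1, smul_zero, add_zero] at h1
  rw [h1] at hlow
  have h2 : t * (κ + β' * ε) ≤ t * (NrmU w U Y t p b (t⁻¹ • (x - Y) - p) 1 -
      Nrm w Y t p b ((1 - ε) • (t⁻¹ • (x - Y) - p)) (1 - ε) -
      ‖(t⁻¹ • (x - Y) - p) - (1 - ε) • (t⁻¹ • (x - Y) - p)‖ ^ 2 / (2 * ε) +
      ε * (b - ‖p‖ ^ 2 / 2) - ε * c / 2 * ‖Y‖ ^ 2) := by
    calc t * (κ + β' * ε) = κ * t + β' * (ε * t) := by ring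
      _ ≤ _ := hlow
  have h3 := le_of_mul_le_mul_left h2 ht
  linarith

/-- the normalised supergradient inequality -/
theorem step_sup {w U : V → ℝ → ℝ} {Y x z : V} (p : V) (b : ℝ) {ε t : ℝ} {d : V} (hε : 0 < ε)
    (ht : 0 < t) (hY : x - Y = (1 / ε) • (x - z))
    (hsup : GK.SupGrad t (fun y => U y t) x ((1 / (ε * t)) • (x - z) - d)) :
    NrmU w U Y t p b d 1 + ‖(t⁻¹ • (x - Y) - p) - d‖ ^ 2 / 2 ≤
      NrmU w U Y t p b (t⁻¹ • (x - Y) - p) 1 := by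
  have e0 : (1 / (ε * t)) • (x - z) = t⁻¹ • (x - Y) := by
    rw [hY, smul_smul]; congr 1; field_simp
  rw [e0] at hsup
  set a : V := t⁻¹ • (x - Y) - p with ha
  have e1 : t⁻¹ • (x - Y) = a + p := by rw [ha]; abel
  have ex : Y + t • (a + (1 : ℝ) • p) = x := x_eq ht
  have h1 := hsup (t • (d - a))
  rw [e1] at h1
  have e2 : x + t • (d - a) = Y + t • (d + (1 : ℝ) • p) := by
    rw [← ex]; module
  rw [e2] at h1
  have e3 : a - d = -(d - a) := by abel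
  have e4 : inner ℝ (a + p - d) (t • (d - a)) = t * (- ‖a - d‖ ^ 2 + ⟪p, d⟫_ℝ - ⟪p, a⟫_ℝ) := by
    have : a + p - d = p - (d - a) := by abel
    rw [this, inner_smul_right, inner_sub_left, real_inner_self_eq_norm_sq, inner_sub_right, e3,
      norm_neg]
    ring
  have e5 : ‖t • (d - a)‖ ^ 2 / (2 * t) = t * (‖a - d‖ ^ 2 / 2) := by
    rw [norm_smul_sq, e3, norm_neg]; field_simp
  rw [e4, e5] at h1
  unfold NrmU
  rw [ex, mul_one, div_add' _ _ _ ht.ne', div_le_div_iff_of_pos_right ht]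
  linarith

theorem bound_x {G : ℝ → ℝ} (hG : GOK G) (κ C : ℝ) : ∃ C₁, 0 ≤ C₁ ∧ ∀ (w : V → ℝ → ℝ) (a d : V),
    Grow G w → ‖d‖ ≤ C → ‖a - d‖ ^ 2 / 2 ≤ κ + w a 1 - w d 1 → ‖a‖ ≤ C₁ := by
  obtain ⟨C', h0, h⟩ := hG.bound (lam := 1 / 2) (by norm_num) (κ + G (C + 1)) (C + 1)
  refine ⟨C' + |C|, by positivity, fun w a d hw hd hle => ?_⟩
  have h1 : ‖a‖ ≤ ‖a - d‖ + ‖d‖ := by
    have := norm_add_le (a - d) d
    rwa [sub_add_cancel] at this
  have h2 := (le_abs_self _).trans (hw a 1)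
  have h3 := neg_le_of_abs_le (hw d 1)
  have h4 : G (‖a‖ + |(1 : ℝ)|) ≤ G (‖a - d‖ + (C + 1)) := hG.mono _ _ (by norm_num; linarith)
  have h5 : G (‖d‖ + |(1 : ℝ)|) ≤ G (C + 1) := hG.mono _ _ (by norm_num; linarith)
  have h6 := h ‖a - d‖ (norm_nonneg _) (by linarith)
  linarith [le_abs_self C]

theorem bound_gamma {G : ℝ → ℝ} (hG : GOK G) (R : ℝ) : ∃ C₂, ∀ (w : V → ℝ → ℝ) (a : V) (γ : ℝ),
    Grow G w → ‖a‖ ≤ R → Hm w a 1 1 γ → γ ≤ C₂ := by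
  obtain ⟨C, hC⟩ := hG.shift R (1 / 2) (by norm_num)
  refine ⟨G (R + 1) + C, fun w a γ hw ha hH => ?_⟩
  obtain ⟨z, hz⟩ := hH
  have h1 := (le_abs_self _).trans (hw a 1)
  have h2 := neg_le_of_abs_le (hw z (1 - 1))
  have h3 : ‖z‖ ≤ ‖a - z‖ + ‖a‖ := by
    have := norm_sub_norm_le z a
    rw [norm_sub_rev] at this
    linarith
  have h4 : G (‖a‖ + |(1 : ℝ)|) ≤ G (R + 1) := hG.mono _ _ (by norm_num; linarith)
  have h5 : G (‖z‖ + |(1 : ℝ) - 1|) ≤ G (‖a - z‖ + R) := hG.mono _ _ (by norm_num; linarith)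
  have h6 := hC ‖a - z‖ (norm_nonneg _)
  norm_num at hz h2 h5 h1 h4
  linarith

theorem bound_H {G : ℝ → ℝ} (hG : GOK G) (C : ℝ) {w : V → ℝ → ℝ} (hw : Grow G w) : ∃ C₃, ∀ (Y : V)
    (γ : ℝ), ‖Y‖ ≤ C → Hp w Y 0 1 γ → γ ≤ C₃ := by
  obtain ⟨C', hC'⟩ := hG.shift (C + 1) (1 / 2) (by norm_num)
  refine ⟨G C + C', fun Y γ hY hH => ?_⟩
  obtain ⟨y, hy⟩ := hH
  have h1 := (le_abs_self _).trans (hw y (0 + 1))
  have h2 := neg_le_of_abs_le (hw Y 0)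
  have h3 : ‖y‖ ≤ ‖y - Y‖ + ‖Y‖ := by
    have := norm_add_le (y - Y) Y
    rwa [sub_add_cancel] at this
  have h4 : G (‖Y‖ + |(0 : ℝ)|) ≤ G C := hG.mono _ _ (by norm_num; linarith)
  have h5 : G (‖y‖ + |(0 : ℝ) + 1|) ≤ G (‖y - Y‖ + (C + 1)) := hG.mono _ _ (by norm_num; linarith)
  have h6 := hC' ‖y - Y‖ (norm_nonneg _)
  norm_num at hy h2 h5 h1 h4
  linarith

/-- lower bound of the local forward slope from flatness -/
theorem Hp_of_flat {K : ℝ} {w : V → ℝ → ℝ} {Y p : V} {t b : ℝ} (ht : 0 < t)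
    (h : Grow (GG K) (Nrm w Y t p b)) : Hp w Y 0 t (b - ‖p‖ ^ 2 / 2 - GG K 1) := by
  refine ⟨Y + t • p, ?_⟩
  have h1 := neg_le_of_abs_le (h 0 1)
  rw [norm_zero, abs_one, zero_add] at h1
  unfold Nrm at h1
  rw [inner_zero_right, mul_zero, sub_zero, mul_one, mul_one, zero_add, one_smul,
    le_div_iff₀ ht] at h1
  rw [add_sub_cancel_left, norm_smul_sq, zero_add]
  have e1 : t ^ 2 * ‖p‖ ^ 2 / (2 * t) = t * (‖p‖ ^ 2 / 2) := by field_simp
  rw [e1]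
  linarith

theorem NrmU_Uf {w : V → ℝ → ℝ} (hw : Sol.Grow w) (Y : V) {l : ℝ} (hl : 0 < l) (p : V) (b : ℝ)
    (x : V) {t : ℝ} (ht : 0 < t) :
    NrmU w (GK.Uf w) Y l p b x t = NrmU w (envU w) Y l p b x t := by
  unfold NrmU
  rw [Uf_eq_envU (hw.qup (l * t)) (mul_pos hl ht)]

/-- the normalised state of one step -/
structure NState (K κ β R : ℝ) (w : V → ℝ → ℝ) (k : ℕ) (ε t : ℝ) (Y p a : V) (b : ℝ) : Prop where
  cls : GK.Cls K (Nrm w Y t p b)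
  nrm : GK.Nrm K (Nrm w Y t p b)
  Yb : ‖Y‖ ≤ R
  ab : ‖a‖ ≤ R
  Hb : |b - ‖p‖ ^ 2 / 2| ≤ R
  up : κ + ε * (β - 1 / ((k : ℝ) + 1) - (b - ‖p‖ ^ 2 / 2) + (1 / 36) / 2 * ‖Y‖ ^ 2) +
    Nrm w Y t p b ((1 - ε) • a) (1 - ε) ≤ envU (Nrm w Y t p b) a 1
  hm : Hm (Nrm w Y t p b) a 1 ε
    (β - 1 / ((k : ℝ) + 1) - (b - ‖p‖ ^ 2 / 2) + (1 / 36) / 2 * ‖Y‖ ^ 2)

theorem step_out [FiniteDimensional ℝ V] (hN : GK.ClsNrmz_stmt V) {K κ : ℝ} (C β : ℝ)
    (hkap : GK.IsKap V K κ) {w : V → ℝ → ℝ} (hw : GK.Cls K w) :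
    ∃ R : ℝ, ∀ (k : ℕ) (ε t : ℝ) (x z : V), Step κ C β w k ε t x z →
      ∃ (Y p a : V) (b : ℝ), NState K κ β R w k ε t Y p a b := by
  have hK := hw.pos
  obtain ⟨K', hK', hwN⟩ := exists_Nrm hw
  have hG := GOK_GG hK
  have hG' := GOK_GG hK'
  have hwG : Grow (GG K') w := grow_GG hwN
  obtain ⟨C₁, hC₁0, hC₁⟩ := bound_x (V := V) hG κ C
  obtain ⟨C₂, hC₂⟩ := bound_gamma (V := V) hG C₁
  obtain ⟨C₃, hC₃⟩ := bound_H (V := V) hG' C hwG
  refine ⟨|C| + C₁ + |C₂| + |C₃| + |β| + 1 + GG K 1, ?_⟩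
  intro k ε t x z hS
  have hGG1 : 0 ≤ GG K 1 := by unfold GG; positivity
  have hk0 : (0 : ℝ) ≤ k := Nat.cast_nonneg k
  have hε := hS.epos
  have ht := hS.tpos
  have hk1 : 1 / ((k : ℝ) + 1) ≤ 1 := by rw [div_le_one (by positivity)]; linarith
  have hk1' : 0 ≤ 1 / ((k : ℝ) + 1) := by positivity
  have hε1 : ε < 1 := by
    refine hS.esmall.trans_le ?_
    rw [div_le_one (by positivity)]
    linarith
  have ht1 : t ≤ 1 := hS.tsmall.le.trans hk1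
  have hvert := hS.vert
  have hsup := hS.sup
  have hYeq := sub_Y_eq (x := x) (z := z) hε ht
  set Y : V := x - (t / (ε * t)) • (x - z) with hY
  obtain ⟨p, b, hFD⟩ := hw.flat Y 0 t ht
  have hwk : GK.Cls K (Nrm w Y t p b) := by
    rw [← nrmz_eq]; exact hN K w hw Y 0 t p b ht
  have hwkN : GK.Nrm K (Nrm w Y t p b) := Nrm_bound ht hFD
  have hwkG : Grow (GG K) (Nrm w Y t p b) := grow_GG hwkN
  have hC0 : 0 ≤ C := (norm_nonneg _).trans hvert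
  set a : V := t⁻¹ • (x - Y) - p with ha
  -- identify the envelope
  have hUk : ∀ y : V, NrmU w (GK.Uf w) Y t p b y 1 = envU (Nrm w Y t p b) y 1 := by
    intro y
    rw [NrmU_Uf hw.sol.grow Y ht p b y one_pos, envU_nrm hG' hwG hG Y ht p b hwkG one_pos]
  have hI := step_ineq (w := w) (U := GK.Uf w) p b (c := 1 / 36) hε ht hYeq hS.low
  rw [← ha, hUk a] at hI
  -- upper bound by kappa
  have hkap' : envU (Nrm w Y t p b) a 1 ≤ Nrm w Y t p b a 1 + κ := by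
    have h1 := hkap _ hwk a 1 1 one_pos
    rw [← Uf_eq_envU (hwk.sol.grow.qup 1) one_pos]
    rw [mul_one] at h1
    exact h1
  -- bound of a
  have hsq : 0 ≤ ‖a - (1 - ε) • a‖ ^ 2 / (2 * ε) := by positivity
  set d : V := ((1 / 36) * (t - ε * t)) • Y with hd
  have hdC : ‖d‖ ≤ C := by
    rw [hd, norm_smul, Real.norm_eq_abs, abs_of_nonneg (by nlinarith)]
    have : (1 / 36) * (t - ε * t) ≤ 1 := by nlinarith
    calc _ ≤ 1 * ‖Y‖ := mul_le_mul_of_nonneg_right this (norm_nonneg _)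
      _ ≤ C := by rw [one_mul]; exact hvert
  have hs := step_sup (w := w) (U := GK.Uf w) p b hε ht hYeq hsup
  rw [← ha, hUk a, hUk d] at hs
  have hlow : Nrm w Y t p b d 1 ≤ envU (Nrm w Y t p b) d 1 := le_envU hG hwkG one_pos
  have hab : ‖a‖ ≤ C₁ := hC₁ _ a d hwkG hdC (by linarith)
  -- Hm
  have hHm : Hm (Nrm w Y t p b) a 1 ε
      (β - 1 / ((k : ℝ) + 1) - (b - ‖p‖ ^ 2 / 2) + (1 / 36) / 2 * ‖Y‖ ^ 2) := by
    refine ⟨(1 - ε) • a, ?_⟩
    linarith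
  have hg := hC₂ _ a _ hwkG hab (Hm_mono hwk.sol hε hε1.le hHm)
  have hh := hC₃ Y _ hvert (Hp_mono hw.sol ht ht1 (Hp_of_flat ht hwkG))
  refine ⟨Y, p, a, b, hwk, hwkN, ?_, ?_, ?_, ?_, hHm⟩
  · have := le_abs_self C
    have := abs_nonneg C₂
    have := abs_nonneg C₃
    have := abs_nonneg β
    linarith
  · have := abs_nonneg C
    have := abs_nonneg C₂
    have := abs_nonneg C₃
    have := abs_nonneg β
    linarith
  · have h1 := le_abs_self C₂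
    have h2 := le_abs_self C₃
    have h3 := neg_abs_le β
    have h4 := abs_nonneg C
    have h5 : 0 ≤ ‖Y‖ ^ 2 := by positivity
    have h6 := abs_nonneg β
    have h7 := abs_nonneg C₃
    have h8 := abs_nonneg C₂
    rw [abs_le]
    constructor
    · linarith
    · linarith
  · linarith

/-! ### removing the slope -/

/-- `Uf` of `W' + affine in time` -/
theorem envU_shift {G : ℝ → ℝ} (hG : GOK G) {w w' : V → ℝ → ℝ} (hw : Grow G w) {t c : ℝ}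
    (ht : 0 < t) (h : ∀ y, w' y t = w y t + c) (x : V) : envU w' x t = envU w x t + c := by
  obtain ⟨a₀, ha₀⟩ := exists_upper hG ht x
  have hset : {a | ∃ q : V, ∀ y, w' y t ≤ a + ⟪q, y - x⟫_ℝ + ‖y - x‖ ^ 2 / (2 * t)} =
      (fun a => a + c) '' {a | ∃ q : V, ∀ y, w y t ≤ a + ⟪q, y - x⟫_ℝ +
        ‖y - x‖ ^ 2 / (2 * t)} := by
    ext a
    constructor
    · rintro ⟨q, hq⟩
      refine ⟨a - c, ⟨q, fun y => ?_⟩, by simp⟩
      have := hq y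
      rw [h y] at this
      linarith
    · rintro ⟨a', ⟨q, hq⟩, rfl⟩
      refine ⟨q, fun y => ?_⟩
      have := hq y
      rw [h y]
      linarith
  unfold envU
  rw [hset]
  have hne : {a | ∃ q : V, ∀ y, w y t ≤ a + ⟪q, y - x⟫_ℝ + ‖y - x‖ ^ 2 / (2 * t)}.Nonempty :=
    ⟨a₀, 0, ha₀ w hw⟩
  have hbb : BddBelow {a | ∃ q : V, ∀ y, w y t ≤ a + ⟪q, y - x⟫_ℝ + ‖y - x‖ ^ 2 / (2 * t)} := by
    refine ⟨w x t, ?_⟩
    rintro a ⟨q, hq⟩
    simpa using hq x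
  have := (OrderIso.addRight c).map_csInf' hne hbb
  simpa using this.symm

/-- from the state with slope `γ` to the normalised output -/
theorem finish [FiniteDimensional ℝ V] (hN : GK.ClsNrmz_stmt V) {K κ γ : ℝ}
    {W' : V → ℝ → ℝ} {x' : V} (hW' : GK.Cls K W')
    (htouch : envU W' x' 1 = W' x' 1 + κ)
    (hH : ∀ σ, 0 < σ → Hm W' x' 1 σ γ)
    (hM : ∀ η : ℝ, 0 < η → ∃ ε₀ : ℝ, 0 < ε₀ ∧ ∀ t : ℝ, 0 < t → ∀ s : ℝ, 0 < s → s < ε₀ * t →
      ∀ x z, envU W' x t - W' z (t - s) - ‖x - z‖ ^ 2 / (2 * s) ≤ κ * t + (γ + η) * s) :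
    ∃ (W : V → ℝ → ℝ) (x' : V), GK.Cls K W ∧ GK.PropM V κ W ∧ GK.Uf W x' 1 = W x' 1 + κ ∧
      ∀ σ, 0 < σ → Sol.B σ W x' 1 ≤ W x' 1 := by
  obtain ⟨K', hK', hN'⟩ := exists_Nrm hW'
  have hG := GOK_GG hK'
  have hWG : Grow (GG K') W' := grow_GG hN'
  have hW : GK.Cls K (GK.nrmz W' 0 0 1 0 γ) := hN K W' hW' 0 0 1 0 γ one_pos
  have hval : ∀ x t, GK.nrmz W' 0 0 1 0 γ x t = W' x t + (- W' 0 0 - γ * t) := by
    intro x t
    unfold GK.nrmz
    simp only [smul_zero, add_zero, one_smul, zero_add, one_mul, inner_zero_left, sub_zero,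
      div_one]
    ring
  have hUf : ∀ x t, 0 < t → GK.Uf (GK.nrmz W' 0 0 1 0 γ) x t = envU W' x t +
      (- W' 0 0 - γ * t) := by
    intro x t ht
    rw [Uf_eq_envU (hW.sol.grow.qup t) ht]
    exact envU_shift hG hWG ht (fun y => hval y t) x
  refine ⟨GK.nrmz W' 0 0 1 0 γ, x', hW, ?_, ?_, ?_⟩
  · intro η hη
    obtain ⟨ε₀, he0, h1⟩ := hM η hη
    refine ⟨ε₀, he0, fun t ht s hs hst x z => ?_⟩
    have h2 := h1 t ht s hs hst x z
    rw [hUf x t ht, hval]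
    nlinarith
  · rw [hUf x' 1 one_pos, hval, htouch]
    ring
  · intro σ hσ
    obtain ⟨z, hz⟩ := hH σ hσ
    have h1 := Sol.B_le hW.sol.grow hσ x' z 1
    refine h1.trans ?_
    rw [hval, hval]
    nlinarith

/-! ### the limit -/

theorem stageD [FiniteDimensional ℝ V] (hC : GK.StageC_stmt V) (hN : GK.ClsNrmz_stmt V)
    (hCpt : GK.Compact_stmt V) : GK.StageD_stmt V := by
  intro K κ hκ hkap hex
  obtain ⟨w, x₀, hw, htouch⟩ := hex
  obtain ⟨C, hC0, hCC⟩ := hC K κ hκ hkap w x₀ hw htouch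
  obtain ⟨β, hβ, hseq⟩ := exists_slope hCC
  obtain ⟨R, hR⟩ := step_out hN C β hkap hw
  choose ε t x z hS using hseq
  choose Y p a b hNS using fun k => hR k _ _ _ _ (hS k)
  have hK := hw.pos
  obtain ⟨K', hK', hwN⟩ := exists_Nrm hw
  have hG := GOK_GG hK
  have hG' := GOK_GG hK'
  have hwG : Grow (GG K') w := grow_GG hwN
  set F : Ultrafilter ℕ := hyperfilter ℕ with hF
  set wk : ℕ → V → ℝ → ℝ := fun k => Nrm w (Y k) (t k) (p k) (b k) with hwk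
  have hwkG : ∀ k, Grow (GG K) (wk k) := fun k => grow_GG (hNS k).nrm
  obtain ⟨W', hW', hW'N, hJC⟩ := hCpt F K K wk (Eventually.of_forall fun k => (hNS k).cls)
    (Eventually.of_forall fun k => (hNS k).nrm)
  have hLU : LU F wk W' := LU_of_JC hJC hW'.sol.cont
  obtain ⟨x', hx'⟩ := ultra_exists_lim F (x := a) (Eventually.of_forall fun k => (hNS k).ab)
  obtain ⟨Ys, hYs⟩ := ultra_exists_lim F (x := Y) (Eventually.of_forall fun k => (hNS k).Yb)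
  obtain ⟨Hs, hHs⟩ := ultra_exists_lim_real F (x := fun k => b k - ‖p k‖ ^ 2 / 2)
    (Eventually.of_forall fun k => (hNS k).Hb)
  have l0 : Tendsto (fun k : ℕ => 1 / ((k : ℝ) + 1)) (F : Filter ℕ) (𝓝 0) :=
    tendsto_one_div_add_atTop_nhds_zero_nat.mono_left Nat.hyperfilter_le_atTop
  have lt' : Tendsto t (F : Filter ℕ) (𝓝 0) :=
    tendsto_of_tendsto_of_tendsto_of_le_of_le tendsto_const_nhds l0
      (fun k => (hS k).tpos.le) (fun k => (hS k).tsmall.le)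
  have lε : Tendsto ε (F : Filter ℕ) (𝓝 0) := by
    refine tendsto_of_tendsto_of_tendsto_of_le_of_le tendsto_const_nhds l0
      (fun k => (hS k).epos.le) (fun k => (hS k).esmall.le.trans ?_)
    apply one_div_le_one_div_of_le
    · positivity
    · linarith
  set γ : ℕ → ℝ := fun k => β - 1 / ((k : ℝ) + 1) - (b k - ‖p k‖ ^ 2 / 2) +
    (1 / 36) / 2 * ‖Y k‖ ^ 2 with hγ
  set γ₀ : ℝ := β - 0 - Hs + (1 / 36) / 2 * ‖Ys‖ ^ 2 with hγ₀
  have lγ : Tendsto γ (F : Filter ℕ) (𝓝 γ₀) :=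
    ((tendsto_const_nhds.sub l0).sub hHs).add ((hYs.norm.pow 2).const_mul _)
  refine finish hN (γ := γ₀) (x' := x') hW' ?_ ?_ ?_
  · apply le_antisymm
    · have h1 := hkap _ hW' x' 1 1 one_pos
      rw [mul_one] at h1
      rw [← Uf_eq_envU (hW'.sol.grow.qup 1) one_pos]
      exact h1
    · have l1 : Tendsto (fun k => κ + ε k * γ k + wk k ((1 - ε k) • a k) (1 - ε k))
          (F : Filter ℕ) (𝓝 (κ + 0 * γ₀ + W' x' 1)) := by
        have l2 : Tendsto (fun k => 1 - ε k) (F : Filter ℕ) (𝓝 (1 - 0)) :=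
          tendsto_const_nhds.sub lε
        rw [sub_zero] at l2
        have l3 : Tendsto (fun k => (1 - ε k) • a k) (F : Filter ℕ) (𝓝 ((1 : ℝ) • x')) :=
          l2.smul hx'
        rw [one_smul] at l3
        exact (tendsto_const_nhds.add (lε.mul lγ)).add (hJC _ _ _ _ l3 l2)
      rw [zero_mul, add_zero, add_comm] at l1
      exact envU_usc hG hwkG hLU hx' one_pos (Eventually.of_forall fun k => (hNS k).up) l1
  · intro σ hσ
    refine Hm_limit hG hwkG hLU hW'.sol.cont hx' hσ lγ ?_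
    filter_upwards [lε.eventually (gt_mem_nhds hσ)] with k hk
    exact Hm_mono (hNS k).cls.sol (hS k).epos hk.le (hNS k).hm
  · intro η hη
    obtain ⟨ε₀, he0, h1⟩ := hβ η hη
    refine ⟨ε₀, he0, fun T hT s hs hsT X Z => ?_⟩
    have he : 0 < s / T := div_pos hs hT
    have hee : s / T < ε₀ := by rwa [div_lt_iff₀ hT]
    obtain ⟨τ₀, ht0, h2⟩ := h1 (s / T) he hee
    have l1 : Tendsto (fun k => t k * T) (F : Filter ℕ) (𝓝 (0 * T)) := lt'.mul_const T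
    rw [zero_mul] at l1
    have key : ∀ᶠ k in (F : Filter ℕ), envU (wk k) X T ≤ wk k Z (T - s) +
        ‖X - Z‖ ^ 2 / (2 * s) - s * (b k - ‖p k‖ ^ 2 / 2) +
        (s * (1 / 36) / 2) * ‖Y k + t k • (X - (T / s) • (X - Z))‖ ^ 2 + κ * T +
        (β + η) * s := by
      filter_upwards [l1.eventually (gt_mem_nhds ht0)] with k hk
      have htk := (hS k).tpos
      have h3 := h2 (t k * T) (mul_pos htk hT) hk (Y k + t k • (X + T • p k))
        (Y k + t k • (Z + (T - s) • p k))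
      have e1 : s / T * (t k * T) = t k * s := by field_simp
      rw [e1, gkval_nrm w (GK.Uf w) (Y k) htk (p k) (b k) (1 / 36) s T hs X Z,
        NrmU_Uf hw.sol.grow (Y k) htk (p k) (b k) X hT,
        ← envU_nrm hG' hwG hG (Y k) htk (p k) (b k) (hwkG k) hT] at h3
      have h4 : κ * (t k * T) + (β + η) * (t k * s) = t k * (κ * T + (β + η) * s) := by ring
      rw [h4] at h3
      have h5 := le_of_mul_le_mul_left h3 htk
      simp only [hwk]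
      linarith
    have l2 : Tendsto (fun k => wk k Z (T - s) +
        ‖X - Z‖ ^ 2 / (2 * s) - s * (b k - ‖p k‖ ^ 2 / 2) +
        (s * (1 / 36) / 2) * ‖Y k + t k • (X - (T / s) • (X - Z))‖ ^ 2 + κ * T +
        (β + η) * s) (F : Filter ℕ) (𝓝 (W' Z (T - s) +
        ‖X - Z‖ ^ 2 / (2 * s) - s * Hs +
        (s * (1 / 36) / 2) * ‖Ys + (0 : ℝ) • (X - (T / s) • (X - Z))‖ ^ 2 + κ * T +
        (β + η) * s)) := by
      have l3 : Tendsto (fun k => wk k Z (T - s)) (F : Filter ℕ) (𝓝 (W' Z (T - s))) :=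
        hJC _ _ _ _ tendsto_const_nhds tendsto_const_nhds
      have l4 : Tendsto (fun k => Y k + t k • (X - (T / s) • (X - Z))) (F : Filter ℕ)
          (𝓝 (Ys + (0 : ℝ) • (X - (T / s) • (X - Z)))) := hYs.add (lt'.smul_const _)
      exact (((((l3.add_const _).sub (hHs.const_mul s)).add ((l4.norm.pow 2).const_mul _)).add_const
        _).add_const _)
    have h3 := envU_lsc hG hwkG hLU hT key l2
    rw [zero_smul, add_zero] at h3
    rw [hγ₀]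
    linarith

end Crest.Agent.R094.StageD
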