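import Crest.Agent.R094.StageC
import Crest.Agent.R094.StageD
import Crest.Agent.R094.FlatCpt_Mg
import Crest.Agent.R094.Cones
import Mathlib
import Crest.Prelude.Def_InfHarmonic
import Crest.Agent.R094.Flat
import Crest.Agent.R094.SolDefs
import Crest.Agent.R094.Iface
import Crest.Agent.R094.Select

-- ▼ part R094/StageCLow
section

/-! Row 94: the lower bound `κ - C s ≤ V_s(1+s)` of the first stage (helper330), hence `StageC_stmt`. -/

set_option autoImplicit false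
set_option linter.unusedSectionVars false

namespace Crest.Agent.R094.CLow

open Sol Set Filter Topology GK

variable {V : Type*} [NormedAddCommGroup V] [InnerProductSpace ℝ V] [FiniteDimensional ℝ V]

theorem nsq_le_two (a b : V) : ‖a - b‖ ^ 2 ≤ 2 * ‖a‖ ^ 2 + 2 * ‖b‖ ^ 2 := by
  have h1 := norm_sub_sq_real a b
  have h2 := norm_add_sq_real a b
  have h3 : 0 ≤ ‖a + b‖ ^ 2 := by positivity
  linarith

theorem nsq_add_le_two (a b : V) : ‖a + b‖ ^ 2 ≤ 2 * ‖a‖ ^ 2 + 2 * ‖b‖ ^ 2 := by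
  have := nsq_le_two a (-b)
  rwa [sub_neg_eq_add, norm_neg] at this

/-- one-sided Lipschitz bound in time of a sub-function which is semiconcave in space. -/
theorem time_lower {U : V → ℝ → ℝ} (hU : SubPos U)
    (hconc : ∀ t, 0 < t → ConcaveOn ℝ univ (fun x => U x t - ‖x‖ ^ 2 / (2 * t))) (x₀ : V) :
    ∃ C, 0 ≤ C ∧ ∃ M, 0 ≤ M ∧ ∀ s, 0 < s → s ≤ 1 / 2 → ∃ x ν : V, x = x₀ + s • ν ∧
      ‖ν‖ ^ 2 ≤ M ∧ U x₀ 1 - C * s ≤ U x (1 + s) - s * ‖ν‖ ^ 2 / 2 := by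
  obtain ⟨C, hC⟩ := hU.grow 2 (1 / 14) (by norm_num)
  have hCn : 0 ≤ C := by
    have := (abs_nonneg _).trans (hC 0 1 (by norm_num) (by norm_num))
    simpa using this
  set M := 2 * ‖x₀‖ ^ 2 + 8 * C with hM
  have hMn : 0 ≤ M := by positivity
  have hqup : ∀ t, 0 < t → QUp (fun y => U y t) := by
    intro t ht ε hε
    obtain ⟨C', hC'⟩ := hU.grow t ε hε
    exact ⟨C', fun y => (abs_le.mp (hC' y t ht le_rfl)).2⟩
  refine ⟨2 * ((2 * ‖x₀‖ ^ 2 + M / 2) / 14 + C + M / 4 + ‖x₀‖ ^ 2 / 14 + C), by positivity,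
    M, hMn, ?_⟩
  intro s hs hs2
  have h1s : 0 < 1 + s := by linarith
  obtain ⟨x, hx⟩ := exists_supc (CUpB.SubPos.cont_slice hU h1s) (hqup _ h1s) hs x₀
  set ν := (1 / s) • (x - x₀) with hν
  have hxe : x = x₀ + s • ν := by
    rw [hν, smul_smul, mul_one_div, div_self hs.ne', one_smul]; abel
  -- supergradient
  have hsg : SupGrad (1 + s) (fun y => U y (1 + s)) x ν := by
    refine CUpB.supGrad_of_quad (M := 1 / (2 * s)) h1s (hconc _ h1s) fun ξ => ?_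
    have h := le_supc (hqup _ h1s) hs x₀ (x + ξ)
    rw [hx] at h
    have e1 : x₀ - (x + ξ) = (x₀ - x) - ξ := by abel
    rw [e1, norm_sub_sq_real (x₀ - x) ξ] at h
    have e2 : inner ℝ ν ξ = - (inner ℝ (x₀ - x) ξ) / s := by
      rw [hν, real_inner_smul_left, ← neg_sub x₀ x, inner_neg_left]; ring
    rw [e2]
    have e3 : (‖x₀ - x‖ ^ 2 - 2 * inner ℝ (x₀ - x) ξ + ‖ξ‖ ^ 2) / (2 * s)
        = ‖x₀ - x‖ ^ 2 / (2 * s) - inner ℝ (x₀ - x) ξ / s + 1 / (2 * s) * ‖ξ‖ ^ 2 := by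
      field_simp
    rw [e3] at h
    have e4 : - (inner ℝ (x₀ - x) ξ) / s = - (inner ℝ (x₀ - x) ξ / s) := by ring
    rw [e4]
    linarith
  -- bound of ν
  have hνb : ‖ν‖ ^ 2 ≤ M := by
    have h := hsg (-ν)
    simp only at h
    rw [inner_neg_right, real_inner_self_eq_norm_sq, norm_neg] at h
    have h1 : ‖ν‖ ^ 2 / (2 * (1 + s)) ≤ ‖ν‖ ^ 2 / 2 := by
      apply div_le_div_of_nonneg_left (by positivity) (by norm_num) (by linarith)
    have h2 := (abs_le.mp (hC x (1 + s) h1s (by linarith))).2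
    have h3 := (abs_le.mp (hC (x + -ν) (1 + s) h1s (by linarith))).1
    have h4 : ‖x + -ν‖ ^ 2 ≤ 2 * ‖x‖ ^ 2 + 2 * ‖ν‖ ^ 2 := by
      have := nsq_add_le_two x (-ν)
      rwa [norm_neg] at this
    have h5 : ‖x‖ ^ 2 ≤ 2 * ‖x₀‖ ^ 2 + ‖ν‖ ^ 2 / 2 := by
      have h6 := nsq_add_le_two x₀ (s • ν)
      rw [← hxe, norm_smul, mul_pow, Real.norm_eq_abs, sq_abs] at h6
      have h7 : s ^ 2 * ‖ν‖ ^ 2 ≤ (1 / 2) ^ 2 * ‖ν‖ ^ 2 := by gcongr
      linarith
    rw [hM]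
    linarith [sq_nonneg ‖x₀‖]
  refine ⟨x, ν, hxe, hνb, ?_⟩
  -- base point
  set b := x₀ - (1 / 2 : ℝ) • ν with hb
  have hT2 : T (1 / 2 + s) U b (1 / 2) ≤ U x (1 + s) - (1 / 2 + s) * ‖ν‖ ^ 2 / 2 := by
    rw [T_eq]
    refine supc_le fun y => ?_
    obtain ⟨ξ, rfl⟩ : ∃ ξ, y = x + ξ := ⟨y - x, by abel⟩
    have e1 : (1:ℝ) / 2 + (1 / 2 + s) = 1 + s := by ring
    have e2 : b - (x + ξ) = -((1 / 2 + s) • ν + ξ) := by
      rw [hb, hxe]; module
    rw [e1, e2, norm_neg, norm_add_sq_real, real_inner_smul_left, norm_smul, mul_pow,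
      Real.norm_eq_abs, sq_abs]
    have h := hsg ξ
    simp only at h
    have h1 : ‖ξ‖ ^ 2 / (2 * (1 + s)) ≤ ‖ξ‖ ^ 2 / (2 * (1 / 2 + s)) := by
      apply div_le_div_of_nonneg_left (by positivity) (by positivity) (by linarith)
    have e3 : ((1 / 2 + s) ^ 2 * ‖ν‖ ^ 2 + 2 * ((1 / 2 + s) * inner ℝ ν ξ) + ‖ξ‖ ^ 2)
        / (2 * (1 / 2 + s)) = (1 / 2 + s) * ‖ν‖ ^ 2 / 2 + inner ℝ ν ξ
          + ‖ξ‖ ^ 2 / (2 * (1 / 2 + s)) := by
      have : (1 / 2 + s) ≠ 0 := by positivity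
      field_simp
    rw [e3]
    linarith
  have hT1 : U x₀ 1 - ‖ν‖ ^ 2 / 4 ≤ T (1 / 2) U b (1 / 2) := by
    rw [T_eq]
    have e1 : (1:ℝ) / 2 + 1 / 2 = 1 := by norm_num
    rw [e1]
    have h := le_supc (hqup 1 one_pos) (by norm_num : (0:ℝ) < 1 / 2) b x₀
    have e2 : b - x₀ = -((1 / 2 : ℝ) • ν) := by rw [hb]; abel
    rw [e2, norm_neg, norm_smul, mul_pow, Real.norm_eq_abs, sq_abs] at h
    have e3 : ((1:ℝ) / 2) ^ 2 * ‖ν‖ ^ 2 / (2 * (1 / 2)) = ‖ν‖ ^ 2 / 4 := by ring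
    rw [e3] at h
    exact h
  have hsub := hU.sub b (1 / 2) (1 / 2) (1 / 2 + s) (by norm_num) (by norm_num) (by linarith)
  have hp : 0 < 1 / 2 + s := by linarith
  have hsub2 : (1 / 2 + s) * T (1 / 2) U b (1 / 2)
      ≤ s * U b (1 / 2) + 1 / 2 * T (1 / 2 + s) U b (1 / 2) := by
    have h := mul_le_mul_of_nonneg_left hsub hp.le
    have e : (1 / 2 + s) * ((1 - 1 / 2 / (1 / 2 + s)) * U b (1 / 2)
        + 1 / 2 / (1 / 2 + s) * T (1 / 2 + s) U b (1 / 2))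
        = s * U b (1 / 2) + 1 / 2 * T (1 / 2 + s) U b (1 / 2) := by
      field_simp; ring
    rwa [e] at h
  have hUb := (abs_le.mp (hC b (1 / 2) (by norm_num) (by norm_num))).2
  have hU0 := (abs_le.mp (hC x₀ 1 (by norm_num) (by norm_num))).1
  have hbn : ‖b‖ ^ 2 ≤ 2 * ‖x₀‖ ^ 2 + M / 2 := by
    have h6 := nsq_le_two x₀ ((1 / 2 : ℝ) • ν)
    rw [← hb, norm_smul, mul_pow, Real.norm_eq_abs, sq_abs] at h6
    linarith
  have h10 : (1 / 2 + s) * (U x₀ 1 - ‖ν‖ ^ 2 / 4) ≤ (1 / 2 + s) * T (1 / 2) U b (1 / 2) :=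
    mul_le_mul_of_nonneg_left hT1 hp.le
  -- U x (1+s) - s|ν|²/2 ≥ U x₀ 1 - 2 s (U b + |ν|²/4 - U x₀ 1)
  have h11 : U x₀ 1 - 2 * s * (U b (1 / 2) + ‖ν‖ ^ 2 / 4 - U x₀ 1)
      ≤ U x (1 + s) - s * ‖ν‖ ^ 2 / 2 := by
    nlinarith
  have h12 : U b (1 / 2) + ‖ν‖ ^ 2 / 4 - U x₀ 1
      ≤ (2 * ‖x₀‖ ^ 2 + M / 2) / 14 + C + M / 4 + ‖x₀‖ ^ 2 / 14 + C := by
    linarith
  have h13 := mul_le_mul_of_nonneg_left h12 (by positivity : 0 ≤ 2 * s)
  linarith

/-- the lower bound of the first stage -/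
theorem stageC_low : ∀ K κ : ℝ, 0 < κ → IsKap V K κ → ∀ (w : V → ℝ → ℝ) (x₀ : V), Cls K w →
    Uf w x₀ 1 = w x₀ 1 + κ → ∃ C, 0 ≤ C ∧ ∀ s, 0 < s → s ≤ 1 / 2 →
      κ - C * s ≤ Vf (Uf w) w (1 / 36) 0 s (1 + s) := by
  intro K κ _ _ w x₀ hw htouch
  have hU : SubPos (Uf w) := EnvSub K w hw
  obtain ⟨C, hC, M, hM, h⟩ := time_lower hU (fun t ht => CUpB.concaveOn_Uf hw.sol.grow ht) x₀
  refine ⟨C + (2 * ‖x₀‖ ^ 2 + 2 * M) / 72, by positivity, ?_⟩
  intro s hs hs2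
  obtain ⟨x, ν, hxe, hνb, h1⟩ := h s hs hs2
  have hle : val (Uf w) w (1 / 36) 0 s (1 + s) x x₀ ≤ Vf (Uf w) w (1 / 36) 0 s (1 + s) :=
    le_ciSup (bddAbove_val hU hw.sol.grow 0 (by norm_num : (0:ℝ) < 1 / 36) hs
      (by linarith : 0 < 1 + s)) ((x, x₀) : V × V)
  refine le_trans ?_ hle
  unfold val Phi
  have e1 : x - x₀ = s • ν := by rw [hxe]; abel
  have e2 : x - ((1 + s) / s) • (x - x₀) - 0 = x₀ - ν := by
    rw [e1, smul_smul, hxe, div_mul_cancel₀ _ hs.ne']; module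
  have e3 : (1 + s) - s = 1 := by ring
  rw [e2, e1, e3, norm_smul, mul_pow, Real.norm_eq_abs, sq_abs]
  have e4 : s ^ 2 * ‖ν‖ ^ 2 / (2 * s) = s * ‖ν‖ ^ 2 / 2 := by field_simp
  rw [e4]
  have h2 := nsq_le_two x₀ ν
  have h3 : s * (1 / 36) / 2 * ‖x₀ - ν‖ ^ 2 ≤ s * (1 / 36) / 2 * (2 * ‖x₀‖ ^ 2 + 2 * M) := by
    gcongr
    linarith
  rw [htouch] at h1
  nlinarith

theorem stageC : StageC_stmt V := stageC_of_low stageC_low

end Crest.Agent.R094.CLow
end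

-- ▼ part R094/TheoremL
section

/-! Row 94 (S0124): assembly of Theorem L (every member of the flat class is affine). -/

set_option autoImplicit false

namespace Crest.Agent.R094.GK

variable (V : Type*) [NormedAddCommGroup V] [InnerProductSpace ℝ V] [FiniteDimensional ℝ V]

/-- Theorem L -/
theorem theoremL : Liouville V :=
  liouville_of_stages
    (Extremal FlatCpt.compact ClsNrmz)
    (affineOfNoDefect ClsRev)
    (StageD.stageD CLow.stageC ClsNrmz FlatCpt.compact)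
    (stageE_iface propC CUpB.VfAttained EnvSub)
    (StageF FlatCpt.compact)

end Crest.Agent.R094.GK
end

-- ▼ part R094/StaticSub
section

/-!
Row 94: static infinity-harmonic functions, their boosts and rescalings satisfy the convexity
inequality `(Sub)` exactly (pointwise, local form).
-/

set_option autoImplicit false
open scoped Topology RealInnerProductSpace
open Set Filter Metric

namespace Crest.Agent.R094.Cones

variable {ι : Type*} [Fintype ι]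

local notation "E" => EuclideanSpace ℝ ι

theorem sub_static {u : E → ℝ} {Ω : Set E} (hu : CC u Ω) {x y : E} {s s' : ℝ} (hs : 0 < s)
    (hss : s ≤ s') (h : closedBall x (s' / s * ‖y - x‖) ⊆ Ω) :
    ∃ y' ∈ closedBall x (s' / s * ‖y - x‖),
      u y - ‖y - x‖ ^ 2 / (2 * s)
        ≤ (1 - s / s') * u x + s / s' * (u y' - ‖y' - x‖ ^ 2 / (2 * s')) := by
  have hs' : 0 < s' := hs.trans_le hss
  by_cases hyx : y = x
  · subst hyx
    refine ⟨y, by simp, ?_⟩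
    simp
    nlinarith [show (1 - s / s') * u y + s / s' * u y = u y by ring]
  set r := ‖y - x‖ with hr
  have hr0 : 0 < r := norm_pos_iff.2 (sub_ne_zero.2 hyx)
  set R := s' / s * r with hR
  have hR0 : 0 < R := by positivity
  have hrR : r ≤ R := by
    rw [hR]
    have : 1 ≤ s' / s := (one_le_div hs).2 hss
    nlinarith
  obtain ⟨y', hy', h1, _⟩ := Mx_exists hu.cont hR0.le h
  refine ⟨y', hy', ?_⟩
  have h2 := hu.slope_le hr0.le hrR hR0 h
  have h3 : u y ≤ Mx u x r := le_Mx hu.cont ((closedBall_subset_closedBall hrR).trans h)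
    (by rw [mem_closedBall, dist_eq_norm])
  have hrr : r / R = s / s' := by
    rw [hR]; field_simp
  rw [hrr, ← h1] at h2
  have h4 : ‖y' - x‖ ≤ R := by simpa [dist_eq_norm] using hy'
  have h5 : s / s' * (‖y' - x‖ ^ 2 / (2 * s')) ≤ r ^ 2 / (2 * s) := by
    calc s / s' * (‖y' - x‖ ^ 2 / (2 * s')) ≤ s / s' * (R ^ 2 / (2 * s')) := by gcongr
      _ = r ^ 2 / (2 * s) := by rw [hR]; field_simp
  have : (1 - s / s') * u x + s / s' * (u y' - ‖y' - x‖ ^ 2 / (2 * s'))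
      = (1 - s / s') * u x + s / s' * u y' - s / s' * (‖y' - x‖ ^ 2 / (2 * s')) := by ring
  rw [this]
  linarith

/-- boosted, rescaled static function -/
noncomputable def bst (u : E → ℝ) (x0 p : E) (σ τ η b : ℝ) (x : E) (t : ℝ) : ℝ :=
  (u (x0 + σ • x + (τ * t) • p) - u x0 - σ * ⟪p, x⟫ - τ * b * t) / η

theorem sub_boost {u : E → ℝ} {Ω : Set E} (hu : CC u Ω) {x0 p : E} {σ τ η b : ℝ} (hσ : 0 < σ)
    (hτ : 0 < τ) (hη : 0 < η) (hst : σ ^ 2 = η * τ) {x y : E} {t s s' : ℝ} (hs : 0 < s)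
    (hss : s ≤ s')
    (h : closedBall (x0 + σ • x + (τ * t) • p) (s' / s * ‖σ • (y - x) + (τ * s) • p‖) ⊆ Ω) :
    ∃ y' : E, ‖σ • (y' - x) + (τ * s') • p‖ ≤ s' / s * ‖σ • (y - x) + (τ * s) • p‖ ∧
      bst u x0 p σ τ η b y (t + s) - ‖y - x‖ ^ 2 / (2 * s)
        ≤ (1 - s / s') * bst u x0 p σ τ η b x t
          + s / s' * (bst u x0 p σ τ η b y' (t + s') - ‖y' - x‖ ^ 2 / (2 * s')) := by
  have hs' : 0 < s' := hs.trans_le hss
  set xh : E := x0 + σ • x + (τ * t) • p with hxh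
  set yh : E := x0 + σ • y + (τ * (t + s)) • p with hyh
  have hyx : yh - xh = σ • (y - x) + (τ * s) • p := by
    rw [hxh, hyh, smul_sub, mul_add, add_smul]; abel
  have hsτ : τ * s' / (τ * s) = s' / s := by field_simp
  have h' : closedBall xh (τ * s' / (τ * s) * ‖yh - xh‖) ⊆ Ω := by
    rw [hsτ, hyx]; exact h
  obtain ⟨z, hz, hineq⟩ := sub_static hu (by positivity : 0 < τ * s)
    (by gcongr : τ * s ≤ τ * s') h'
  -- the new point
  set y' : E := x + σ⁻¹ • (z - xh - (τ * s') • p) with hy'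
  have hzy : σ • (y' - x) + (τ * s') • p = z - xh := by
    rw [hy', add_sub_cancel_left, smul_smul, mul_inv_cancel₀ hσ.ne', one_smul]; abel
  have hz2 : z = x0 + σ • y' + (τ * (t + s')) • p := by
    have : z = (σ • (y' - x) + (τ * s') • p) + xh := by rw [hzy]; abel
    rw [this, hxh, smul_sub, mul_add, add_smul]; abel
  refine ⟨y', ?_, ?_⟩
  · rw [hzy, ← hyx, ← hsτ]
    simpa [dist_eq_norm] using hz
  · have expand : ∀ (v : E) (q : ℝ), 0 < q →
        ‖σ • v + (τ * q) • p‖ ^ 2 / (2 * (τ * q))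
          = η * (‖v‖ ^ 2 / (2 * q)) + σ * ⟪p, v⟫ + τ * q * ‖p‖ ^ 2 / 2 := by
      intro v q hq
      rw [norm_add_sq_real, norm_smul, norm_smul, inner_smul_left, inner_smul_right,
        Real.norm_of_nonneg hσ.le, Real.norm_of_nonneg (by positivity : 0 ≤ τ * q), mul_pow, mul_pow,
        hst, real_inner_comm]
      simp only [conj_trivial]
      field_simp
    have e1 := expand (y - x) s hs
    have e2 := expand (y' - x) s' hs'
    rw [hyx, e1, ← hzy, e2] at hineq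
    have b1 : u yh = η * bst u x0 p σ τ η b y (t + s) + u x0 + σ * ⟪p, y⟫ + τ * b * (t + s) := by
      unfold bst; rw [← hyh]; field_simp; ring
    have b2 : u xh = η * bst u x0 p σ τ η b x t + u x0 + σ * ⟪p, x⟫ + τ * b * t := by
      unfold bst; rw [← hxh]; field_simp; ring
    have b3 : u z = η * bst u x0 p σ τ η b y' (t + s') + u x0 + σ * ⟪p, y'⟫
        + τ * b * (t + s') := by
      unfold bst; rw [← hz2]; field_simp; ring
    have hq : τ * s / (τ * s') = s / s' := by field_simp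
    rw [b1, b2, b3, hq, inner_sub_right, inner_sub_right] at hineq
    have hs1 : s / s' * s' = s := by field_simp
    set W1 := bst u x0 p σ τ η b y (t + s)
    set W2 := bst u x0 p σ τ η b x t
    set W3 := bst u x0 p σ τ η b y' (t + s')
    set q := s / s' with hqdef
    set N1 := ‖y - x‖ ^ 2 / (2 * s)
    set N3 := ‖y' - x‖ ^ 2 / (2 * s')
    have hfin : η * (W1 - N1) ≤ η * ((1 - q) * W2 + q * (W3 - N3)) := by
      have hsq : s = q * s' := hs1.symm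
      linear_combination hineq - (τ * b - τ * ‖p‖ ^ 2 / 2) * hsq
    exact le_of_mul_le_mul_left hfin hη


end Crest.Agent.R094.Cones
end

-- ▼ part R094/S2Slope
section

set_option autoImplicit false

namespace Crest.Agent.R094.S2

open Real

variable {V : Type*} [NormedAddCommGroup V] [InnerProductSpace ℝ V]

/-- `w` is `η`-close to an affine function of slope `(p,b)` on the box of size `τ` moving with
velocity `p`, centred at `(x0,t0)`. -/
def FB (w : V → ℝ → ℝ) (x0 : V) (t0 : ℝ) (p : V) (b τ η : ℝ) : Prop :=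
  ∀ (x : V) (t : ℝ), |t| ≤ τ → ‖x‖ ≤ τ →
    |w (x0 + t • p + x) (t0 + t) - w x0 t0 - inner ℝ p x - b * t| ≤ η

lemma FB.mono {w : V → ℝ → ℝ} {x0 : V} {t0 : ℝ} {p : V} {b τ η τ' η' : ℝ}
    (h : FB w x0 t0 p b τ η) (hτ : τ' ≤ τ) (hη : η ≤ η') : FB w x0 t0 p b τ' η' :=
  fun x t ht hx => (h x t (ht.trans hτ) (hx.trans hτ)).trans hη

lemma FB.nonneg {w : V → ℝ → ℝ} {x0 : V} {t0 : ℝ} {p : V} {b τ η : ℝ}
    (h : FB w x0 t0 p b τ η) (hτ : 0 ≤ τ) : 0 ≤ η := by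
  have := h 0 0 (by simpa using hτ) (by simpa using hτ)
  exact (abs_nonneg _).trans this

lemma FB.compare_p {w : V → ℝ → ℝ} {x0 : V} {t0 : ℝ} {p p' : V} {b b' τ τ' η η' : ℝ}
    (h : FB w x0 t0 p b τ η) (h' : FB w x0 t0 p' b' τ' η') (hτ : 0 < τ) (hττ : τ ≤ τ') :
    ‖p - p'‖ ≤ (η + η') / τ := by
  rw [le_div_iff₀ hτ]
  by_cases hpp : p - p' = 0
  · rw [hpp, norm_zero, zero_mul]
    exact add_nonneg (h.nonneg hτ.le) (h'.nonneg (hτ.le.trans hττ))
  · have hn : 0 < ‖p - p'‖ := norm_pos_iff.2 hpp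
    set x : V := (τ / ‖p - p'‖) • (p - p') with hx
    have hxn : ‖x‖ = τ := by
      rw [hx, norm_smul, Real.norm_of_nonneg (by positivity)]
      field_simp
    have e1 := h x 0 (by simpa using hτ.le) hxn.le
    have e2 := h' x 0 (by simpa using hτ.le.trans hττ) (hxn.le.trans hττ)
    simp only [zero_smul, add_zero, mul_zero, sub_zero] at e1 e2
    have hi : inner ℝ (p - p') x = ‖p - p'‖ * τ := by
      rw [hx, inner_smul_right, real_inner_self_eq_norm_sq]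
      field_simp
    have hi2 : inner ℝ (p - p') x = inner ℝ p x - inner ℝ p' x := inner_sub_left _ _ _
    rw [abs_le] at e1 e2
    nlinarith [e1.1, e1.2, e2.1, e2.2]

/-- the "Hamiltonian" `b - |p|^2/2` of a slope. -/
noncomputable def ham (p : V) (b : ℝ) : ℝ := b - ‖p‖ ^ 2 / 2

lemma FB.compare_h {w : V → ℝ → ℝ} {x0 : V} {t0 : ℝ} {p p' : V} {b b' τ τ' η η' : ℝ}
    (h : FB w x0 t0 p b τ η) (h' : FB w x0 t0 p' b' τ' η') (hτ : 0 < τ) (hττ : τ ≤ τ') :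
    |ham p b - ham p' b'| ≤
      ‖p - p'‖ ^ 2 / 2 + (η + η') / τ * (1 + ‖p - p'‖) := by
  set m : ℝ := ‖p - p'‖ with hm
  have hm0 : 0 ≤ m := norm_nonneg _
  set t : ℝ := τ / (1 + m) with ht
  have ht0 : 0 < t := by positivity
  have htτ : t ≤ τ := div_le_self hτ.le (by linarith)
  have e1 := h 0 t (by rw [abs_of_pos ht0]; exact htτ) (by simpa using hτ.le)
  have hxn : ‖t • (p - p')‖ ≤ τ' := by
    rw [norm_smul, Real.norm_of_nonneg ht0.le, ← hm]
    calc t * m ≤ t * (1 + m) := by nlinarith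
      _ = τ := by rw [ht]; field_simp
      _ ≤ τ' := hττ
  have e2 := h' (t • (p - p')) t (by rw [abs_of_pos ht0]; exact htτ.trans hττ) hxn
  have hpt : x0 + t • p' + t • (p - p') = x0 + t • p + 0 := by
    rw [smul_sub]; abel
  rw [hpt] at e2
  rw [inner_zero_right] at e1
  rw [inner_smul_right] at e2
  have hid : ham p b - ham p' b' = (b - b' - inner ℝ p' (p - p')) - m ^ 2 / 2 := by
    have h1 : m ^ 2 = ‖p‖ ^ 2 - 2 * inner ℝ p p' + ‖p'‖ ^ 2 := by
      rw [hm]; exact norm_sub_sq_real p p'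
    have h2 : inner ℝ p' (p - p') = inner ℝ p p' - ‖p'‖ ^ 2 := by
      rw [inner_sub_right, real_inner_self_eq_norm_sq, real_inner_comm]
    unfold ham
    rw [h1, h2]; ring
  have hb : |b - b' - inner ℝ p' (p - p')| ≤ (η + η') / τ * (1 + m) := by
    have h3 : |t * (b - b' - inner ℝ p' (p - p'))| ≤ η + η' := by
      rw [abs_le] at e1 e2 ⊢
      constructor <;> nlinarith [e1.1, e1.2, e2.1, e2.2]
    rw [abs_mul, abs_of_pos ht0] at h3
    have h4 : (η + η') / τ * (1 + m) = (η + η') / t := by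
      rw [ht]; field_simp
    rw [h4, le_div_iff₀ ht0]
    linarith
  rw [hid]
  calc |b - b' - inner ℝ p' (p - p') - m ^ 2 / 2|
      ≤ |b - b' - inner ℝ p' (p - p')| + |m ^ 2 / 2| := abs_sub _ _
    _ ≤ (η + η') / τ * (1 + m) + m ^ 2 / 2 := by
        apply add_le_add hb
        rw [abs_of_nonneg (by positivity)]
    _ = _ := by ring

/-! numerical facts -/

lemma half_rpow_eighth : ((1:ℝ)/2) ^ ((1:ℝ)/8) ≤ 37/40 := by
  have h : ((1:ℝ)/2) ≤ ((37:ℝ)/40) ^ (8:ℕ) := by norm_num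
  calc ((1:ℝ)/2) ^ ((1:ℝ)/8) ≤ (((37:ℝ)/40) ^ (8:ℕ)) ^ ((1:ℝ)/8) :=
        Real.rpow_le_rpow (by norm_num) h (by norm_num)
    _ = 37/40 := by
        rw [← Real.rpow_natCast, ← Real.rpow_mul (by norm_num)]
        norm_num

lemma half_rpow_quarter : ((1:ℝ)/2) ^ ((1:ℝ)/4) ≤ 17/20 := by
  have h : ((1:ℝ)/2) ≤ ((17:ℝ)/20) ^ (4:ℕ) := by norm_num
  calc ((1:ℝ)/2) ^ ((1:ℝ)/4) ≤ (((17:ℝ)/20) ^ (4:ℕ)) ^ ((1:ℝ)/4) :=
        Real.rpow_le_rpow (by norm_num) h (by norm_num)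
    _ = 17/20 := by
        rw [← Real.rpow_natCast, ← Real.rpow_mul (by norm_num)]
        norm_num

lemma rpow_nine_eighths {s : ℝ} (hs : 0 < s) : s ^ ((9:ℝ)/8) = s * s ^ ((1:ℝ)/8) := by
  rw [show ((9:ℝ)/8) = 1 + 1/8 by norm_num, Real.rpow_add hs, Real.rpow_one]

lemma rpow_quarter {s : ℝ} (hs : 0 < s) : s ^ ((1:ℝ)/4) = s ^ ((1:ℝ)/8) * s ^ ((1:ℝ)/8) := by
  rw [← Real.rpow_add hs]; norm_num

/-- constants -/
noncomputable def c1 (A : ℝ) : ℝ := 50 * A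
noncomputable def c2 (A : ℝ) : ℝ := 24 * A + 144 * A ^ 2

/-- Drift of slopes along scales. -/
lemma drift {w : V → ℝ → ℝ} {x0 : V} {t0 : ℝ} {P : ℝ → V} {B : ℝ → ℝ} {τ A Λ : ℝ}
    (hτ : 0 < τ) (hA : 0 ≤ A)
    (h : ∀ s, 1 ≤ s → s ≤ Λ → FB w x0 t0 (P s) (B s) (s * τ) (A * τ * s ^ ((9:ℝ)/8))) (n : ℕ) :
    ∀ s, 1 ≤ s → s ≤ Λ → s ≤ 2 ^ n →
      ‖P s - P 1‖ ≤ c1 A * s ^ ((1:ℝ)/8) ∧
      |ham (P s) (B s) - ham (P 1) (B 1)| ≤ c2 A * s ^ ((1:ℝ)/4) := by
  -- basic comparison of `s` and `s'` with `s ≤ s' ≤ 2 s`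
  have comp : ∀ s s', 1 ≤ s → s ≤ s' → s' ≤ 2 * s → s' ≤ Λ →
      ‖P s' - P s‖ ≤ 4 * A * s ^ ((1:ℝ)/8) ∧
      |ham (P s') (B s') - ham (P s) (B s)| ≤ 4 * A * s ^ ((1:ℝ)/8) + 24 * A ^ 2 * s ^ ((1:ℝ)/4) := by
    intro s s' hs hss' hs'2 hs'Λ
    have hs0 : 0 < s := by linarith
    have hs'0 : 0 < s' := by linarith
    have F := h s hs (hss'.trans hs'Λ)
    have F' := h s' (hs.trans hss') hs'Λ
    have hsτ : 0 < s * τ := by positivity
    have hle : s * τ ≤ s' * τ := by nlinarith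
    have cp := F.compare_p F' hsτ hle
    have ch := F.compare_h F' hsτ hle
    -- bound of delta
    have hx0 : 0 ≤ s ^ ((1:ℝ)/8) := by positivity
    have hs'18 : s' ^ ((1:ℝ)/8) ≤ 5/4 * s ^ ((1:ℝ)/8) := by
      calc s' ^ ((1:ℝ)/8) ≤ (2 * s) ^ ((1:ℝ)/8) := Real.rpow_le_rpow hs'0.le hs'2 (by norm_num)
        _ = 2 ^ ((1:ℝ)/8) * s ^ ((1:ℝ)/8) := Real.mul_rpow (by norm_num) hs0.le
        _ ≤ 5/4 * s ^ ((1:ℝ)/8) := by
            apply mul_le_mul_of_nonneg_right _ hx0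
            have h2 : (2:ℝ) ≤ ((5:ℝ)/4) ^ (8:ℕ) := by norm_num
            calc (2:ℝ) ^ ((1:ℝ)/8) ≤ (((5:ℝ)/4) ^ (8:ℕ)) ^ ((1:ℝ)/8) :=
                  Real.rpow_le_rpow (by norm_num) h2 (by norm_num)
              _ = 5/4 := by
                  rw [← Real.rpow_natCast, ← Real.rpow_mul (by norm_num)]
                  norm_num
    have hδ : (A * τ * s ^ ((9:ℝ)/8) + A * τ * s' ^ ((9:ℝ)/8)) / (s * τ) ≤
        4 * A * s ^ ((1:ℝ)/8) := by
      rw [div_le_iff₀ hsτ, rpow_nine_eighths hs0, rpow_nine_eighths hs'0]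
      have : s' * s' ^ ((1:ℝ)/8) ≤ (2 * s) * (5/4 * s ^ ((1:ℝ)/8)) :=
        mul_le_mul hs'2 hs'18 (by positivity) (by positivity)
      have hAt : 0 ≤ A * τ := by positivity
      nlinarith [mul_le_mul_of_nonneg_left this hAt, mul_nonneg hAt (mul_nonneg hs0.le hx0)]
    have hP : ‖P s - P s'‖ ≤ 4 * A * s ^ ((1:ℝ)/8) := cp.trans hδ
    refine ⟨by rw [norm_sub_rev]; exact hP, ?_⟩
    rw [abs_sub_comm]
    have hn0 : 0 ≤ ‖P s - P s'‖ := norm_nonneg _
    have hδ0 : 0 ≤ (A * τ * s ^ ((9:ℝ)/8) + A * τ * s' ^ ((9:ℝ)/8)) / (s * τ) := by positivity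
    calc |ham (P s) (B s) - ham (P s') (B s')| ≤ _ := ch
      _ ≤ (4 * A * s ^ ((1:ℝ)/8)) ^ 2 / 2 +
            (4 * A * s ^ ((1:ℝ)/8)) * (1 + 4 * A * s ^ ((1:ℝ)/8)) := by
          have e1 : ‖P s - P s'‖ ^ 2 ≤ (4 * A * s ^ ((1:ℝ)/8)) ^ 2 :=
            pow_le_pow_left₀ hn0 hP 2
          have e2 : (A * τ * s ^ ((9:ℝ)/8) + A * τ * s' ^ ((9:ℝ)/8)) / (s * τ) *
              (1 + ‖P s - P s'‖) ≤ (4 * A * s ^ ((1:ℝ)/8)) * (1 + 4 * A * s ^ ((1:ℝ)/8)) := by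
            apply mul_le_mul hδ (by linarith) (by positivity) (by positivity)
          linarith
      _ = 4 * A * s ^ ((1:ℝ)/8) + 24 * A ^ 2 * s ^ ((1:ℝ)/4) := by
          rw [rpow_quarter hs0]; ring
  induction n with
  | zero =>
    intro s hs hsΛ hs1
    have : s = 1 := le_antisymm (by simpa using hs1) hs
    subst this
    simp only [sub_self, norm_zero, abs_zero]
    unfold c1 c2
    exact ⟨by positivity, by positivity⟩
  | succ n ih =>
    intro s hs hsΛ hsn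
    have hs0 : 0 < s := by linarith
    have hx1 : 1 ≤ s ^ ((1:ℝ)/8) := Real.one_le_rpow hs (by norm_num)
    have hy1 : 1 ≤ s ^ ((1:ℝ)/4) := Real.one_le_rpow hs (by norm_num)
    by_cases hs2 : s ≤ 2
    · obtain ⟨e1, e2⟩ := comp 1 s le_rfl hs (by linarith) hsΛ
      simp only [Real.one_rpow, mul_one] at e1 e2
      unfold c1 c2
      refine ⟨e1.trans (by nlinarith), e2.trans ?_⟩
      have : 4 * A + 24 * A ^ 2 ≤ 24 * A + 144 * A ^ 2 := by nlinarith [sq_nonneg A]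
      calc 4 * A + 24 * A ^ 2 ≤ (24 * A + 144 * A ^ 2) * 1 := by linarith
        _ ≤ (24 * A + 144 * A ^ 2) * s ^ ((1:ℝ)/4) := by
            apply mul_le_mul_of_nonneg_left hy1 (by positivity)
    · push Not at hs2
      obtain ⟨i1, i2⟩ := ih (s/2) (by linarith) (by linarith) (by rw [pow_succ] at hsn; linarith)
      obtain ⟨e1, e2⟩ := comp (s/2) s (by linarith) (by linarith) (by linarith) hsΛ
      have q1 : (s/2) ^ ((1:ℝ)/8) ≤ 37/40 * s ^ ((1:ℝ)/8) := by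
        rw [show s/2 = (1/2) * s by ring, Real.mul_rpow (by norm_num) hs0.le]
        exact mul_le_mul_of_nonneg_right half_rpow_eighth (by positivity)
      have q2 : (s/2) ^ ((1:ℝ)/4) ≤ 17/20 * s ^ ((1:ℝ)/4) := by
        rw [show s/2 = (1/2) * s by ring, Real.mul_rpow (by norm_num) hs0.le]
        exact mul_le_mul_of_nonneg_right half_rpow_quarter (by positivity)
      have hxy : s ^ ((1:ℝ)/8) ≤ s ^ ((1:ℝ)/4) :=
        Real.rpow_le_rpow_of_exponent_le hs (by norm_num)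
      have hX0 : 0 ≤ s ^ ((1:ℝ)/8) := by positivity
      have hY0 : 0 ≤ s ^ ((1:ℝ)/4) := by positivity
      unfold c1 c2 at *
      constructor
      · have hAX : 0 ≤ A * s ^ ((1:ℝ)/8) := by positivity
        calc ‖P s - P 1‖ ≤ ‖P s - P (s/2)‖ + ‖P (s/2) - P 1‖ := norm_sub_le_norm_sub_add_norm_sub _ _ _
          _ ≤ 4 * A * (s/2) ^ ((1:ℝ)/8) + 50 * A * (s/2) ^ ((1:ℝ)/8) := add_le_add e1 i1
          _ = 54 * A * (s/2) ^ ((1:ℝ)/8) := by ring
          _ ≤ 54 * A * (37/40 * s ^ ((1:ℝ)/8)) := by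
              apply mul_le_mul_of_nonneg_left q1 (by positivity)
          _ = 999/20 * (A * s ^ ((1:ℝ)/8)) := by ring
          _ ≤ 50 * (A * s ^ ((1:ℝ)/8)) := by nlinarith
          _ = 50 * A * s ^ ((1:ℝ)/8) := by ring
      · have hZ : (s/2) ^ ((1:ℝ)/8) ≤ (s/2) ^ ((1:ℝ)/4) :=
          Real.rpow_le_rpow_of_exponent_le (by linarith) (by norm_num)
        have hB0 : 0 ≤ 4 * A + 24 * A ^ 2 := by positivity
        calc |ham (P s) (B s) - ham (P 1) (B 1)|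
            ≤ |ham (P s) (B s) - ham (P (s/2)) (B (s/2))| +
              |ham (P (s/2)) (B (s/2)) - ham (P 1) (B 1)| := abs_sub_le _ _ _
          _ ≤ (4 * A * (s/2) ^ ((1:ℝ)/8) + 24 * A ^ 2 * (s/2) ^ ((1:ℝ)/4)) +
              (24 * A + 144 * A ^ 2) * (s/2) ^ ((1:ℝ)/4) := add_le_add e2 i2
          _ ≤ (4 * A * (s/2) ^ ((1:ℝ)/4) + 24 * A ^ 2 * (s/2) ^ ((1:ℝ)/4)) +
              (24 * A + 144 * A ^ 2) * (s/2) ^ ((1:ℝ)/4) := by
              have := mul_le_mul_of_nonneg_left hZ (by positivity : (0:ℝ) ≤ 4 * A)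
              linarith
          _ = 7 * (4 * A + 24 * A ^ 2) * (s/2) ^ ((1:ℝ)/4) := by ring
          _ ≤ 7 * (4 * A + 24 * A ^ 2) * (17/20 * s ^ ((1:ℝ)/4)) := by
              apply mul_le_mul_of_nonneg_left q2 (by positivity)
          _ = 119/20 * ((4 * A + 24 * A ^ 2) * s ^ ((1:ℝ)/4)) := by ring
          _ ≤ 6 * ((4 * A + 24 * A ^ 2) * s ^ ((1:ℝ)/4)) := by
              have : 0 ≤ (4 * A + 24 * A ^ 2) * s ^ ((1:ℝ)/4) := by positivity
              nlinarith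
          _ = (24 * A + 144 * A ^ 2) * s ^ ((1:ℝ)/4) := by ring

/-- growth constant -/
noncomputable def cD (A : ℝ) : ℝ := 1 + c1 A
noncomputable def cK (A : ℝ) : ℝ := (c1 A + c2 A + c1 A ^ 2 / 2 + A) * cD A ^ ((3:ℝ)/2)

/-- Multi-scale growth: closeness to the affine function found at the base scale `τ`. -/
theorem growth {w : V → ℝ → ℝ} {x0 : V} {t0 : ℝ} {P : ℝ → V} {B : ℝ → ℝ} {τ A Λ : ℝ}
    (hτ : 0 < τ) (hA : 0 ≤ A)
    (h : ∀ s, 1 ≤ s → s ≤ Λ → FB w x0 t0 (P s) (B s) (s * τ) (A * τ * s ^ ((9:ℝ)/8)))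
    {x : V} {t r : ℝ} (hr0 : 0 ≤ r) (hr : ‖x‖ + |t| ≤ r * τ)
    (hΛ : (cD A * (1 + r)) ^ ((8:ℝ)/7) ≤ Λ) :
    |w (x0 + t • P 1 + x) (t0 + t) - w x0 t0 - inner ℝ (P 1) x - B 1 * t| ≤
      cK A * τ * (1 + r) ^ ((3:ℝ)/2) := by
  have hc1 : 0 ≤ c1 A := by unfold c1; positivity
  have hc2 : 0 ≤ c2 A := by unfold c2; positivity
  have hD : 1 ≤ cD A := by unfold cD; linarith
  set q : ℝ := cD A * (1 + r) with hq
  have hq1 : 1 ≤ q := by nlinarith
  have hq0 : 0 < q := by linarith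
  have hqr : r ≤ q := by nlinarith
  set s : ℝ := q ^ ((8:ℝ)/7) with hs
  have hs1 : 1 ≤ s := Real.one_le_rpow hq1 (by norm_num)
  have hs0 : 0 < s := by linarith
  have hs78 : s ^ ((7:ℝ)/8) = q := by
    rw [hs, ← Real.rpow_mul hq0.le]; norm_num
  have hs98 : s ^ ((9:ℝ)/8) = q ^ ((9:ℝ)/7) := by
    rw [hs, ← Real.rpow_mul hq0.le]; norm_num
  have hqs : q ≤ s := by
    calc q = q ^ (1:ℝ) := (Real.rpow_one q).symm
      _ ≤ q ^ ((8:ℝ)/7) := Real.rpow_le_rpow_of_exponent_le hq1 (by norm_num)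
  obtain ⟨n, hn⟩ := pow_unbounded_of_one_lt s (one_lt_two : (1:ℝ) < 2)
  obtain ⟨dP, dH⟩ := drift hτ hA h n s hs1 hΛ hn.le
  have hF := h s hs1 hΛ
  have hx : ‖x‖ ≤ r * τ := by linarith [abs_nonneg t]
  have ht : |t| ≤ r * τ := by linarith [norm_nonneg x]
  set X : ℝ := s ^ ((1:ℝ)/8) with hX
  have hX1 : 1 ≤ X := Real.one_le_rpow hs1 (by norm_num)
  have hsX : q * X = s := by
    rw [← hs78, hX, ← Real.rpow_add hs0]; norm_num
  have hsXX : s * X = s ^ ((9:ℝ)/8) := (rpow_nine_eighths hs0).symm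
  -- the moved point
  set x' : V := x + t • (P 1 - P s) with hx'
  have hx'n : ‖x'‖ ≤ s * τ := by
    calc ‖x'‖ ≤ ‖x‖ + ‖t • (P 1 - P s)‖ := norm_add_le _ _
      _ = ‖x‖ + |t| * ‖P s - P 1‖ := by rw [norm_smul, Real.norm_eq_abs, norm_sub_rev]
      _ ≤ r * τ + (r * τ) * (c1 A * X) := by
          apply add_le_add hx
          exact mul_le_mul ht dP (norm_nonneg _) (by positivity)
      _ ≤ (r * τ) * X + (r * τ) * (c1 A * X) := by
          have : r * τ * 1 ≤ r * τ * X := mul_le_mul_of_nonneg_left hX1 (by positivity)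
          linarith
      _ = r * (cD A) * X * τ := by unfold cD; ring
      _ ≤ q * X * τ := by
          have : r * cD A ≤ q := by rw [hq]; nlinarith
          apply mul_le_mul_of_nonneg_right _ hτ.le
          exact mul_le_mul_of_nonneg_right this (by linarith)
      _ = s * τ := by rw [hsX]
  have htn : |t| ≤ s * τ := ht.trans (mul_le_mul_of_nonneg_right (hqr.trans hqs) hτ.le)
  have e := hF x' t htn hx'n
  have hpt : x0 + t • P s + x' = x0 + t • P 1 + x := by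
    rw [hx', smul_sub]; abel
  rw [hpt] at e
  -- algebra
  have hid : inner ℝ (P s) x' + B s * t - (inner ℝ (P 1) x + B 1 * t) =
      inner ℝ (P s - P 1) x +
        t * (ham (P s) (B s) - ham (P 1) (B 1) - ‖P s - P 1‖ ^ 2 / 2) := by
    have h1 : ‖P s - P 1‖ ^ 2 = ‖P s‖ ^ 2 - 2 * inner ℝ (P s) (P 1) + ‖P 1‖ ^ 2 :=
      norm_sub_sq_real _ _
    rw [hx', inner_add_right, inner_smul_right, inner_sub_right, real_inner_self_eq_norm_sq,
      inner_sub_left, h1]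
    unfold ham; ring
  have hbd1 : |inner ℝ (P s - P 1) x| ≤ c1 A * X * (r * τ) := by
    calc |inner ℝ (P s - P 1) x| ≤ ‖P s - P 1‖ * ‖x‖ := abs_real_inner_le_norm _ _
      _ ≤ _ := mul_le_mul dP hx (norm_nonneg _) (by positivity)
  have hbd2 : |t * (ham (P s) (B s) - ham (P 1) (B 1) - ‖P s - P 1‖ ^ 2 / 2)| ≤
      (r * τ) * (c2 A * (X * X) + (c1 A * X) ^ 2 / 2) := by
    rw [abs_mul]
    apply mul_le_mul ht _ (abs_nonneg _) (by positivity)
    calc |ham (P s) (B s) - ham (P 1) (B 1) - ‖P s - P 1‖ ^ 2 / 2|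
        ≤ |ham (P s) (B s) - ham (P 1) (B 1)| + |‖P s - P 1‖ ^ 2 / 2| := abs_sub _ _
      _ ≤ c2 A * (X * X) + (c1 A * X) ^ 2 / 2 := by
          apply add_le_add
          · rw [rpow_quarter hs0] at dH; exact dH
          · rw [abs_of_nonneg (by positivity)]
            have := pow_le_pow_left₀ (norm_nonneg _) dP 2
            linarith
  have hrX : r * X ≤ s := by
    calc r * X ≤ q * X := mul_le_mul_of_nonneg_right hqr (by linarith)
      _ = s := hsX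
  have hs_le : s ≤ s * X := by nlinarith
  have hfin : |w (x0 + t • P 1 + x) (t0 + t) - w x0 t0 - inner ℝ (P 1) x - B 1 * t| ≤
      (c1 A + c2 A + c1 A ^ 2 / 2 + A) * τ * (s * X) := by
    have hsplit : w (x0 + t • P 1 + x) (t0 + t) - w x0 t0 - inner ℝ (P 1) x - B 1 * t =
        (w (x0 + t • P 1 + x) (t0 + t) - w x0 t0 - inner ℝ (P s) x' - B s * t) +
        (inner ℝ (P s - P 1) x +
        t * (ham (P s) (B s) - ham (P 1) (B 1) - ‖P s - P 1‖ ^ 2 / 2)) := by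
      rw [← hid]; ring
    rw [hsplit]
    have hτr : 0 ≤ τ := hτ.le
    have k1 : c1 A * X * (r * τ) ≤ c1 A * τ * (s * X) := by
      have : c1 A * τ * (r * X) ≤ c1 A * τ * (s * X) :=
        mul_le_mul_of_nonneg_left (hrX.trans hs_le) (by positivity)
      calc _ = c1 A * τ * (r * X) := by ring
        _ ≤ _ := this
    have k2 : (r * τ) * (c2 A * (X * X) + (c1 A * X) ^ 2 / 2) ≤ (c2 A + c1 A ^ 2 / 2) * τ * (s * X) := by
      have : (c2 A + c1 A ^ 2 / 2) * τ * (r * X * X) ≤ (c2 A + c1 A ^ 2 / 2) * τ * (s * X) :=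
        mul_le_mul_of_nonneg_left (mul_le_mul_of_nonneg_right hrX (by linarith)) (by positivity)
      calc _ = (c2 A + c1 A ^ 2 / 2) * τ * (r * X * X) := by ring
        _ ≤ _ := this
    calc _ ≤ |w (x0 + t • P 1 + x) (t0 + t) - w x0 t0 - inner ℝ (P s) x' - B s * t| +
          |inner ℝ (P s - P 1) x +
            t * (ham (P s) (B s) - ham (P 1) (B 1) - ‖P s - P 1‖ ^ 2 / 2)| := abs_add_le _ _
      _ ≤ A * τ * (s * X) + (c1 A * X * (r * τ) + (r * τ) * (c2 A * (X * X) + (c1 A * X) ^ 2 / 2)) := by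
          apply add_le_add
          · rw [hsXX]; exact e
          · exact (abs_add_le _ _).trans (add_le_add hbd1 hbd2)
      _ ≤ A * τ * (s * X) + (c1 A * τ * (s * X) + (c2 A + c1 A ^ 2 / 2) * τ * (s * X)) := by
          linarith
      _ = _ := by ring
  refine hfin.trans ?_
  have hq32 : s * X ≤ cD A ^ ((3:ℝ)/2) * (1 + r) ^ ((3:ℝ)/2) := by
    rw [hsXX, hs98, ← Real.mul_rpow (by linarith) (by linarith), ← hq]
    exact Real.rpow_le_rpow_of_exponent_le hq1 (by norm_num)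
  unfold cK
  have hC : 0 ≤ (c1 A + c2 A + c1 A ^ 2 / 2 + A) * τ := by positivity
  calc (c1 A + c2 A + c1 A ^ 2 / 2 + A) * τ * (s * X)
      ≤ (c1 A + c2 A + c1 A ^ 2 / 2 + A) * τ * (cD A ^ ((3:ℝ)/2) * (1 + r) ^ ((3:ℝ)/2)) :=
        mul_le_mul_of_nonneg_left hq32 hC
    _ = _ := by ring

end Crest.Agent.R094.S2
end

-- ▼ part R094/S2Camp
section

set_option autoImplicit false

namespace Crest.Agent.R094.S2

open Real Filter Topology

variable {V : Type*} [NormedAddCommGroup V] [InnerProductSpace ℝ V]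

/-- comparison of slopes of a function on a ball -/
lemma slope_diff {u : V → ℝ} {p p' : V} {r η η' : ℝ} (hr : 0 < r)
    (h : ∀ x, ‖x‖ ≤ r → |u x - u 0 - inner ℝ p x| ≤ η)
    (h' : ∀ x, ‖x‖ ≤ r → |u x - u 0 - inner ℝ p' x| ≤ η') :
    ‖p - p'‖ ≤ (η + η') / r := by
  rw [le_div_iff₀ hr]
  have hη : 0 ≤ η := (abs_nonneg _).trans (h 0 (by simpa using hr.le))
  have hη' : 0 ≤ η' := (abs_nonneg _).trans (h' 0 (by simpa using hr.le))
  by_cases hpp : p - p' = 0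
  · rw [hpp, norm_zero, zero_mul]; linarith
  · have hn : 0 < ‖p - p'‖ := norm_pos_iff.2 hpp
    set x : V := (r / ‖p - p'‖) • (p - p') with hx
    have hxn : ‖x‖ = r := by
      rw [hx, norm_smul, Real.norm_of_nonneg (by positivity)]
      field_simp
    have e1 := h x hxn.le
    have e2 := h' x hxn.le
    have hi : inner ℝ (p - p') x = ‖p - p'‖ * r := by
      rw [hx, inner_smul_right, real_inner_self_eq_norm_sq]
      field_simp
    have hi2 : inner ℝ (p - p') x = inner ℝ p x - inner ℝ p' x := inner_sub_left _ _ _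
    rw [abs_le] at e1 e2
    nlinarith [e1.1, e1.2, e2.1, e2.2]

theorem campanato [CompleteSpace V] {a C r1 : ℝ} (ha : 0 < a) (ha1 : a ≤ 1) (hC : 0 ≤ C)
    (hr1 : 0 < r1) {u : V → ℝ}
    (h : ∀ r, 0 < r → r ≤ r1 → ∃ p : V, ∀ x, ‖x‖ ≤ r →
      |u x - u 0 - inner ℝ p x| ≤ C * r ^ (1 + a)) :
    ∃ p : V, ∀ x, ‖x‖ ≤ r1 →
      |u x - u 0 - inner ℝ p x| ≤ (4 * C + 8 * C / (1 - (1/2) ^ a)) * ‖x‖ ^ (1 + a) := by
  set q : ℝ := (1/2) ^ a with hq
  have hq0 : 0 < q := by positivity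
  have hq1 : q < 1 := Real.rpow_lt_one (by norm_num) (by norm_num) ha
  have h1q : 0 < 1 - q := by linarith
  set ρ : ℕ → ℝ := fun n => r1 * (1/2) ^ n with hρ
  have hρ0 : ∀ n, 0 < ρ n := fun n => by positivity
  have hρ1 : ∀ n, ρ n ≤ r1 := fun n => by
    have : ((1:ℝ)/2) ^ n ≤ 1 := pow_le_one₀ (by norm_num) (by norm_num)
    simp only [hρ]; nlinarith
  choose p hp using fun n => h (ρ n) (hρ0 n) (hρ1 n)
  have hρs : ∀ n, ρ (n+1) = ρ n / 2 := fun n => by simp only [hρ, pow_succ]; ring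
  have hρa : ∀ n, ρ n ^ a = r1 ^ a * q ^ n := fun n => by
    simp only [hρ]
    rw [Real.mul_rpow hr1.le (by positivity), hq, ← Real.rpow_natCast ((1/2 : ℝ) ^ a),
      ← Real.rpow_mul (by norm_num), ← Real.rpow_natCast, ← Real.rpow_mul (by norm_num)]
    congr 2; ring
  have hdiff : ∀ n, dist (p n) (p (n+1)) ≤ 4 * C * r1 ^ a * q ^ n := by
    intro n
    rw [dist_eq_norm]
    have hle : ρ (n+1) ≤ ρ n := by rw [hρs]; linarith [hρ0 n]
    have hd := slope_diff (u := u) (hρ0 (n+1)) (fun x hx => hp n x (hx.trans hle)) (hp (n+1))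
    have hmono : ρ (n+1) ^ (1+a) ≤ ρ n ^ (1+a) :=
      Real.rpow_le_rpow (hρ0 _).le hle (by linarith)
    calc ‖p n - p (n+1)‖ ≤ _ := hd
      _ ≤ (2 * C * ρ n ^ (1+a)) / (ρ n / 2) := by
          rw [hρs]
          apply div_le_div_of_nonneg_right _ (by linarith [hρ0 n])
          rw [← hρs]
          nlinarith [mul_le_mul_of_nonneg_left hmono hC]
      _ = 4 * C * ρ n ^ a := by
          rw [Real.rpow_add (hρ0 n), Real.rpow_one]
          have := (hρ0 n).ne'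
          field_simp
          ring
      _ = _ := by rw [hρa]; ring
  have hcau : CauchySeq p := cauchySeq_of_le_geometric q (4 * C * r1 ^ a) hq1 hdiff
  obtain ⟨P, hP⟩ := cauchySeq_tendsto_of_complete hcau
  have hdist : ∀ n, ‖p n - P‖ ≤ 4 * C * ρ n ^ a / (1 - q) := by
    intro n
    have := dist_le_of_le_geometric_of_tendsto q (4 * C * r1 ^ a) hq1 hdiff hP n
    rw [dist_eq_norm] at this
    calc ‖p n - P‖ ≤ _ := this
      _ = _ := by rw [hρa]; ring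
  refine ⟨P, fun x hx => ?_⟩
  by_cases hx0 : x = 0
  · subst hx0
    simp only [sub_self, inner_zero_right, abs_zero, norm_zero]
    positivity
  have hxn : 0 < ‖x‖ := norm_pos_iff.2 hx0
  obtain ⟨n, hn1, hn2⟩ := exists_nat_pow_near_of_lt_one (x := ‖x‖ / r1) (y := (1:ℝ)/2)
    (by positivity) ((div_le_one hr1).2 hx) (by norm_num) (by norm_num)
  have hxρ : ‖x‖ ≤ ρ n := by
    rw [div_le_iff₀ hr1] at hn2; simp only [hρ]; linarith
  have hρx : ρ n < 2 * ‖x‖ := by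
    rw [lt_div_iff₀ hr1, pow_succ] at hn1
    simp only [hρ]; linarith
  have k1 : ρ n ^ (1+a) ≤ 4 * ‖x‖ ^ (1+a) := by
    calc ρ n ^ (1+a) ≤ (2 * ‖x‖) ^ (1+a) := Real.rpow_le_rpow (hρ0 n).le hρx.le (by linarith)
      _ = 2 ^ (1+a) * ‖x‖ ^ (1+a) := Real.mul_rpow (by norm_num) hxn.le
      _ ≤ 4 * ‖x‖ ^ (1+a) := by
          apply mul_le_mul_of_nonneg_right _ (by positivity)
          calc (2:ℝ) ^ (1+a) ≤ 2 ^ (2:ℝ) :=
                Real.rpow_le_rpow_of_exponent_le (by norm_num) (by linarith)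
            _ = 4 := by norm_num
  have k2 : ρ n ^ a ≤ 2 * ‖x‖ ^ a := by
    calc ρ n ^ a ≤ (2 * ‖x‖) ^ a := Real.rpow_le_rpow (hρ0 n).le hρx.le ha.le
      _ = 2 ^ a * ‖x‖ ^ a := Real.mul_rpow (by norm_num) hxn.le
      _ ≤ 2 * ‖x‖ ^ a := by
          apply mul_le_mul_of_nonneg_right _ (by positivity)
          calc (2:ℝ) ^ a ≤ 2 ^ (1:ℝ) :=
                Real.rpow_le_rpow_of_exponent_le (by norm_num) ha1
            _ = 2 := Real.rpow_one 2
  have hsplit : u x - u 0 - inner ℝ P x = (u x - u 0 - inner ℝ (p n) x) + inner ℝ (p n - P) x := by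
    rw [inner_sub_left]; ring
  calc |u x - u 0 - inner ℝ P x| ≤ |u x - u 0 - inner ℝ (p n) x| + |inner ℝ (p n - P) x| := by
        rw [hsplit]; exact abs_add_le _ _
    _ ≤ C * ρ n ^ (1+a) + ‖p n - P‖ * ‖x‖ :=
        add_le_add (hp n x hxρ) (abs_real_inner_le_norm _ _)
    _ ≤ C * (4 * ‖x‖ ^ (1+a)) + (4 * C * (2 * ‖x‖ ^ a) / (1 - q)) * ‖x‖ := by
        apply add_le_add (mul_le_mul_of_nonneg_left k1 hC)
        apply mul_le_mul_of_nonneg_right _ hxn.le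
        refine (hdist n).trans ?_
        apply div_le_div_of_nonneg_right _ h1q.le
        exact mul_le_mul_of_nonneg_left k2 (by positivity)
    _ = _ := by
        rw [show ‖x‖ ^ (1+a) = ‖x‖ * ‖x‖ ^ a by rw [Real.rpow_add hxn, Real.rpow_one]]
        ring

/-- The function `u` is `η`-flat at `x0` in a box of time-length `τ` and space-radius
`sqrt (η τ)`, moving with the slope. -/
def FU (u : V → ℝ) (x0 : V) (τ η : ℝ) : Prop :=
  ∃ (p : V) (b : ℝ), ∀ (x : V) (t : ℝ), |t| ≤ τ → ‖x‖ ^ 2 ≤ η * τ →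
    |u (x0 + t • p + x) - u x0 - inner ℝ p x - b * t| ≤ η

theorem expansion [CompleteSpace V] {a C τ1 : ℝ} (ha : 0 < a) (hC : 0 < C) (hτ1 : 0 < τ1) :
    ∃ α : ℝ, 0 < α ∧ α ≤ 1 ∧ ∃ C' : ℝ, 0 ≤ C' ∧ ∃ r1 : ℝ, 0 < r1 ∧ ∀ u : V → ℝ,
      (∀ τ, 0 < τ → τ ≤ τ1 → FU u 0 τ (C * τ ^ (1 + a))) →
      ∃ p : V, ∀ x, ‖x‖ ≤ r1 → |u x - u 0 - inner ℝ p x| ≤ C' * ‖x‖ ^ (1 + α) := by
  set α : ℝ := a / (2 + a) with hα
  have h2a : 0 < 2 + a := by linarith
  have hα0 : 0 < α := by positivity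
  have hα1 : α ≤ 1 := by rw [hα, div_le_one h2a]; linarith
  set E : ℝ := C ^ (1 / (2 + a)) with hE
  have hE0 : 0 < E := by positivity
  refine ⟨α, hα0, hα1, 4 * E + 8 * E / (1 - (1/2) ^ α), ?_, τ1 ^ ((2 + a)/2) * C ^ ((1:ℝ)/2),
    by positivity, ?_⟩
  · have : (1/2 : ℝ) ^ α < 1 := Real.rpow_lt_one (by norm_num) (by norm_num) hα0
    have : 0 < 1 - (1/2 : ℝ) ^ α := by linarith
    positivity
  intro u hu
  apply campanato hα0 hα1 hE0.le (by positivity)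
  intro r hr0 hr1
  -- the scale
  set τ : ℝ := r ^ (2 / (2 + a)) * C ^ (-(1 / (2 + a))) with hτ
  have hτ0 : 0 < τ := by positivity
  have hττ1 : τ ≤ τ1 := by
    have : r ^ (2 / (2 + a)) ≤ τ1 * C ^ (1 / (2 + a)) := by
      calc r ^ (2 / (2 + a)) ≤ (τ1 ^ ((2 + a)/2) * C ^ ((1:ℝ)/2)) ^ (2 / (2 + a)) :=
            Real.rpow_le_rpow hr0.le hr1 (by positivity)
        _ = τ1 * C ^ (1 / (2 + a)) := by
            rw [Real.mul_rpow (by positivity) (by positivity), ← Real.rpow_mul hτ1.le,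
              ← Real.rpow_mul hC.le]
            congr 1
            · rw [show (2 + a) / 2 * (2 / (2 + a)) = 1 by field_simp]; exact Real.rpow_one _
            · congr 1; field_simp
    calc τ ≤ (τ1 * C ^ (1 / (2 + a))) * C ^ (-(1 / (2 + a))) :=
          mul_le_mul_of_nonneg_right this (by positivity)
      _ = τ1 := by
          rw [mul_assoc, ← Real.rpow_add hC]; simp
  -- powers
  have hητ : C * τ ^ (1 + a) * τ = r ^ 2 := by
    have e1 : τ ^ (1 + a) * τ = τ ^ (2 + a) := by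
      rw [show (2:ℝ) + a = (1 + a) + 1 by ring, Real.rpow_add hτ0 (1 + a) 1, Real.rpow_one]
    rw [mul_assoc, e1, hτ, Real.mul_rpow (by positivity) (by positivity), ← Real.rpow_mul hr0.le,
      ← Real.rpow_mul hC.le]
    rw [show 2 / (2 + a) * (2 + a) = 2 by field_simp,
      show -(1 / (2 + a)) * (2 + a) = -1 by field_simp, Real.rpow_neg_one]
    rw [show r ^ (2:ℝ) = r ^ 2 from Real.rpow_two r]
    field_simp
  have hη : C * τ ^ (1 + a) = E * r ^ (1 + α) := by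
    have h1 : C * τ ^ (1 + a) = r ^ 2 / τ := by
      rw [eq_div_iff hτ0.ne']; exact hητ
    rw [h1, hτ, hE, hα, div_eq_iff (by positivity), ← Real.rpow_two]
    have h3 : C ^ (1 / (2 + a)) * C ^ (-(1 / (2 + a))) = 1 := by
      rw [← Real.rpow_add hC]; simp
    have h4 : r ^ (1 + a / (2 + a)) * r ^ (2 / (2 + a)) = r ^ (2:ℝ) := by
      rw [← Real.rpow_add hr0]; congr 1; field_simp; ring
    calc r ^ (2:ℝ) = (r ^ (1 + a / (2 + a)) * r ^ (2 / (2 + a))) *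
          (C ^ (1 / (2 + a)) * C ^ (-(1 / (2 + a)))) := by rw [h4, h3, mul_one]
      _ = _ := by ring
  obtain ⟨p, b, hpb⟩ := hu τ hτ0 hττ1
  refine ⟨p, fun x hx => ?_⟩
  have := hpb x 0 (by simpa using hτ0.le) (by
    rw [hητ]; exact pow_le_pow_left₀ (norm_nonneg _) hx 2)
  rw [zero_smul, add_zero, zero_add, mul_zero, sub_zero, hη] at this
  exact this

end Crest.Agent.R094.S2
end

-- ▼ part R094/S2Adm
section

set_option autoImplicit false

namespace Crest.Agent.R094.S2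

open Crest.Agent.R094.Cones Filter Set Metric
open scoped Topology RealInnerProductSpace

variable {ι : Type*} [Fintype ι]

local notation "E" => EuclideanSpace ℝ ι

/-! ### boxes -/

/-- The increment of the boosted rescaled function in a moving box. -/
lemma bst_incr (u : E → ℝ) (x0 p0 : E) {σ τ η : ℝ} (b0 : ℝ) (hη : η ≠ 0) (hτ : τ ≠ 0)
    (hst : σ ^ 2 = η * τ) (X : E) (T : ℝ) (p : E) (b : ℝ) (x : E) (t : ℝ) :
    bst u x0 p0 σ τ η b0 (X + t • p + x) (T + t) - bst u x0 p0 σ τ η b0 X T - ⟪p, x⟫ - b * t =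
      (u ((x0 + σ • X + (τ * T) • p0) + (τ * t) • (p0 + (σ / τ) • p) + σ • x)
        - u (x0 + σ • X + (τ * T) • p0) - ⟪p0 + (σ / τ) • p, σ • x⟫
        - (b0 + (σ / τ) * ⟪p0, p⟫ + b * η / τ) * (τ * t)) / η := by
  have hpt : x0 + σ • (X + t • p + x) + (τ * (T + t)) • p0 =
      (x0 + σ • X + (τ * T) • p0) + (τ * t) • (p0 + (σ / τ) • p) + σ • x := by
    have e1 : (τ * t) • ((σ / τ) • p) = σ • t • p := by
      rw [smul_smul, smul_smul]; congr 1; field_simp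
    rw [smul_add (τ * t), e1, mul_add, add_smul, smul_add, smul_add]
    abel
  have hin : ⟪p0 + (σ / τ) • p, σ • x⟫ = σ * ⟪p0, x⟫ + η * ⟪p, x⟫ := by
    rw [inner_add_left, inner_smul_right, inner_smul_right, real_inner_smul_left]
    have : σ * (σ / τ * ⟪p, x⟫) = η * ⟪p, x⟫ := by
      have h1 : σ * (σ / τ) = η := by
        rw [← mul_div_assoc, ← pow_two, hst]; field_simp
      rw [← mul_assoc, h1]
    rw [this]
  unfold bst
  rw [hpt, hin, inner_add_right, inner_add_right, inner_smul_right]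
  rw [eq_div_iff hη]
  field_simp
  ring

/-- Boxes of `u` give boxes of the boosted rescaled function. -/
lemma FB_of_FU {u : E → ℝ} {x0 p0 : E} {σ τ η : ℝ} (b0 : ℝ) (hσ : 0 < σ) (hτ : 0 < τ)
    (hη : 0 < η) (hst : σ ^ 2 = η * τ) {X : E} {T s ζ : ℝ} (hs : 0 < s) (hsζ : s ≤ ζ)
    (h : FU u (x0 + σ • X + (τ * T) • p0) (τ * s) (η * ζ)) :
    ∃ (p : E) (b : ℝ), FB (bst u x0 p0 σ τ η b0) X T p b s ζ := by
  obtain ⟨q, β, hq⟩ := h
  refine ⟨(τ / σ) • (q - p0), (τ / η) * (β - b0 - ⟪p0, q - p0⟫), fun x t ht hx => ?_⟩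
  rw [bst_incr u x0 p0 b0 hη.ne' hτ.ne' hst, abs_div, abs_of_pos hη, div_le_iff₀ hη]
  have e1 : p0 + (σ / τ) • (τ / σ) • (q - p0) = q := by
    rw [smul_smul]
    have : σ / τ * (τ / σ) = 1 := by field_simp
    rw [this, one_smul]; abel
  have e2 : b0 + σ / τ * ⟪p0, (τ / σ) • (q - p0)⟫ + τ / η * (β - b0 - ⟪p0, q - p0⟫) * η / τ = β := by
    rw [inner_smul_right]
    field_simp
    ring
  rw [e1, e2]
  have h1 : |τ * t| ≤ τ * s := by
    rw [abs_mul, abs_of_pos hτ]; exact mul_le_mul_of_nonneg_left ht hτ.le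
  have h2 : ‖σ • x‖ ^ 2 ≤ η * ζ * (τ * s) := by
    rw [norm_smul, Real.norm_of_nonneg hσ.le, mul_pow, hst]
    calc η * τ * ‖x‖ ^ 2 ≤ η * τ * (s * s) := by
          apply mul_le_mul_of_nonneg_left _ (by positivity)
          rw [← pow_two]
          exact pow_le_pow_left₀ (norm_nonneg _) hx 2
      _ ≤ η * τ * (ζ * s) := by gcongr
      _ = _ := by ring
  have := hq (σ • x) (τ * t) h1 h2
  rw [mul_comm ζ η]
  exact this

/-- Converse at the base point. -/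
lemma FU_of_FB {u : E → ℝ} {x0 p0 : E} {σ τ η : ℝ} (b0 : ℝ) (hσ : 0 < σ) (hτ : 0 < τ)
    (hη : 0 < η) (hst : σ ^ 2 = η * τ) {p : E} {b ν : ℝ} (hν : ν * τ ≤ η) (hν' : η / 2 ≤ ν * τ)
    (h : FB (bst u x0 p0 σ τ η b0) 0 0 p b 1 (1 / 2)) : FU u x0 τ (ν * τ) := by
  refine ⟨p0 + (σ / τ) • p, b0 + (σ / τ) * ⟪p0, p⟫ + b * η / τ, fun ξ t' ht hξ => ?_⟩
  have h1 : |t' / τ| ≤ 1 := by
    rw [abs_div, abs_of_pos hτ, div_le_one hτ]; exact ht
  have h2 : ‖σ⁻¹ • ξ‖ ≤ 1 := by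
    rw [norm_smul, norm_inv, Real.norm_of_nonneg hσ.le, inv_mul_le_iff₀ hσ, mul_one]
    have : ‖ξ‖ ^ 2 ≤ σ ^ 2 := by
      rw [hst]
      exact hξ.trans (mul_le_mul_of_nonneg_right hν hτ.le)
    exact (pow_le_pow_iff_left₀ (norm_nonneg _) hσ.le two_ne_zero).1 this
  have e := h (σ⁻¹ • ξ) (t' / τ) h1 h2
  rw [bst_incr u x0 p0 b0 hη.ne' hτ.ne' hst, abs_div, abs_of_pos hη, div_le_iff₀ hη] at e
  have e1 : τ * (t' / τ) = t' := by field_simp
  have e2 : σ • σ⁻¹ • ξ = ξ := by rw [smul_smul, mul_inv_cancel₀ hσ.ne', one_smul]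
  rw [e1, e2] at e
  simp only [smul_zero, mul_zero, zero_smul, add_zero] at e
  refine e.trans ?_
  linarith

/-- the base box is normalised if `p0, b0` are the slopes of `u` in the base box -/
lemma FB_zero {u : E → ℝ} {x0 p0 : E} {σ τ η : ℝ} (b0 : ℝ) (hσ : 0 < σ) (hτ : 0 < τ)
    (hη : 0 < η) (hst : σ ^ 2 = η * τ) {ζ : ℝ} (hζ : 1 ≤ ζ)
    (h : ∀ (x : E) (t : ℝ), |t| ≤ τ → ‖x‖ ^ 2 ≤ η * ζ * τ →
      |u (x0 + t • p0 + x) - u x0 - ⟪p0, x⟫ - b0 * t| ≤ η * ζ) :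
    FB (bst u x0 p0 σ τ η b0) 0 0 0 0 1 ζ := by
  intro x t ht hx
  rw [bst_incr u x0 p0 b0 hη.ne' hτ.ne' hst, abs_div, abs_of_pos hη, div_le_iff₀ hη]
  simp only [smul_zero, mul_zero, zero_smul, add_zero, inner_zero_right, zero_mul, zero_div]
  have h1 : |τ * t| ≤ τ := by
    rw [abs_mul, abs_of_pos hτ]
    calc τ * |t| ≤ τ * 1 := mul_le_mul_of_nonneg_left ht hτ.le
      _ = τ := mul_one _
  have h2 : ‖σ • x‖ ^ 2 ≤ η * ζ * τ := by
    rw [norm_smul, Real.norm_of_nonneg hσ.le, mul_pow, hst]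
    calc η * τ * ‖x‖ ^ 2 ≤ η * τ * (1 : ℝ) ^ 2 := by
          apply mul_le_mul_of_nonneg_left _ (by positivity)
          exact pow_le_pow_left₀ (norm_nonneg _) hx 2
      _ = η * 1 * τ := by ring
      _ ≤ η * ζ * τ := by gcongr
  have := h (σ • x) (τ * t) h1 h2
  rw [mul_comm ζ η]
  exact this

/-! ### admissible functions -/

/-- bounded functions of the metric class on the unit ball -/
structure Adm (u : E → ℝ) : Prop where
  cc : CC u (ball 0 1)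
  bd : ∀ x ∈ ball (0 : E) 1, |u x| ≤ 1

lemma Adm.lip {u : E → ℝ} (hu : Adm u) {x y : E} (hx : ‖x‖ ≤ 1 / 2) (hy : ‖y‖ ≤ 1 / 2) :
    |u x - u y| ≤ 8 * ‖x - y‖ := by
  have hosc : ∀ z ∈ ball (0 : E) 1, ∀ z' ∈ ball (0 : E) 1, u z - u z' ≤ 2 := by
    intro z hz z' hz'
    have h1 := (abs_le.1 (hu.bd z hz)).2
    have h2 := (abs_le.1 (hu.bd z' hz')).1
    linarith
  have hsub : ∀ z : E, ‖z‖ ≤ 1 / 2 → closedBall z (1 / 4) ⊆ ball (0 : E) 1 := by
    intro z hz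
    apply closedBall_subset_ball'
    rw [dist_zero_right]; linarith
  have hin : ∀ z : E, ‖z‖ ≤ 1 / 2 → z ∈ ball (0 : E) 1 := fun z hz => by
    rw [mem_ball_zero_iff]; linarith
  have h1 := hu.cc.lipschitz (by norm_num : (0 : ℝ) < 1 / 4) (hsub y hy) hosc (hin x hx)
  have h2 := hu.cc.lipschitz (by norm_num : (0 : ℝ) < 1 / 4) (hsub x hx) hosc (hin y hy)
  rw [dist_eq_norm] at h1 h2
  rw [norm_sub_rev y x] at h2
  rw [abs_le]
  constructor <;> linarith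

lemma Adm.recentre {u : E → ℝ} (hu : Adm u) {x0 : E} (hx : ‖x0‖ ≤ 1 / 2) :
    Adm (fun x => u (x0 + (1 / 2 : ℝ) • x)) := by
  have hin : ∀ x ∈ ball (0 : E) 1, x0 + (1 / 2 : ℝ) • x ∈ ball (0 : E) 1 := by
    intro x hx1
    rw [mem_ball_zero_iff] at hx1 ⊢
    calc ‖x0 + (1 / 2 : ℝ) • x‖ ≤ ‖x0‖ + ‖(1 / 2 : ℝ) • x‖ := norm_add_le _ _
      _ = ‖x0‖ + 1 / 2 * ‖x‖ := by rw [norm_smul]; norm_num
      _ < 1 := by linarith
  constructor
  · have h1 := hu.cc.comp_similarity (LinearIsometryEquiv.refl ℝ E) x0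
      (by norm_num : (0 : ℝ) < 1 / 2)
    exact h1.mono hin
  · intro x hx1
    exact hu.bd _ (hin x hx1)

lemma FU_recentre {u : E → ℝ} {x0 : E} {τ η : ℝ}
    (h : FU (fun x => u (x0 + (1 / 2 : ℝ) • x)) 0 (4 * τ) η) : FU u x0 τ η := by
  obtain ⟨p, b, hp⟩ := h
  refine ⟨(2 : ℝ) • p, 4 * b, fun ξ t ht hξ => ?_⟩
  have h1 : |4 * t| ≤ 4 * τ := by
    rw [abs_mul, abs_of_pos (by norm_num : (0 : ℝ) < 4)]; linarith
  have h2 : ‖(2 : ℝ) • ξ‖ ^ 2 ≤ η * (4 * τ) := by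
    rw [norm_smul, mul_pow]; norm_num; linarith
  have e := hp ((2 : ℝ) • ξ) (4 * t) h1 h2
  have e1 : x0 + (1 / 2 : ℝ) • ((0 : E) + (4 * t) • p + (2 : ℝ) • ξ) =
      x0 + t • (2 : ℝ) • p + ξ := by
    rw [zero_add, smul_add, smul_smul, smul_smul, smul_smul]
    norm_num
    rw [show (1 / 2 * (4 * t) : ℝ) = t * 2 by ring, add_assoc]
  have e2 : ⟪(2 : ℝ) • p, ξ⟫ = ⟪p, (2 : ℝ) • ξ⟫ := by
    rw [real_inner_smul_left, inner_smul_right]
  simp only [e1, smul_zero, add_zero] at e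
  rw [e2, show 4 * b * t = b * (4 * t) by ring]
  exact e

/-! ### the defect -/

/-- `ν` is bad at scale `τ` -/
def Bad (ι : Type*) [Fintype ι] (τ ν : ℝ) : Prop :=
  0 ≤ ν ∧ ν * τ ^ 2 ≤ 1 / 4 ∧ ∃ u : EuclideanSpace ℝ ι → ℝ, Adm u ∧ ¬ FU u 0 τ (ν * τ)

lemma Bad.lt {τ ν : ℝ} (hτ : 0 < τ) (h : Bad ι τ ν) : ν < 64 := by
  obtain ⟨h0, h1, u, hu, hbad⟩ := h
  by_contra hlt
  push Not at hlt
  apply hbad
  refine ⟨0, 0, fun x t _ hx => ?_⟩
  have hx2 : ‖x‖ ^ 2 ≤ 1 / 4 := by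
    calc ‖x‖ ^ 2 ≤ ν * τ * τ := hx
      _ = ν * τ ^ 2 := by ring
      _ ≤ 1 / 4 := h1
  have hxn : ‖x‖ ≤ 1 / 2 := by
    nlinarith [norm_nonneg x]
  have hl := hu.lip hxn (by simp : ‖(0 : E)‖ ≤ 1 / 2)
  rw [sub_zero] at hl
  have hle : 8 * ‖x‖ ≤ ν * τ := by
    have : (8 * ‖x‖) ^ 2 ≤ (ν * τ) ^ 2 := by
      calc (8 * ‖x‖) ^ 2 = 64 * ‖x‖ ^ 2 := by ring
        _ ≤ ν * (ν * τ * τ) := by
            apply mul_le_mul hlt hx (by positivity) h0
        _ = (ν * τ) ^ 2 := by ring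
    exact (pow_le_pow_iff_left₀ (by positivity) (by positivity) two_ne_zero).1 this
  simp only [smul_zero, zero_add, inner_zero_left, zero_mul, sub_zero]
  exact hl.trans hle

/-- the defect at scale `τ` -/
noncomputable def NN (ι : Type*) [Fintype ι] (τ : ℝ) : ℝ := max (sSup {ν | Bad ι τ ν}) τ

lemma NN_bdd {τ : ℝ} (hτ : 0 < τ) : BddAbove {ν | Bad ι τ ν} :=
  ⟨64, fun _ h => (h.lt hτ).le⟩

lemma NN_pos {τ : ℝ} (hτ : 0 < τ) : 0 < NN ι τ := lt_max_of_lt_right hτ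

lemma le_NN {τ : ℝ} : τ ≤ NN ι τ := le_max_right _ _

lemma NN_le {τ : ℝ} (hτ : 0 < τ) (hτ1 : τ ≤ 1) : NN ι τ ≤ 64 := by
  apply max_le _ (by linarith)
  apply Real.sSup_le (fun ν h => (h.lt hτ).le) (by norm_num)

lemma good_of_NN_lt {τ ν : ℝ} (hτ : 0 < τ) (h : NN ι τ < ν) (h2 : ν * τ ^ 2 ≤ 1 / 4)
    {u : E → ℝ} (hu : Adm u) : FU u 0 τ (ν * τ) := by
  by_contra hbad
  have : Bad ι τ ν := ⟨((NN_pos hτ).trans h).le, h2, u, hu, hbad⟩
  have h3 : ν ≤ NN ι τ := (le_csSup (NN_bdd hτ) this).trans (le_max_left _ _)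
  linarith

lemma exists_bad {τ : ℝ} (hτ : 0 < τ) (h : τ < NN ι τ) :
    ∃ ν, NN ι τ / 2 < ν ∧ ν ≤ NN ι τ ∧ Bad ι τ ν := by
  have hN : 0 < NN ι τ := NN_pos hτ
  have hs : NN ι τ = sSup {ν | Bad ι τ ν} := by
    rcases max_choice (sSup {ν | Bad ι τ ν}) τ with h1 | h1
    · exact h1
    · exfalso
      have : NN ι τ = τ := h1
      linarith
  have hne : {ν | Bad ι τ ν}.Nonempty := by
    by_contra hemp
    rw [not_nonempty_iff_eq_empty] at hemp
    rw [hemp, Real.sSup_empty] at hs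
    linarith
  have hlt : NN ι τ / 2 < sSup {ν | Bad ι τ ν} := by rw [← hs]; linarith
  obtain ⟨ν, hν, hνlt⟩ := exists_lt_of_lt_csSup hne hlt
  exact ⟨ν, hνlt, (le_csSup (NN_bdd hτ) hν).trans (le_max_left _ _), hν⟩

end Crest.Agent.R094.S2
end

-- ▼ part R094/Final
section

/-!
# Row 94 (S0124): end game

* invariance of `IsInfinityHarmonicOn` under restriction and under `u ↦ a * u (x₀ + L ·) + b`
  where `L` is `r` times a linear isometry;
* `S0124_of_centred`: the statement S0124 from the centred first order expansion at `0`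
  for normalised functions.
-/

set_option autoImplicit false

open scoped Gradient RealInnerProductSpace Topology
open Crest.AnalysisR.PDE

namespace Crest.Agent.R094

variable {ι : Type*} [Fintype ι]

local notation "E" => EuclideanSpace ℝ ι

/-- second derivative form of the infinity Laplacian -/
theorem infLaplacian_eq (φ : EuclideanSpace ℝ ι → ℝ) (z : EuclideanSpace ℝ ι) :
    infLaplacian φ z = fderiv ℝ (fderiv ℝ φ) z (∇ φ z) (∇ φ z) := by
  unfold infLaplacian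
  rw [iteratedFDeriv_two_apply]
  simp




/-- gradient of `c * φ (x₀ + L x) + b` for `L = r • R`, `R` a linear isometry equivalence. -/
theorem fderiv_comp_affine {φ : EuclideanSpace ℝ ι → ℝ} (R : E →L[ℝ] E) (x₀ z : E) (c b : ℝ)
    (h : DifferentiableAt ℝ φ (x₀ + R z)) :
    fderiv ℝ (fun x => c * φ (x₀ + R x) + b) z = c • (fderiv ℝ φ (x₀ + R z)).comp R := by
  have h1 : HasFDerivAt (fun x => x₀ + R x) R z := by
    simpa using (R.hasFDerivAt (x := z)).const_add x₀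
  have h2 : HasFDerivAt (fun x => φ (x₀ + R x)) ((fderiv ℝ φ (x₀ + R z)).comp R) z :=
    h.hasFDerivAt.comp z h1
  exact ((h2.const_mul c).add_const b).fderiv

/-- infinity Laplacian of `c * φ (x₀ + r • R x) + b`. -/
theorem infLaplacian_comp_affine {φ : EuclideanSpace ℝ ι → ℝ} (R : E ≃ₗᵢ[ℝ] E) (x₀ z : E)
    (c b r : ℝ) (h : ContDiffAt ℝ 2 φ (x₀ + r • R z)) :
    infLaplacian (fun x => c * φ (x₀ + r • R x) + b) z
      = c ^ 3 * r ^ 4 * infLaplacian φ (x₀ + r • R z) := by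
  set L : E →L[ℝ] E := r • (R.toContinuousLinearEquiv : E →L[ℝ] E) with hL
  have hLa : ∀ x, L x = r • R x := fun x => by simp [hL]
  set ψ : E → ℝ := fun x => c * φ (x₀ + r • R x) + b with hψ
  have hψ' : ψ = fun x => c * φ (x₀ + L x) + b := by
    funext x; simp [hψ, hLa]
  have hcont : ContinuousAt (fun x : E => x₀ + L x) z := by fun_prop
  have hz : x₀ + L z = x₀ + r • R z := by rw [hLa]
  -- first derivative near z
  have hd : ∀ᶠ y in 𝓝 (x₀ + r • R z), DifferentiableAt ℝ φ y := by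
    have := h.eventually (by simp)
    filter_upwards [this] with y hy
    exact hy.differentiableAt (by norm_num)
  have hd1 : ∀ᶠ x in 𝓝 z, fderiv ℝ ψ x = c • (fderiv ℝ φ (x₀ + L x)).comp L := by
    have h2 : ∀ᶠ x in 𝓝 z, DifferentiableAt ℝ φ (x₀ + L x) := by
      rw [← hz] at hd
      exact hcont.eventually hd
    filter_upwards [h2] with x hx
    rw [hψ']
    exact fderiv_comp_affine L x₀ x c b hx
  have hgz : fderiv ℝ ψ z = c • (fderiv ℝ φ (x₀ + L z)).comp L := hd1.self_of_nhds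
  -- second derivative
  have hdd : DifferentiableAt ℝ (fderiv ℝ φ) (x₀ + L z) := by
    rw [hz]
    exact (h.fderiv_right (m := 1) (by norm_num)).differentiableAt (by norm_num)
  have h2z : ∀ v w : E, fderiv ℝ (fderiv ℝ ψ) z v w
      = c * fderiv ℝ (fderiv ℝ φ) (x₀ + L z) (L v) (L w) := by
    intro v w
    have e1 : fderiv ℝ (fderiv ℝ ψ) z
        = fderiv ℝ (fun x => c • (fderiv ℝ φ (x₀ + L x)).comp L) z :=
      Filter.EventuallyEq.fderiv_eq hd1
    rw [e1]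
    have h1 : HasFDerivAt (fun x => x₀ + L x) L z := by
      simpa using (L.hasFDerivAt (x := z)).const_add x₀
    have h3 : HasFDerivAt (fun x => fderiv ℝ φ (x₀ + L x))
        ((fderiv ℝ (fderiv ℝ φ) (x₀ + L z)).comp L) z := hdd.hasFDerivAt.comp z h1
    have h4 : HasFDerivAt (fun x => c • (fderiv ℝ φ (x₀ + L x)).comp L)
        (c • (((ContinuousLinearMap.compL ℝ E E ℝ).flip L).comp
          ((fderiv ℝ (fderiv ℝ φ) (x₀ + L z)).comp L))) z := by
      have := (((ContinuousLinearMap.compL ℝ E E ℝ).flip L).hasFDerivAt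
        (x := fderiv ℝ φ (x₀ + L z))).comp z h3
      exact this.const_smul c
    rw [h4.fderiv]
    simp
  -- gradient
  have hgrad : L (∇ ψ z) = (c * r ^ 2) • ∇ φ (x₀ + L z) := by
    apply ext_inner_right ℝ
    intro w
    -- ⟪L g, w⟫ = r ⟪R g, w⟫ = r ⟪g, R⁻¹ w⟫ = r * fderiv ψ z (R⁻¹ w) = r c fderiv φ (L R⁻¹ w)
    have e1 : ⟪L (∇ ψ z), w⟫ = r * ⟪∇ ψ z, R.symm w⟫ := by
      rw [hLa, inner_smul_left]
      have : ⟪R (∇ ψ z), w⟫ = ⟪∇ ψ z, R.symm w⟫ := by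
        conv_lhs => rw [← R.apply_symm_apply w]
        rw [R.inner_map_map]
      rw [this]; simp
    rw [e1, inner_gradient_left, hgz, inner_smul_left, inner_gradient_left]
    simp [hLa]
    ring
  rw [infLaplacian_eq, infLaplacian_eq, h2z, hgrad, hz]
  simp
  ring

theorem infLaplacian_eq_zero_of_gradient {φ : EuclideanSpace ℝ ι → ℝ} {z : EuclideanSpace ℝ ι}
    (h : ∇ φ z = 0) : infLaplacian φ z = 0 := by
  rw [infLaplacian_eq, h]; simp

/-- constants are infinity harmonic -/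
theorem isInfinityHarmonicOn_const (b : ℝ) (Ω : Set (EuclideanSpace ℝ ι)) :
    IsInfinityHarmonicOn (fun _ : EuclideanSpace ℝ ι => b) Ω := by
  refine ⟨continuousOn_const, fun z _ φ hφ => ?_⟩
  have hd : DifferentiableAt ℝ φ z := hφ.differentiableAt (by norm_num)
  constructor
  · intro hm
    have hm' : IsLocalMin φ z := by
      filter_upwards [hm] with x hx
      linarith
    have : fderiv ℝ φ z = 0 := hm'.fderiv_eq_zero
    rw [infLaplacian_eq_zero_of_gradient]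
    rw [gradient, this]; simp
  · intro hm
    have hm' : IsLocalMax φ z := by
      filter_upwards [hm] with x hx
      linarith
    have : fderiv ℝ φ z = 0 := hm'.fderiv_eq_zero
    rw [infLaplacian_eq_zero_of_gradient]
    rw [gradient, this]; simp

/-- Invariance of infinity harmonicity under `u ↦ a * u (x₀ + r • R ·) + b`. -/
theorem infHarm_comp_affine {u : EuclideanSpace ℝ ι → ℝ}
    {Ω Ω' : Set (EuclideanSpace ℝ ι)} (hu : IsInfinityHarmonicOn u Ω) (R : E ≃ₗᵢ[ℝ] E)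
    (x₀ : E) (a b : ℝ) {r : ℝ} (hr : 0 < r) (hΩ : ∀ x ∈ Ω', x₀ + r • R x ∈ Ω) :
    IsInfinityHarmonicOn (fun x => a * u (x₀ + r • R x) + b) Ω' := by
  rcases eq_or_ne a 0 with ha | ha
  · subst ha
    simpa using isInfinityHarmonicOn_const b Ω'
  have hTc : Continuous (fun x : E => x₀ + r • R x) := by fun_prop
  refine ⟨?_, fun z hz φ hφ => ?_⟩
  · have h1 : ContinuousOn (fun x : E => u (x₀ + r • R x)) Ω' :=
      hu.1.comp hTc.continuousOn (fun x hx => hΩ x hx)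
    exact (continuousOn_const.mul h1).add continuousOn_const
  set x₁ : E := - (r⁻¹ • R.symm x₀) with hx₁
  set ψ : E → ℝ := fun y => a⁻¹ * φ (x₁ + r⁻¹ • R.symm y) + (-a⁻¹ * b) with hψ
  set Tz : E := x₀ + r • R z with hTz
  have hinv : ∀ y : E, x₀ + r • R (x₁ + r⁻¹ • R.symm y) = y := by
    intro y
    simp only [hx₁, map_add, map_neg, map_smul, LinearIsometryEquiv.apply_symm_apply, smul_add,
      smul_neg, smul_smul, mul_inv_cancel₀ hr.ne', one_smul]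
    abel
  have hinv' : x₁ + r⁻¹ • R.symm Tz = z := by
    simp only [hx₁, hTz, map_add, map_smul, LinearIsometryEquiv.symm_apply_apply, smul_add,
      smul_smul, inv_mul_cancel₀ hr.ne', one_smul]
    abel
  have hφ' : ContDiffAt ℝ 2 φ (x₁ + r⁻¹ • R.symm Tz) := by rwa [hinv']
  have hψc : ContDiffAt ℝ 2 ψ Tz := by
    have h1 : ContDiffAt ℝ 2 (fun y : E => x₁ + r⁻¹ • R.symm y) Tz := by
      have h0 : ContDiff ℝ 2 (fun y : E => R.symm y) := R.symm.toContinuousLinearEquiv.contDiff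
      exact (contDiff_const.add (h0.const_smul r⁻¹)).contDiffAt
    have h2 : ContDiffAt ℝ 2 (fun y => φ (x₁ + r⁻¹ • R.symm y)) Tz :=
      ContDiffAt.comp Tz hφ' h1
    exact (contDiffAt_const.mul h2).add contDiffAt_const
  have hlap : infLaplacian ψ Tz = (a⁻¹) ^ 3 * (r⁻¹) ^ 4 * infLaplacian φ z := by
    have := infLaplacian_comp_affine (φ := φ) R.symm x₁ Tz a⁻¹ (-a⁻¹ * b) r⁻¹ hφ'
    rw [hinv'] at this
    exact this
  have hcomp : ∀ y : E, u y - ψ y = a⁻¹ * ((a * u (x₀ + r • R (x₁ + r⁻¹ • R.symm y)) + b)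
      - φ (x₁ + r⁻¹ • R.symm y)) := by
    intro y
    rw [hinv y]
    simp only [hψ]
    field_simp
    ring
  have hSc : Filter.Tendsto (fun y : E => x₁ + r⁻¹ • R.symm y) (𝓝 Tz) (𝓝 z) := by
    have : Continuous (fun y : E => x₁ + r⁻¹ • R.symm y) := by fun_prop
    have h := this.tendsto Tz
    rwa [hinv'] at h
  have hcompz : u Tz - ψ Tz = a⁻¹ * ((a * u (x₀ + r • R z) + b) - φ z) := by
    rw [hcomp, hinv']
  have hr4 : 0 < (r⁻¹) ^ 4 := by positivity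
  rcases lt_or_gt_of_ne ha with hneg | hpos
  · have hai : a⁻¹ < 0 := inv_lt_zero.2 hneg
    have ha3 : (a⁻¹) ^ 3 < 0 := by
      have : (a⁻¹) ^ 3 = a⁻¹ * (a⁻¹) ^ 2 := by ring
      rw [this]; exact mul_neg_of_neg_of_pos hai (by positivity)
    constructor
    · intro hm
      have hmin : IsLocalMin (fun y => u y - ψ y) Tz := by
        filter_upwards [hSc.eventually hm] with y hy
        rw [hcomp y, hcompz]
        exact mul_le_mul_of_nonpos_left hy hai.le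
      have := (hu.2 Tz (hΩ z hz) ψ hψc).2 hmin
      rw [hlap] at this
      by_contra hcon
      push Not at hcon
      have : 0 < (a⁻¹) ^ 3 * (r⁻¹) ^ 4 * infLaplacian φ z :=
        mul_pos_of_neg_of_neg (mul_neg_of_neg_of_pos ha3 hr4) hcon
      linarith
    · intro hm
      have hmax : IsLocalMax (fun y => u y - ψ y) Tz := by
        filter_upwards [hSc.eventually hm] with y hy
        rw [hcomp y, hcompz]
        exact mul_le_mul_of_nonpos_left hy hai.le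
      have := (hu.2 Tz (hΩ z hz) ψ hψc).1 hmax
      rw [hlap] at this
      by_contra hcon
      push Not at hcon
      have : (a⁻¹) ^ 3 * (r⁻¹) ^ 4 * infLaplacian φ z < 0 :=
        mul_neg_of_neg_of_pos (mul_neg_of_neg_of_pos ha3 hr4) hcon
      linarith
  · have hai : 0 < a⁻¹ := inv_pos.2 hpos
    have ha3 : 0 < (a⁻¹) ^ 3 := by positivity
    constructor
    · intro hm
      have hmax : IsLocalMax (fun y => u y - ψ y) Tz := by
        filter_upwards [hSc.eventually hm] with y hy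
        rw [hcomp y, hcompz]
        exact mul_le_mul_of_nonneg_left hy hai.le
      have := (hu.2 Tz (hΩ z hz) ψ hψc).1 hmax
      rw [hlap] at this
      by_contra hcon
      push Not at hcon
      have : (a⁻¹) ^ 3 * (r⁻¹) ^ 4 * infLaplacian φ z < 0 :=
        mul_neg_of_pos_of_neg (mul_pos ha3 hr4) hcon
      linarith
    · intro hm
      have hmin : IsLocalMin (fun y => u y - ψ y) Tz := by
        filter_upwards [hSc.eventually hm] with y hy
        rw [hcomp y, hcompz]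
        exact mul_le_mul_of_nonneg_left hy hai.le
      have := (hu.2 Tz (hΩ z hz) ψ hψc).2 hmin
      rw [hlap] at this
      by_contra hcon
      push Not at hcon
      have : 0 < (a⁻¹) ^ 3 * (r⁻¹) ^ 4 * infLaplacian φ z :=
        mul_pos (mul_pos ha3 hr4) hcon
      linarith

/-- Special case: translation, dilation, normalisation. -/
theorem infHarm_comp_homothety {u : EuclideanSpace ℝ ι → ℝ}
    {Ω Ω' : Set (EuclideanSpace ℝ ι)} (hu : IsInfinityHarmonicOn u Ω)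
    (x₀ : E) (a b : ℝ) {r : ℝ} (hr : 0 < r) (hΩ : ∀ x ∈ Ω', x₀ + r • x ∈ Ω) :
    IsInfinityHarmonicOn (fun x => a * u (x₀ + r • x) + b) Ω' := by
  simpa using infHarm_comp_affine hu (LinearIsometryEquiv.refl ℝ E) x₀ a b hr (by simpa using hΩ)


/-! ### The end game -/

/-- The centred first order expansion at `0` for normalised infinity harmonic functions. -/
def CentredExpansion (d : ℕ) : Prop :=
  ∃ α : ℝ, 0 < α ∧ α ≤ 1 / 3 ∧ ∃ C ρ : ℝ, 0 < ρ ∧ ρ ≤ 1 ∧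
    ∀ v : EuclideanSpace ℝ (Fin d) → ℝ,
      IsInfinityHarmonicOn v (Metric.ball 0 1) →
      (∀ x ∈ Metric.ball (0 : EuclideanSpace ℝ (Fin d)) 1, |v x| ≤ 1) →
      ∃ p : EuclideanSpace ℝ (Fin d), ‖p‖ ≤ C ∧
        ∀ y : EuclideanSpace ℝ (Fin d), ‖y‖ < ρ →
          |v y - v 0 - ⟪p, y⟫| ≤ C * ‖y‖ ^ (1 + α)

/-- A first order expansion with error `O(‖z‖^(1+α))` gives the gradient. -/
theorem hasGradientAt_of_expansion {u : EuclideanSpace ℝ ι → ℝ} {x P : EuclideanSpace ℝ ι}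
    {A ρ α : ℝ} (hρ : 0 < ρ) (hα : 0 < α)
    (h : ∀ z : EuclideanSpace ℝ ι, ‖z‖ < ρ → |u (x + z) - u x - ⟪P, z⟫| ≤ A * ‖z‖ ^ (1 + α)) :
    HasGradientAt u P x := by
  rw [hasGradientAt_iff_hasFDerivAt, hasFDerivAt_iff_isLittleO_nhds_zero]
  have h1 : (fun z : EuclideanSpace ℝ ι => u (x + z) - u x - (InnerProductSpace.toDual ℝ _ P) z)
      =O[𝓝 0] (fun z => ‖z‖ ^ (1 + α)) := by
    refine Asymptotics.IsBigO.of_bound |A| ?_
    filter_upwards [Metric.ball_mem_nhds (0 : EuclideanSpace ℝ ι) hρ] with z hz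
    have hz' : ‖z‖ < ρ := by simpa using hz
    have h2 := h z hz'
    rw [Real.norm_eq_abs, InnerProductSpace.toDual_apply_apply]
    refine h2.trans ?_
    have h3 : 0 ≤ ‖z‖ ^ (1 + α) := Real.rpow_nonneg (norm_nonneg _) _
    rw [Real.norm_of_nonneg h3]
    exact mul_le_mul_of_nonneg_right (le_abs_self A) h3
  refine h1.trans_isLittleO ?_
  rw [Asymptotics.isLittleO_iff]
  intro c hc
  have h5 : Filter.Tendsto (fun z : EuclideanSpace ℝ ι => ‖z‖ ^ α) (𝓝 0) (𝓝 0) := by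
    have : Filter.Tendsto (fun z : EuclideanSpace ℝ ι => ‖z‖) (𝓝 0) (𝓝 0) := by
      have h0 : Continuous (fun z : EuclideanSpace ℝ ι => ‖z‖) := continuous_norm
      simpa using h0.tendsto 0
    have h6 := this.rpow_const (p := α) (Or.inr hα.le)
    simpa [Real.zero_rpow hα.ne'] using h6
  have h7 : ∀ᶠ z : EuclideanSpace ℝ ι in 𝓝 0, ‖z‖ ^ α < c := h5.eventually (gt_mem_nhds hc)
  filter_upwards [h7] with z hz
  have h3 : 0 ≤ ‖z‖ ^ (1 + α) := Real.rpow_nonneg (norm_nonneg _) _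
  rw [Real.norm_of_nonneg h3]
  rcases eq_or_ne z 0 with rfl | hne
  · simp [Real.zero_rpow (by linarith : (1 + α) ≠ 0)]
  · have hpos : 0 < ‖z‖ := norm_pos_iff.2 hne
    rw [Real.rpow_add hpos, Real.rpow_one]
    nlinarith [norm_nonneg z]

/-- **End game**: the statement of S0124 from the centred expansion. -/
theorem S0124_of_centred (d : ℕ) (hcen : CentredExpansion d) :
    ∃ α : ℝ, 0 < α ∧ α ≤ 1 / 3 ∧ ∃ C : ℝ,
      ∀ u : EuclideanSpace ℝ (Fin d) → ℝ,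
        Crest.AnalysisR.PDE.IsInfinityHarmonicOn u (Metric.ball 0 1) →
        ∀ M : ℝ, (∀ x ∈ Metric.ball (0 : EuclideanSpace ℝ (Fin d)) 1,
            ∀ y ∈ Metric.ball (0 : EuclideanSpace ℝ (Fin d)) 1, u x - u y ≤ M) →
          (∀ x ∈ Metric.ball (0 : EuclideanSpace ℝ (Fin d)) 2⁻¹, DifferentiableAt ℝ u x) ∧
          ∀ x ∈ Metric.ball (0 : EuclideanSpace ℝ (Fin d)) 2⁻¹,
            ∀ y ∈ Metric.ball (0 : EuclideanSpace ℝ (Fin d)) 2⁻¹,
              ‖∇ u x‖ ≤ C * M ∧ ‖∇ u x - ∇ u y‖ ≤ C * M * ‖x - y‖ ^ α := by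
  obtain ⟨α, hα0, hα1, C, ρ, hρ0, hρ1, H⟩ := hcen
  have hC : 0 ≤ C := by
    obtain ⟨p, hp, _⟩ := H (fun _ => 0) (isInfinityHarmonicOn_const 0 _) (by simp)
    exact (norm_nonneg p).trans hp
  refine ⟨α, hα0, hα1, 4 * C * (6 + 16 / ρ), fun u hu M hM => ?_⟩
  have hM0 : 0 ≤ M := by
    have := hM 0 (by simp) 0 (by simp)
    simpa using this
  set A : ℝ := 4 * C * M with hA
  have hA0 : 0 ≤ A := by positivity
  have hρ16 : 0 ≤ 16 / ρ := by positivity
  have h2α : (2 : ℝ) ^ (1 + α) ≤ 4 := by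
    calc (2 : ℝ) ^ (1 + α) ≤ (2 : ℝ) ^ (2 : ℝ) :=
          Real.rpow_le_rpow_of_exponent_le (by norm_num) (by linarith)
      _ = 4 := by norm_num
  -- expansion at every point
  have key : ∀ x ∈ Metric.ball (0 : EuclideanSpace ℝ (Fin d)) 2⁻¹,
      ∃ P : EuclideanSpace ℝ (Fin d), ‖P‖ ≤ A ∧ ∀ z : EuclideanSpace ℝ (Fin d), ‖z‖ < ρ / 2 →
        |u (x + z) - u x - ⟪P, z⟫| ≤ A * ‖z‖ ^ (1 + α) := by
    intro x hx
    have hx' : ‖x‖ < 2⁻¹ := by simpa using hx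
    have hxb : x ∈ Metric.ball (0 : EuclideanSpace ℝ (Fin d)) 1 := by
      simp; linarith
    have hin : ∀ y ∈ Metric.ball (0 : EuclideanSpace ℝ (Fin d)) 1,
        x + (2⁻¹ : ℝ) • y ∈ Metric.ball (0 : EuclideanSpace ℝ (Fin d)) 1 := by
      intro y hy
      have hy' : ‖y‖ < 1 := by simpa using hy
      have : ‖x + (2⁻¹ : ℝ) • y‖ ≤ ‖x‖ + 2⁻¹ * ‖y‖ := by
        refine (norm_add_le _ _).trans ?_
        rw [norm_smul]; norm_num
      simp only [Metric.mem_ball, dist_zero_right]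
      linarith
    rcases hM0.eq_or_lt with h0 | hMpos
    · -- M = 0 : u is constant on the ball
      refine ⟨0, by simpa using hA0, fun z hz => ?_⟩
      have hz1 : ‖z‖ < 2⁻¹ := by linarith
      have hxz : x + z ∈ Metric.ball (0 : EuclideanSpace ℝ (Fin d)) 1 := by
        simp only [Metric.mem_ball, dist_zero_right]
        have := norm_add_le x z
        linarith
      have h1 := hM _ hxz _ hxb
      have h2 := hM _ hxb _ hxz
      have h3 : u (x + z) - u x = 0 := by linarith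
      rw [h3]
      simp only [inner_zero_left, sub_zero, abs_zero]
      positivity
    · set v : EuclideanSpace ℝ (Fin d) → ℝ :=
        fun y => M⁻¹ * u (x + (2⁻¹ : ℝ) • y) + (-(M⁻¹ * u x)) with hv
      have hvh : IsInfinityHarmonicOn v (Metric.ball 0 1) :=
        infHarm_comp_homothety hu x M⁻¹ (-(M⁻¹ * u x)) (by norm_num) hin
      have hvb : ∀ y ∈ Metric.ball (0 : EuclideanSpace ℝ (Fin d)) 1, |v y| ≤ 1 := by
        intro y hy
        have h1 := hM _ (hin y hy) _ hxb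
        have h2 := hM _ hxb _ (hin y hy)
        have h3 : v y = M⁻¹ * (u (x + (2⁻¹ : ℝ) • y) - u x) := by simp only [hv]; ring
        rw [h3, abs_mul, abs_of_pos (inv_pos.2 hMpos)]
        rw [inv_mul_le_iff₀ hMpos, mul_one, abs_le]
        constructor <;> linarith
      obtain ⟨p, hp, hexp⟩ := H v hvh hvb
      refine ⟨(2 * M) • p, ?_, fun z hz => ?_⟩
      · rw [norm_smul, Real.norm_of_nonneg (by positivity)]
        calc 2 * M * ‖p‖ ≤ 2 * M * C := by gcongr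
          _ ≤ A := by rw [hA]; nlinarith [mul_nonneg hC hM0]
      · have h2z : ‖(2 : ℝ) • z‖ = 2 * ‖z‖ := by rw [norm_smul]; norm_num
        have h1 := hexp ((2 : ℝ) • z) (by rw [h2z]; linarith)
        have h2 : v ((2 : ℝ) • z) - v 0 - ⟪p, (2 : ℝ) • z⟫
            = M⁻¹ * (u (x + z) - u x - ⟪(2 * M) • p, z⟫) := by
          simp only [hv, smul_smul, inner_smul_left, inner_smul_right, smul_zero, add_zero]
          norm_num
          field_simp
          ring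
        rw [h2, abs_mul, abs_of_pos (inv_pos.2 hMpos), inv_mul_le_iff₀ hMpos, h2z,
          Real.mul_rpow (by norm_num) (norm_nonneg _)] at h1
        refine h1.trans ?_
        have h3 : 0 ≤ ‖z‖ ^ (1 + α) := Real.rpow_nonneg (norm_nonneg _) _
        have h4 : C * ((2 : ℝ) ^ (1 + α) * ‖z‖ ^ (1 + α)) ≤ C * (4 * ‖z‖ ^ (1 + α)) := by
          gcongr
        calc M * (C * ((2 : ℝ) ^ (1 + α) * ‖z‖ ^ (1 + α)))
            ≤ M * (C * (4 * ‖z‖ ^ (1 + α))) := by gcongr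
          _ = A * ‖z‖ ^ (1 + α) := by rw [hA]; ring
  choose! P hP hexp using key
  have hgrad : ∀ x ∈ Metric.ball (0 : EuclideanSpace ℝ (Fin d)) 2⁻¹, HasGradientAt u (P x) x :=
    fun x hx => hasGradientAt_of_expansion (by positivity : 0 < ρ / 2) hα0 (hexp x hx)
  refine ⟨fun x hx => (hgrad x hx).differentiableAt, fun x hx y hy => ?_⟩
  have hCM : 4 * C * (6 + 16 / ρ) * M = A * (6 + 16 / ρ) := by rw [hA]; ring
  rw [(hgrad x hx).gradient, (hgrad y hy).gradient, hCM]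
  constructor
  · refine (hP x hx).trans ?_
    nlinarith [mul_nonneg hA0 hρ16]
  set r : ℝ := ‖x - y‖ with hr
  have hr0 : 0 ≤ r := norm_nonneg _
  rcases hr0.eq_or_lt with h0 | hrpos
  · have hxy : x = y := by
      rw [← sub_eq_zero, ← norm_eq_zero, ← hr, ← h0]
    rw [hxy, sub_self, norm_zero]
    have : 0 ≤ r ^ α := Real.rpow_nonneg hr0 _
    positivity
  have hrα : 0 < r ^ α := Real.rpow_pos_of_pos hrpos _
  rcases lt_or_ge r (ρ / 8) with hsmall | hlarge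
  · -- small distances
    set D := P x - P y with hD
    rcases eq_or_ne D 0 with hD0 | hD0
    · rw [hD0, norm_zero]; positivity
    have hDn : 0 < ‖D‖ := norm_pos_iff.2 hD0
    set z : EuclideanSpace ℝ (Fin d) := (r / ‖D‖) • D with hz
    have hzn : ‖z‖ = r := by
      rw [hz, norm_smul, Real.norm_of_nonneg (by positivity)]
      field_simp
    have hyx : ‖y - x‖ = r := by rw [hr, norm_sub_rev]
    have e1 : |u (x + ((y - x) + z)) - u x - ⟪P x, (y - x) + z⟫|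
        ≤ A * ‖(y - x) + z‖ ^ (1 + α) := by
      apply hexp x hx
      have := norm_add_le (y - x) z
      rw [hzn, hyx] at this
      linarith
    have e1' : ‖(y - x) + z‖ ^ (1 + α) ≤ 4 * r ^ (1 + α) := by
      have h1 : ‖(y - x) + z‖ ≤ 2 * r := by
        have := norm_add_le (y - x) z
        rw [hzn, hyx] at this
        linarith
      calc ‖(y - x) + z‖ ^ (1 + α) ≤ (2 * r) ^ (1 + α) :=
            Real.rpow_le_rpow (norm_nonneg _) h1 (by linarith)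
        _ = (2 : ℝ) ^ (1 + α) * r ^ (1 + α) := Real.mul_rpow (by norm_num) hr0
        _ ≤ 4 * r ^ (1 + α) := by gcongr
    have e2 : |u (y + z) - u y - ⟪P y, z⟫| ≤ A * r ^ (1 + α) := by
      have := hexp y hy z (by rw [hzn]; linarith)
      rwa [hzn] at this
    have e3 : |u (x + (y - x)) - u x - ⟪P x, y - x⟫| ≤ A * r ^ (1 + α) := by
      have := hexp x hx (y - x) (by rw [hyx]; linarith)
      rwa [hyx] at this
    have hxyz : x + ((y - x) + z) = y + z := by abel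
    have hxy : x + (y - x) = y := by abel
    rw [hxyz, inner_add_right] at e1
    rw [hxy] at e3
    have hDz : ⟪P x, z⟫ - ⟪P y, z⟫ = r * ‖D‖ := by
      rw [← inner_sub_left, ← hD, hz, inner_smul_right, real_inner_self_eq_norm_sq]
      field_simp
    have hr1 : 0 ≤ r ^ (1 + α) := Real.rpow_nonneg hr0 _
    have e1'' : |u (y + z) - u x - (⟪P x, y - x⟫ + ⟪P x, z⟫)| ≤ 4 * A * r ^ (1 + α) := by
      refine e1.trans ?_
      calc A * ‖(y - x) + z‖ ^ (1 + α) ≤ A * (4 * r ^ (1 + α)) := by gcongr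
        _ = 4 * A * r ^ (1 + α) := by ring
    have hsum : r * ‖D‖ ≤ 6 * A * r ^ (1 + α) := by
      rw [← hDz]
      have a1 := abs_le.1 e1''
      have a2 := abs_le.1 e2
      have a3 := abs_le.1 e3
      linarith [a1.1, a1.2, a2.1, a2.2, a3.1, a3.2]
    rw [Real.rpow_add hrpos, Real.rpow_one] at hsum
    have h6 : ‖D‖ ≤ 6 * A * r ^ α := by
      have : r * ‖D‖ ≤ r * (6 * A * r ^ α) := by linarith
      exact le_of_mul_le_mul_left this hrpos
    calc ‖D‖ ≤ 6 * A * r ^ α := h6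
      _ ≤ A * (6 + 16 / ρ) * r ^ α := by
        have : 6 * A ≤ A * (6 + 16 / ρ) := by nlinarith [mul_nonneg hA0 hρ16]
        gcongr
  · -- large distances
    have h1 : ‖P x - P y‖ ≤ 2 * A := by
      have := norm_sub_le (P x) (P y)
      have := hP x hx
      have := hP y hy
      linarith
    have h2 : 1 ≤ 8 / ρ * r ^ α := by
      have h3 : (ρ / 8) ≤ (ρ / 8) ^ α := by
        have : ρ / 8 ≤ 1 := by linarith
        calc ρ / 8 = (ρ / 8) ^ (1 : ℝ) := (Real.rpow_one _).symm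
          _ ≤ (ρ / 8) ^ α :=
            Real.rpow_le_rpow_of_exponent_ge (by positivity) this (by linarith)
      have h4 : (ρ / 8) ^ α ≤ r ^ α := Real.rpow_le_rpow (by positivity) hlarge hα0.le
      have h5 : ρ / 8 ≤ r ^ α := h3.trans h4
      calc (1 : ℝ) = 8 / ρ * (ρ / 8) := by field_simp
        _ ≤ 8 / ρ * r ^ α := by gcongr
    calc ‖P x - P y‖ ≤ 2 * A := h1
      _ ≤ 2 * A * (8 / ρ * r ^ α) := by nlinarith
      _ = A * (16 / ρ) * r ^ α := by ring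
      _ ≤ A * (6 + 16 / ρ) * r ^ α := by gcongr; linarith

end Crest.Agent.R094
end

-- ▼ part R094/S2Zoom
section

set_option autoImplicit false

namespace Crest.Agent.R094.S2

open Crest.Agent.R094.Cones Filter Set Metric
open scoped Topology RealInnerProductSpace

/-! ### decay of the defect gives the expansion -/

theorem centred_of_decay {d : ℕ} {a C : ℝ} (ha : 0 < a)
    (h : ∀ t, 0 < t → t ≤ 1 → NN (Fin d) t ≤ C * t ^ a) : CentredExpansion d := by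
  set C1 : ℝ := |C| + 1 with hC1
  have hC10 : 0 < C1 := by positivity
  set τ1 : ℝ := min 1 (1 / (4 * C1)) with hτ1
  have hτ10 : 0 < τ1 := lt_min one_pos (by positivity)
  obtain ⟨α, hα0, hα1, C', hC', r1, hr1, hexp⟩ :=
    expansion (V := EuclideanSpace ℝ (Fin d)) ha hC10 hτ10
  set ρ : ℝ := min r1 (1 / 2) with hρ
  have hρ0 : 0 < ρ := lt_min hr1 (by norm_num)
  have hρr : ρ ≤ r1 := min_le_left _ _
  have hρ2 : ρ ≤ 1 / 2 := min_le_right _ _
  refine ⟨min α (1 / 3), lt_min hα0 (by norm_num), min_le_right _ _, 8 + C', ρ, hρ0,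
    by linarith, ?_⟩
  intro v hv hv1
  have hadm : Adm v := ⟨CC.of_harm hv, hv1⟩
  have hFU : ∀ τ, 0 < τ → τ ≤ τ1 → FU v 0 τ (C1 * τ ^ (1 + a)) := by
    intro τ hτ hττ1
    have hτle1 : τ ≤ 1 := hττ1.trans (min_le_left _ _)
    have hτle2 : τ ≤ 1 / (4 * C1) := hττ1.trans (min_le_right _ _)
    have hta : 0 < τ ^ a := Real.rpow_pos_of_pos hτ a
    have hta1 : τ ^ a ≤ 1 := Real.rpow_le_one hτ.le hτle1 ha.le
    have h1 : NN (Fin d) τ < C1 * τ ^ a := by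
      calc NN (Fin d) τ ≤ C * τ ^ a := h τ hτ hτle1
        _ < C1 * τ ^ a := by
            apply mul_lt_mul_of_pos_right _ hta
            rw [hC1]; linarith [le_abs_self C]
    have h2 : C1 * τ ^ a * τ ^ 2 ≤ 1 / 4 := by
      calc C1 * τ ^ a * τ ^ 2 ≤ C1 * 1 * τ := by
            apply mul_le_mul
            · exact mul_le_mul_of_nonneg_left hta1 hC10.le
            · nlinarith
            · positivity
            · positivity
        _ ≤ C1 * 1 * (1 / (4 * C1)) := by gcongr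
        _ = 1 / 4 := by field_simp
    have h3 := good_of_NN_lt hτ h1 h2 hadm
    rw [Real.rpow_add hτ, Real.rpow_one, mul_comm τ, ← mul_assoc]
    exact h3
  obtain ⟨p, hp⟩ := hexp v hFU
  have hsmall : ∀ x : EuclideanSpace ℝ (Fin d), ‖x‖ ≤ ρ → ‖x‖ ^ (1 + α) ≤ ‖x‖ := by
    intro x hx
    rcases (norm_nonneg x).eq_or_lt with h0 | h0
    · rw [← h0, Real.zero_rpow (by linarith)]
    · calc ‖x‖ ^ (1 + α) ≤ ‖x‖ ^ (1 : ℝ) :=
            Real.rpow_le_rpow_of_exponent_ge h0 (by linarith) (by linarith)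
        _ = ‖x‖ := Real.rpow_one _
  refine ⟨p, ?_, ?_⟩
  · have := slope_diff (u := v) (p := p) (p' := 0) (η := C' * ρ) (η' := 8 * ρ) hρ0
      (fun x hx => by
        calc |v x - v 0 - inner ℝ p x| ≤ C' * ‖x‖ ^ (1 + α) := hp x (hx.trans hρr)
          _ ≤ C' * ρ := mul_le_mul_of_nonneg_left ((hsmall x hx).trans hx) hC')
      (fun x hx => by
        rw [inner_zero_left, sub_zero]
        have h1 := hadm.lip (x := x) (y := 0) (hx.trans hρ2) (by simp)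
        rw [sub_zero] at h1
        linarith)
    rw [sub_zero] at this
    calc ‖p‖ ≤ (C' * ρ + 8 * ρ) / ρ := this
      _ = 8 + C' := by field_simp; ring
  · intro y hy
    have h1 := hp y (hy.le.trans hρr)
    refine h1.trans ?_
    have h2 : ‖y‖ ^ (1 + α) ≤ ‖y‖ ^ (1 + min α (1 / 3)) := by
      rcases (norm_nonneg y).eq_or_lt with h0 | h0
      · have : 0 ≤ min α (1 / 3) := le_min hα0.le (by norm_num)
        rw [← h0, Real.zero_rpow (by linarith), Real.zero_rpow (by linarith)]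
      · apply Real.rpow_le_rpow_of_exponent_ge h0 (by linarith)
        have := min_le_left α (1 / 3)
        linarith
    have h3 : 0 ≤ ‖y‖ ^ (1 + min α (1 / 3)) := by positivity
    calc C' * ‖y‖ ^ (1 + α) ≤ C' * ‖y‖ ^ (1 + min α (1 / 3)) := mul_le_mul_of_nonneg_left h2 hC'
      _ ≤ (8 + C') * ‖y‖ ^ (1 + min α (1 / 3)) := by
          apply mul_le_mul_of_nonneg_right _ h3; linarith

/-! ### one scale -/

variable {ι : Type*} [Fintype ι]

local notation "E" => EuclideanSpace ℝ ι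

/-- the selected scale controls all other scales -/
lemma scale_bound {τ ε : ℝ} (h0 : 0 < τ) (h1 : τ ≤ 1) (hε0 : 0 < ε) (hε8 : ε ≤ 1 / 8)
    (hsel : ∀ t, 0 < t → t ≤ 1 → NN ι t ≤ (1 + ε) * max (t / τ) (τ / t) ^ ε * NN ι τ)
    {τ' M : ℝ} (hτ' : 0 < τ') (hM1 : 4 * τ' ≤ M) (hM2 : 1 / (4 * τ') ≤ M)
    (hM : (1 + ε) * M ^ ε < 2) {s : ℝ} (hs : 1 ≤ s) (hs4 : 4 * (τ * (s * τ')) ≤ 1)
    (hs5 : 2 * s ^ ((1 : ℝ) / 8) * 64 * (4 * (τ * (s * τ'))) ^ 2 ≤ 1 / 4)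
    {u : E → ℝ} (hu : Adm u) {x : E} (hx : ‖x‖ ≤ 1 / 2) :
    FU u x (τ * (s * τ')) (NN ι τ * τ * (8 * τ' * s ^ ((9 : ℝ) / 8))) := by
  have hs0 : 0 < s := by linarith
  have hM0 : 0 < M := lt_of_lt_of_le (by positivity) hM1
  apply FU_recentre
  set t : ℝ := 4 * (τ * (s * τ')) with ht
  have ht0 : 0 < t := by positivity
  have hN : 0 < NN ι τ := NN_pos h0
  set ν : ℝ := 2 * s ^ ((1 : ℝ) / 8) * NN ι τ with hν
  have hνt : NN ι τ * τ * (8 * τ' * s ^ ((9 : ℝ) / 8)) = ν * t := by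
    rw [rpow_nine_eighths hs0, hν, ht]; ring
  rw [hνt]
  apply good_of_NN_lt ht0 _ _ (hu.recentre hx)
  · have hmax : max (t / τ) (τ / t) ≤ s * M := by
      apply max_le
      · calc t / τ = s * (4 * τ') := by rw [ht]; field_simp
          _ ≤ s * M := by gcongr
      · calc τ / t = (1 / s) * (1 / (4 * τ')) := by rw [ht]; field_simp
          _ ≤ s * M := by
              apply mul_le_mul _ hM2 (by positivity) hs0.le
              rw [div_le_iff₀ hs0]; nlinarith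
    have hmax0 : 0 ≤ max (t / τ) (τ / t) := le_max_of_le_left (by positivity)
    have hp1 : max (t / τ) (τ / t) ^ ε ≤ s ^ ((1 : ℝ) / 8) * M ^ ε := by
      calc max (t / τ) (τ / t) ^ ε ≤ (s * M) ^ ε := Real.rpow_le_rpow hmax0 hmax hε0.le
        _ = s ^ ε * M ^ ε := Real.mul_rpow hs0.le hM0.le
        _ ≤ s ^ ((1 : ℝ) / 8) * M ^ ε := by
            apply mul_le_mul_of_nonneg_right _ (by positivity)
            exact Real.rpow_le_rpow_of_exponent_le hs hε8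
    have hs8 : 0 < s ^ ((1 : ℝ) / 8) := by positivity
    calc NN ι t ≤ (1 + ε) * max (t / τ) (τ / t) ^ ε * NN ι τ := hsel t ht0 hs4
      _ ≤ (1 + ε) * (s ^ ((1 : ℝ) / 8) * M ^ ε) * NN ι τ := by gcongr
      _ = ((1 + ε) * M ^ ε) * (s ^ ((1 : ℝ) / 8) * NN ι τ) := by ring
      _ < 2 * (s ^ ((1 : ℝ) / 8) * NN ι τ) := by
          apply mul_lt_mul_of_pos_right hM (by positivity)
      _ = ν := by rw [hν]; ring
  · calc ν * t ^ 2 = 2 * s ^ ((1 : ℝ) / 8) * NN ι τ * t ^ 2 := by rw [hν]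
      _ ≤ 2 * s ^ ((1 : ℝ) / 8) * 64 * t ^ 2 := by
          have := NN_le (ι := ι) h0 h1
          gcongr
      _ ≤ 1 / 4 := hs5

/-- bound of the slope of an admissible function in a box -/
lemma slope_bound {u : E → ℝ} (hu : Adm u) {τ N : ℝ} (hτ : 0 < τ) (hN : 0 < N) (hN64 : N ≤ 64)
    (hτ1 : τ ≤ 1 / 64) {p : E} {b : ℝ}
    (h : ∀ (x : E) (t : ℝ), |t| ≤ τ → ‖x‖ ^ 2 ≤ N * τ * 8 * τ →
      |u ((0 : E) + t • p + x) - u 0 - ⟪p, x⟫ - b * t| ≤ N * τ * 8) : ‖p‖ ≤ 32 := by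
  set r : ℝ := Real.sqrt (N * 8) * τ with hr
  have hsq : Real.sqrt (N * 8) ^ 2 = N * 8 := Real.sq_sqrt (by positivity)
  have hsq0 : 0 < Real.sqrt (N * 8) := Real.sqrt_pos.2 (by positivity)
  have hsq23 : Real.sqrt (N * 8) ≤ 23 := by
    apply Real.sqrt_le_iff.2
    constructor
    · norm_num
    · nlinarith
  have hr0 : 0 < r := by positivity
  have hr2 : r ≤ 1 / 2 := by
    rw [hr]; nlinarith
  have := slope_diff (u := u) (p := p) (p' := 0) (η := N * τ * 8) (η' := 8 * r) hr0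
    (fun x hx => by
      have hx2 : ‖x‖ ^ 2 ≤ N * τ * 8 * τ := by
        calc ‖x‖ ^ 2 ≤ r ^ 2 := pow_le_pow_left₀ (norm_nonneg _) hx 2
          _ = N * τ * 8 * τ := by rw [hr, mul_pow, hsq]; ring
      have := h x 0 (by simpa using hτ.le) hx2
      simpa using this)
    (fun x hx => by
      rw [inner_zero_left, sub_zero]
      have h1 := hu.lip (x := x) (y := 0) (hx.trans hr2) (by simp)
      rw [sub_zero] at h1
      linarith)
  rw [sub_zero] at this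
  have e : (N * τ * 8 + 8 * r) / r = Real.sqrt (N * 8) + 8 := by
    have e1 : N * τ * 8 = Real.sqrt (N * 8) * r := by
      rw [hr, ← mul_assoc, ← pow_two, hsq]; ring
    rw [e1]; field_simp
  rw [e] at this
  linarith

/-- growth from the centre -/
lemma growth_centre {V : Type*} [NormedAddCommGroup V] [InnerProductSpace ℝ V]
    {w : V → ℝ → ℝ} {A Λ : ℝ} (hA : 0 ≤ A) (h1 : FB w 0 0 0 0 1 A)
    (h : ∀ s, 1 ≤ s → s ≤ Λ → ∃ (p : V) (b : ℝ), FB w 0 0 p b s (A * s ^ ((9 : ℝ) / 8)))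
    (h0 : w 0 0 = 0) {x : V} {t R : ℝ} (hx : ‖x‖ + |t| ≤ R)
    (hΛ : (cD A * (1 + R)) ^ ((8 : ℝ) / 7) ≤ Λ) :
    |w x t| ≤ cK A * (1 + (‖x‖ + |t|)) ^ ((3 : ℝ) / 2) := by
  classical
  choose! P B hPB using h
  let P' : ℝ → V := fun s => if s = 1 then 0 else P s
  let B' : ℝ → ℝ := fun s => if s = 1 then 0 else B s
  have hF : ∀ s, 1 ≤ s → s ≤ Λ →
      FB w 0 0 (P' s) (B' s) (s * 1) (A * 1 * s ^ ((9 : ℝ) / 8)) := by
    intro s hs hsΛ
    rw [mul_one, mul_one]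
    by_cases hs1 : s = 1
    · subst hs1
      simp only [P', B', if_true]
      simpa using h1
    · simp only [P', B', if_neg hs1]
      exact hPB s hs hsΛ
  have hcD : 0 ≤ cD A := by unfold cD c1; positivity
  have hr0 : 0 ≤ ‖x‖ + |t| := by positivity
  have := growth (w := w) (x0 := 0) (t0 := 0) (P := P') (B := B') (τ := 1) (A := A) (Λ := Λ)
    one_pos hA hF (x := x) (t := t) (r := ‖x‖ + |t|) hr0 (by rw [mul_one])
    (by
      refine le_trans ?_ hΛ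
      apply Real.rpow_le_rpow (by positivity) _ (by norm_num)
      apply mul_le_mul_of_nonneg_left _ hcD
      linarith)
  simp only [P', B', if_true, smul_zero, zero_add, h0, inner_zero_left, zero_mul, sub_zero,
    mul_one] at this
  exact this

end Crest.Agent.R094.S2
end

-- ▼ part R094/S2Compact
section

set_option autoImplicit false

namespace Crest.Agent.R094.S2

open Filter Topology Set Metric

variable {V : Type*} [NormedAddCommGroup V] [InnerProductSpace ℝ V]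

/-- an eventually bounded real sequence converges along an ultrafilter -/
lemma ultra_real {F : Ultrafilter ℕ} {f : ℕ → ℝ} {M : ℝ} (h : ∀ᶠ k in (F : Filter ℕ), |f k| ≤ M) :
    ∃ a, |a| ≤ M ∧ Tendsto f F (𝓝 a) := by
  have hc : IsCompact (Icc (-M) M) := isCompact_Icc
  have hmem : Icc (-M) M ∈ (F.map f : Ultrafilter ℝ) := by
    rw [Ultrafilter.mem_map]
    filter_upwards [h] with k hk
    exact abs_le.1 hk
  obtain ⟨a, ha, hle⟩ := hc.ultrafilter_le_nhds (F.map f) (le_principal_iff.2 hmem)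
  exact ⟨a, abs_le.2 ha, hle⟩

/-- an eventually bounded sequence of vectors converges along an ultrafilter -/
lemma ultra_vec [FiniteDimensional ℝ V] {F : Ultrafilter ℕ} {f : ℕ → V} {M : ℝ}
    (h : ∀ᶠ k in (F : Filter ℕ), ‖f k‖ ≤ M) : ∃ a, Tendsto f F (𝓝 a) := by
  haveI : ProperSpace V := FiniteDimensional.proper ℝ V
  have hc : IsCompact (closedBall (0 : V) M) := isCompact_closedBall 0 M
  have hmem : closedBall (0 : V) M ∈ (F.map f : Ultrafilter V) := by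
    rw [Ultrafilter.mem_map]
    filter_upwards [h] with k hk
    simpa using hk
  obtain ⟨a, ha, hle⟩ := hc.ultrafilter_le_nhds (F.map f) (le_principal_iff.2 hmem)
  exact ⟨a, hle⟩

/-- Compactness along an ultrafilter. -/
theorem compactness [FiniteDimensional ℝ V] (F : Ultrafilter ℕ) (w : ℕ → V → ℝ → ℝ) {K κ : ℝ}
    (hK : 0 ≤ K) (hκ : 1 ≤ κ)
    (hgr : ∀ R : ℝ, ∀ᶠ k in (F : Filter ℕ), ∀ x t, ‖x‖ ≤ R → |t| ≤ R →
      |w k x t| ≤ K * (1 + (‖x‖ + |t|)) ^ (3 / 2 : ℝ))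
    (hfl : ∀ R τ : ℝ, 0 < τ → ∀ᶠ k in (F : Filter ℕ), ∀ x t, ‖x‖ ≤ R → |t| ≤ R →
      ∃ p b, Flat.Win κ (w k) x t τ p b) :
    ∃ W : V → ℝ → ℝ, (Continuous fun q : V × ℝ => W q.1 q.2) ∧
      (∀ x t, |W x t| ≤ K * (1 + (‖x‖ + |t|)) ^ (3 / 2 : ℝ)) ∧
      (∀ R ε : ℝ, 0 < ε → ∀ᶠ k in (F : Filter ℕ), ∀ x t, ‖x‖ ≤ R → |t| ≤ R →
        |w k x t - W x t| ≤ ε) ∧ Flat.FlatW κ W := by
  haveI : ProperSpace V := FiniteDimensional.proper ℝ V
  -- pointwise limits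
  have hpt : ∀ x t, ∃ a, |a| ≤ K * (1 + (‖x‖ + |t|)) ^ (3 / 2 : ℝ) ∧
      Tendsto (fun k => w k x t) F (𝓝 a) := by
    intro x t
    apply ultra_real
    filter_upwards [hgr (max ‖x‖ |t|)] with k hk
    exact hk x t (le_max_left _ _) (le_max_right _ _)
  choose W hWb hW using hpt
  -- uniform bound on bounded sets
  have hbd : ∀ R : ℝ, ∃ M : ℝ, 0 ≤ M ∧ ∀ᶠ k in (F : Filter ℕ), ∀ x t, ‖x‖ ≤ R → |t| ≤ R →
      |w k x t| ≤ M := by
    intro R
    refine ⟨K * (1 + (|R| + |R|)) ^ (3 / 2 : ℝ), by positivity, ?_⟩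
    filter_upwards [hgr R] with k hk x t hx ht
    refine (hk x t hx ht).trans ?_
    have h1 : ‖x‖ ≤ |R| := hx.trans (le_abs_self R)
    have h2 : |t| ≤ |R| := ht.trans (le_abs_self R)
    gcongr
  -- equicontinuity
  have heq : ∀ R ε : ℝ, 0 < ε → ∃ δ : ℝ, 0 < δ ∧ ∀ᶠ k in (F : Filter ℕ), ∀ x₀ t₀,
      ‖x₀‖ ≤ R → |t₀| ≤ R → ∀ x t, ‖x‖ ≤ δ → |t| ≤ δ →
        |w k (x₀ + x) (t₀ + t) - w k x₀ t₀| ≤ ε := by
    intro R ε hε
    obtain ⟨M, hM, hMk⟩ := hbd (R + 1)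
    obtain ⟨δ, hδ, -, N, hN⟩ := Flat.modulus (V := V) hκ hM hε
    refine ⟨δ, hδ, ?_⟩
    have hwin : ∀ᶠ k in (F : Filter ℕ), ∀ j ∈ Finset.range (N + 1), ∀ x t, ‖x‖ ≤ R → |t| ≤ R →
        ∃ p b, Flat.Win κ (w k) x t (2 ^ j * (1 / 2 ^ N)) p b := by
      rw [Filter.eventually_all_finset]
      intro j _
      exact hfl R _ (by positivity)
    filter_upwards [hMk, hwin] with k h1 h2 x₀ t₀ hx₀ ht₀
    apply hN (w k) x₀ t₀
    · intro x t hx ht
      apply h1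
      · exact (norm_add_le _ _).trans (add_le_add hx₀ hx)
      · exact (abs_add_le _ _).trans (add_le_add ht₀ ht)
    · intro j hj
      exact h2 j (Finset.mem_range.2 (by omega)) x₀ t₀ hx₀ ht₀
  -- modulus of continuity of the limit
  have hWeq : ∀ R ε : ℝ, 0 < ε → ∃ δ : ℝ, 0 < δ ∧ ∀ x₀ t₀,
      ‖x₀‖ ≤ R → |t₀| ≤ R → ∀ x t, ‖x‖ ≤ δ → |t| ≤ δ →
        |W (x₀ + x) (t₀ + t) - W x₀ t₀| ≤ ε := by
    intro R ε hε
    obtain ⟨δ, hδ, h⟩ := heq R ε hε
    refine ⟨δ, hδ, fun x₀ t₀ hx₀ ht₀ x t hx ht => ?_⟩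
    have hl : Tendsto (fun k => |w k (x₀ + x) (t₀ + t) - w k x₀ t₀|) F
        (𝓝 |W (x₀ + x) (t₀ + t) - W x₀ t₀|) := ((hW _ _).sub (hW _ _)).abs
    apply le_of_tendsto hl
    filter_upwards [h] with k hk
    exact hk x₀ t₀ hx₀ ht₀ x t hx ht
  have hcont : Continuous fun q : V × ℝ => W q.1 q.2 := by
    rw [Metric.continuous_iff]
    rintro ⟨x₀, t₀⟩ ε hε
    obtain ⟨δ, hδ, h⟩ := hWeq (max ‖x₀‖ |t₀|) (ε / 2) (by linarith)
    refine ⟨δ, hδ, ?_⟩
    rintro ⟨x, t⟩ hd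
    rw [Prod.dist_eq, max_lt_iff] at hd
    have h1 : ‖x - x₀‖ ≤ δ := by rw [← dist_eq_norm]; exact hd.1.le
    have h2 : |t - t₀| ≤ δ := by rw [← Real.dist_eq]; exact hd.2.le
    have := h x₀ t₀ (le_max_left _ _) (le_max_right _ _) (x - x₀) (t - t₀) h1 h2
    rw [add_sub_cancel, add_sub_cancel] at this
    rw [Real.dist_eq]
    simp only at this ⊢
    linarith
  -- locally uniform convergence
  have hconv : ∀ R ε : ℝ, 0 < ε → ∀ᶠ k in (F : Filter ℕ), ∀ x t, ‖x‖ ≤ R → |t| ≤ R →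
      |w k x t - W x t| ≤ ε := by
    intro R ε hε
    obtain ⟨δ₁, hδ₁, h₁⟩ := heq R (ε / 3) (by linarith)
    obtain ⟨δ₂, hδ₂, h₂⟩ := hWeq R (ε / 3) (by linarith)
    have hδ : 0 < min δ₁ δ₂ := lt_min hδ₁ hδ₂
    have hcomp : IsCompact (closedBall (0 : V) R ×ˢ Icc (-R) R) :=
      (isCompact_closedBall 0 R).prod isCompact_Icc
    obtain ⟨s, hsub, hfin, hcov⟩ := hcomp.finite_cover_balls hδ
    have hpts : ∀ᶠ k in (F : Filter ℕ), ∀ q ∈ s, |w k q.1 q.2 - W q.1 q.2| ≤ ε / 3 := by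
      rw [Filter.eventually_all_finite hfin]
      intro q _
      have : Tendsto (fun k => |w k q.1 q.2 - W q.1 q.2|) F (𝓝 0) := by
        have := ((hW q.1 q.2).sub_const (W q.1 q.2)).abs
        simpa using this
      exact this.eventually (ge_mem_nhds (by linarith))
    filter_upwards [h₁, hpts] with k hk hpk x t hx ht
    have hmem : (x, t) ∈ closedBall (0 : V) R ×ˢ Icc (-R) R :=
      ⟨by simpa using hx, abs_le.1 ht⟩
    obtain ⟨q, hq, hqx⟩ := mem_iUnion₂.1 (hcov hmem)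
    have hqR := hsub hq
    have hq1 : ‖q.1‖ ≤ R := by simpa using hqR.1
    have hq2 : |q.2| ≤ R := abs_le.2 hqR.2
    rw [mem_ball, Prod.dist_eq, max_lt_iff, lt_min_iff, lt_min_iff] at hqx
    have d1 : ‖x - q.1‖ ≤ δ₁ := by rw [← dist_eq_norm]; exact hqx.1.1.le
    have d2 : |t - q.2| ≤ δ₁ := by rw [← Real.dist_eq]; exact hqx.2.1.le
    have d3 : ‖x - q.1‖ ≤ δ₂ := by rw [← dist_eq_norm]; exact hqx.1.2.le
    have d4 : |t - q.2| ≤ δ₂ := by rw [← Real.dist_eq]; exact hqx.2.2.le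
    have e1 := hk q.1 q.2 hq1 hq2 _ _ d1 d2
    have e2 := h₂ q.1 q.2 hq1 hq2 _ _ d3 d4
    have e3 := hpk q hq
    rw [add_sub_cancel, add_sub_cancel] at e1 e2
    rw [abs_le] at e1 e2 e3 ⊢
    constructor <;> linarith [e1.1, e1.2, e2.1, e2.2, e3.1, e3.2]
  refine ⟨W, hcont, hWb, hconv, ?_⟩
  -- flatness
  intro x₀ t₀ τ hτ
  set R : ℝ := max ‖x₀‖ |t₀| with hR
  have hx₀ : ‖x₀‖ ≤ R := le_max_left _ _
  have ht₀ : |t₀| ≤ R := le_max_right _ _
  have hex : ∀ᶠ k in (F : Filter ℕ), ∃ q : V × ℝ, Flat.Win κ (w k) x₀ t₀ τ q.1 q.2 := by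
    filter_upwards [hfl R τ hτ] with k hk
    obtain ⟨p, b, h⟩ := hk x₀ t₀ hx₀ ht₀
    exact ⟨(p, b), h⟩
  obtain ⟨q, hq⟩ := hex.choice
  obtain ⟨M, hM, hMk⟩ := hbd (R + τ)
  have hb : ∀ᶠ k in (F : Filter ℕ), ‖(q k).1‖ ≤ κ + 2 * M / τ ∧
      |(q k).2| ≤ 2 * (1 + κ + 2 * M / τ) ^ 2 + (κ + 2 * M / τ) ^ 2 / 2 := by
    filter_upwards [hq, hMk] with k h1 h2
    obtain ⟨h3, h4⟩ := h1.bounds (by linarith) hM hτ (fun x t hx ht => by
      apply h2
      · exact (norm_add_le _ _).trans (add_le_add hx₀ hx)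
      · exact (abs_add_le _ _).trans (add_le_add ht₀ ht))
    refine ⟨h3, ?_⟩
    have h5 : ‖(q k).1‖ ^ 2 ≤ (κ + 2 * M / τ) ^ 2 := by gcongr
    have h6 : 0 ≤ ‖(q k).1‖ ^ 2 := by positivity
    rw [abs_le] at h4 ⊢
    constructor <;> linarith [h4.1, h4.2]
  obtain ⟨p, hp⟩ := ultra_vec (f := fun k => (q k).1) (hb.mono fun k h => h.1)
  obtain ⟨b, -, hb'⟩ := ultra_real (f := fun k => (q k).2) (hb.mono fun k h => h.2)
  refine ⟨p, b, fun x t hx ht => ?_⟩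
  -- joint convergence
  have hjoint : ∀ (y : ℕ → V) (s : ℝ) (y₀ : V), Tendsto y F (𝓝 y₀) →
      Tendsto (fun k => w k (y k) s) F (𝓝 (W y₀ s)) := by
    intro y s y₀ hy
    have hWy : Tendsto (fun k => W (y k) s) F (𝓝 (W y₀ s)) := by
      have h1 : Tendsto (fun k => (y k, s)) F (𝓝 (y₀, s)) :=
        hy.prodMk_nhds tendsto_const_nhds
      exact (hcont.tendsto (y₀, s)).comp h1
    have hdiff : Tendsto (fun k => w k (y k) s - W (y k) s) F (𝓝 0) := by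
      rw [Metric.tendsto_nhds]
      intro ε hε
      have hyb : ∀ᶠ k in (F : Filter ℕ), ‖y k‖ ≤ ‖y₀‖ + 1 := by
        have := hy.norm.eventually (ge_mem_nhds (show ‖y₀‖ < ‖y₀‖ + 1 by linarith))
        exact this
      filter_upwards [hconv (max (‖y₀‖ + 1) |s|) (ε / 2) (by linarith), hyb] with k h1 h2
      have := h1 (y k) s (h2.trans (le_max_left _ _)) (le_max_right _ _)
      rw [Real.dist_eq, sub_zero]; linarith
    have := hdiff.add hWy
    simpa using this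
  have hA : Tendsto (fun k => x₀ + t • (q k).1 + x) F (𝓝 (x₀ + t • p + x)) :=
    (tendsto_const_nhds.add (hp.const_smul t)).add tendsto_const_nhds
  have hlim : Tendsto (fun k => |w k (x₀ + t • (q k).1 + x) (t₀ + t) - w k x₀ t₀
      - inner ℝ (q k).1 x - (q k).2 * t|) F
      (𝓝 |W (x₀ + t • p + x) (t₀ + t) - W x₀ t₀ - inner ℝ p x - b * t|) := by
    apply Tendsto.abs
    exact (((hjoint _ _ _ hA).sub (hW x₀ t₀)).sub (hp.inner tendsto_const_nhds)).sub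
      (hb'.mul_const t)
  apply le_of_tendsto hlim
  filter_upwards [hq] with k hk
  exact hk x t hx ht

end Crest.Agent.R094.S2
end

-- ▼ part R094/LocSub
section

/-!
Row 94: locally uniform limits (along any filter) of boosted and rescaled static
infinity-harmonic functions satisfy (Sub) and (Sup).
-/

set_option autoImplicit false
open scoped Topology RealInnerProductSpace
open Set Filter Metric

namespace Crest.Agent.R094.LocSub

open Crest.Agent.R094.Cones Crest.Agent.R094.Sol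

section General

variable {V : Type*} [NormedAddCommGroup V] [InnerProductSpace ℝ V]

omit [InnerProductSpace ℝ V] in
theorem bddAbove_T {W : V → ℝ → ℝ} (hW : Grow W) {s : ℝ} (hs : 0 < s) (x : V) (t : ℝ) :
    BddAbove (range fun y => W y (t + s) - ‖x - y‖ ^ 2 / (2 * s)) := by
  obtain ⟨C, hC⟩ := hW (|t + s|) (1 / (4 * s)) (by positivity)
  refine ⟨C + ‖x‖ ^ 2 / (2 * s), ?_⟩
  rintro _ ⟨y, rfl⟩
  have h1 := (abs_le.1 (hC y (t + s) le_rfl)).2
  have h2 : ‖y‖ ≤ ‖x‖ + ‖x - y‖ := by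
    have := norm_sub_le x (x - y)
    simpa using this
  have h3 : ‖y‖ ^ 2 ≤ 2 * ‖x‖ ^ 2 + 2 * ‖x - y‖ ^ 2 := by
    nlinarith [norm_nonneg y, norm_nonneg x, norm_nonneg (x - y), sq_nonneg (‖x‖ - ‖x - y‖)]
  have h4 : 1 / (4 * s) * ‖y‖ ^ 2 ≤ ‖x‖ ^ 2 / (2 * s) + ‖x - y‖ ^ 2 / (2 * s) := by
    calc 1 / (4 * s) * ‖y‖ ^ 2 ≤ 1 / (4 * s) * (2 * ‖x‖ ^ 2 + 2 * ‖x - y‖ ^ 2) := by gcongr
      _ = _ := by field_simp; ring
  dsimp only
  linarith

/-- (Sub) with a competitor of norm at most `R`. -/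
def SubAt (w : V → ℝ → ℝ) (x : V) (t : ℝ) (y : V) (s s' R : ℝ) : Prop :=
  ∃ y' : V, ‖y'‖ ≤ R ∧ w y (t + s) - ‖x - y‖ ^ 2 / (2 * s) ≤
    (1 - s / s') * w x t + (s / s') * (w y' (t + s') - ‖x - y'‖ ^ 2 / (2 * s'))

theorem isSub_of_subAt {W : V → ℝ → ℝ} (hW : Grow W)
    (h : ∀ x t y s s', 0 < s → s ≤ s' → ∃ R, SubAt W x t y s s' R) : IsSub W := by
  intro x t s s' hs hss
  have hs' : 0 < s' := hs.trans_le hss
  unfold T
  refine ciSup_le fun y => ?_
  obtain ⟨R, y', -, hy'⟩ := h x t y s s' hs hss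
  refine hy'.trans ?_
  have h1 := le_ciSup (bddAbove_T hW hs' x t) y'
  have h2 : 0 ≤ s / s' := by positivity
  have := mul_le_mul_of_nonneg_left h1 h2
  linarith

omit [InnerProductSpace ℝ V] in
theorem T_rev (W : V → ℝ → ℝ) (x : V) (t r : ℝ) : T r (rev W) x (-t) = - B r W x t := by
  unfold T B rev
  simp only [iSup, iInf]
  rw [← Real.sSup_neg]
  congr 1
  ext a
  simp only [Set.mem_range, Set.mem_neg]
  refine exists_congr fun y => ?_
  rw [show -(-t + r) = t - r by ring]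
  constructor <;> intro h <;> linarith

theorem isSup_of_rev {W : V → ℝ → ℝ} (h : IsSub (rev W)) : IsSup W := by
  intro x t s s' hs hss
  have h1 := h x (-t) s s' hs hss
  rw [T_rev, T_rev] at h1
  simp only [rev, neg_neg] at h1
  linarith

omit [InnerProductSpace ℝ V] in
/-- stability of the pointwise inequality under locally uniform convergence -/
theorem subAt_of_limit [ProperSpace V] {κ : Type*} {l : Filter κ} [l.NeBot]
    {w : κ → V → ℝ → ℝ} {W : V → ℝ → ℝ} (hcont : Continuous fun q : V × ℝ => W q.1 q.2)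
    (hconv : ∀ R ε : ℝ, 0 < ε → ∀ᶠ k in l, ∀ y t, ‖y‖ ≤ R → |t| ≤ R → |w k y t - W y t| ≤ ε)
    {x y : V} {t s s' R : ℝ} (hs : 0 < s) (hss : s ≤ s')
    (h : ∀ᶠ k in l, SubAt (w k) x t y s s' R) : SubAt W x t y s s' R := by
  have hs' : 0 < s' := hs.trans_le hss
  have hθ0 : 0 ≤ s / s' := by positivity
  have hθ1 : s / s' ≤ 1 := (div_le_one hs').2 hss
  -- maximiser of the competitor functional on the closed ball
  have hne : (closedBall (0 : V) R).Nonempty := by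
    obtain ⟨k, y', hy', -⟩ := h.exists
    exact ⟨y', by simpa using hy'⟩
  have hc : ContinuousOn (fun z : V => W z (t + s') - ‖x - z‖ ^ 2 / (2 * s')) (closedBall 0 R) := by
    have h1 : Continuous fun z : V => W z (t + s') :=
      hcont.comp (continuous_id.prodMk continuous_const)
    fun_prop
  obtain ⟨z, hz, hmax⟩ := (isCompact_closedBall (0 : V) R).exists_isMaxOn hne hc
  refine ⟨z, by simpa using hz, ?_⟩
  refine le_of_forall_pos_le_add fun ε hε => ?_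
  set M : ℝ := max R (max (max ‖x‖ ‖y‖) (|t| + s')) with hM
  have hcv := hconv M (ε / 3) (by positivity)
  obtain ⟨k, hk1, y', hy', hk2⟩ := (hcv.and h).exists
  have a1 : |t| ≤ M := by
    have : |t| ≤ |t| + s' := by linarith
    exact this.trans ((le_max_right _ _).trans (le_max_right _ _))
  have a2 : |t + s'| ≤ M := by
    have : |t + s'| ≤ |t| + s' := by
      have := abs_add_le t s'
      rwa [abs_of_pos hs'] at this
    exact this.trans ((le_max_right _ _).trans (le_max_right _ _))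
  have a3 : |t + s| ≤ M := by
    have : |t + s| ≤ |t| + s' := by
      have := abs_add_le t s
      rw [abs_of_pos hs] at this
      linarith
    exact this.trans ((le_max_right _ _).trans (le_max_right _ _))
  have a4 : ‖x‖ ≤ M := (le_max_left _ _).trans ((le_max_left _ _).trans (le_max_right _ _))
  have a5 : ‖y‖ ≤ M := (le_max_right _ _).trans ((le_max_left _ _).trans (le_max_right _ _))
  have a6 : ‖y'‖ ≤ M := hy'.trans (le_max_left _ _)
  have b1 := abs_le.1 (hk1 y (t + s) a5 a3)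
  have b2 := abs_le.1 (hk1 x t a4 a1)
  have b3 := abs_le.1 (hk1 y' (t + s') a6 a2)
  have hy'mem : y' ∈ closedBall (0 : V) R := by simpa using hy'
  have b4 : W y' (t + s') - ‖x - y'‖ ^ 2 / (2 * s') ≤ W z (t + s') - ‖x - z‖ ^ 2 / (2 * s') :=
    hmax hy'mem
  have c1 : (1 - s / s') * w k x t ≤ (1 - s / s') * W x t + ε / 3 := by
    have : (1 - s / s') * w k x t ≤ (1 - s / s') * (W x t + ε / 3) :=
      mul_le_mul_of_nonneg_left (by linarith [b2.2]) (by linarith)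
    nlinarith
  have c2 : (s / s') * (w k y' (t + s') - ‖x - y'‖ ^ 2 / (2 * s'))
      ≤ (s / s') * (W z (t + s') - ‖x - z‖ ^ 2 / (2 * s')) + ε / 3 := by
    have : (s / s') * (w k y' (t + s') - ‖x - y'‖ ^ 2 / (2 * s'))
        ≤ (s / s') * (W z (t + s') - ‖x - z‖ ^ 2 / (2 * s') + ε / 3) :=
      mul_le_mul_of_nonneg_left (by linarith [b3.2]) hθ0
    nlinarith
  linarith [b1.1, b1.2]

end General

section Static

variable {ι : Type*} [Fintype ι]

local notation "E" => EuclideanSpace ℝ ι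

/-- time reversal of the boosted function -/
theorem bst_neg (u : E → ℝ) (x0 p : E) (σ τ η b : ℝ) (x : E) (t : ℝ) :
    bst (fun y => - u y) x0 (-p) σ τ η b x t = rev (bst u x0 p σ τ η b) x t := by
  unfold bst rev
  have : x0 + σ • x + (τ * t) • (-p) = x0 + σ • x + (τ * (-t)) • p := by
    rw [smul_neg, mul_neg, neg_smul]
  rw [this, inner_neg_left]
  ring

set_option maxHeartbeats 1000000 in
/-- growth on the window localises the competitors -/
theorem subAt_bst {κ : Type*} {l : Filter κ} {Ω : κ → Set E} {u : κ → E → ℝ} {x0 p : κ → E}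
    {σ τ η b Λ : κ → ℝ}
    (hu : ∀ᶠ k in l, CC (u k) (Ω k))
    (hpos : ∀ᶠ k in l, 0 < σ k ∧ 0 < τ k ∧ 0 < η k ∧ σ k ^ 2 = η k * τ k)
    (hdom : ∀ R : ℝ, ∀ᶠ k in l, closedBall (x0 k) (R * (σ k + τ k * ‖p k‖)) ⊆ Ω k)
    (hwin : ∀ M : ℝ, ∀ᶠ k in l, M * (1 + τ k * ‖p k‖ / σ k) ≤ Λ k)
    (hgrow : ∀ R ε : ℝ, 0 < ε → ∃ C : ℝ, ∀ᶠ k in l, ∀ y t, ‖y‖ ≤ Λ k → |t| ≤ R →
      |bst (u k) (x0 k) (p k) (σ k) (τ k) (η k) (b k) y t| ≤ ε * ‖y‖ ^ 2 + C)
    (x : E) (t : ℝ) (y : E) {s s' : ℝ} (hs : 0 < s) (hss : s ≤ s') :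
    ∃ R : ℝ, ∀ᶠ k in l,
      SubAt (bst (u k) (x0 k) (p k) (σ k) (τ k) (η k) (b k)) x t y s s' R := by
  have hs' : 0 < s' := hs.trans_le hss
  have hθ0 : 0 < s / s' := by positivity
  have hθ1 : s / s' ≤ 1 := (div_le_one hs').2 hss
  have hss1 : 1 ≤ s' / s := (one_le_div hs).2 hss
  obtain ⟨C, hC⟩ := hgrow (|t| + s') (1 / (8 * s')) (by positivity)
  -- constants
  set m1 : ℝ := ‖x‖ + |t| + s' / s * (‖y - x‖ + s) with hm1
  set m2 : ℝ := ‖x‖ + 2 * s' + s' / s * ‖y - x‖ + ‖y‖ with hm2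
  set K : ℝ := 4 * s' * ((2 * ‖x‖ ^ 2) / (8 * s') + |C|
      + (s' / s) * (((1 / (8 * s')) * ‖x‖ ^ 2 + |C|) + ((1 / (8 * s')) * ‖y‖ ^ 2 + |C|)
        + ‖x - y‖ ^ 2 / (2 * s))) with hK
  have hK0 : 0 ≤ K := by positivity
  refine ⟨‖x‖ + (1 + K), ?_⟩
  filter_upwards [hu, hpos, hdom m1, hwin m2, hC] with k hk1 ⟨hσ, hτ, hη, hst⟩ hk3 hk4 hk5
  have hball : closedBall (x0 k + σ k • x + (τ k * t) • p k)
      (s' / s * ‖σ k • (y - x) + (τ k * s) • p k‖) ⊆ Ω k := by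
    refine Subset.trans ?_ hk3
    refine closedBall_subset_closedBall' ?_
    have e1 : dist (x0 k + σ k • x + (τ k * t) • p k) (x0 k) ≤ σ k * ‖x‖ + τ k * |t| * ‖p k‖ := by
      rw [dist_eq_norm, show x0 k + σ k • x + (τ k * t) • p k - x0 k
        = σ k • x + (τ k * t) • p k by abel]
      refine (norm_add_le _ _).trans ?_
      rw [norm_smul, norm_smul, Real.norm_eq_abs, Real.norm_eq_abs, abs_mul, abs_of_pos hσ,
        abs_of_pos hτ]
    have e2 : ‖σ k • (y - x) + (τ k * s) • p k‖ ≤ σ k * ‖y - x‖ + τ k * s * ‖p k‖ := by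
      refine (norm_add_le _ _).trans ?_
      rw [norm_smul, norm_smul, Real.norm_eq_abs, Real.norm_eq_abs, abs_mul, abs_of_pos hσ,
        abs_of_pos hτ, abs_of_pos hs]
    have e3 : s' / s * ‖σ k • (y - x) + (τ k * s) • p k‖
        ≤ s' / s * (σ k * ‖y - x‖ + τ k * s * ‖p k‖) :=
      mul_le_mul_of_nonneg_left e2 (by positivity)
    have e4 : s' / s * (σ k * ‖y - x‖ + τ k * s * ‖p k‖) + (σ k * ‖x‖ + τ k * |t| * ‖p k‖)
        ≤ m1 * (σ k + τ k * ‖p k‖) := by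
      have q1 : 0 ≤ τ k * ‖p k‖ := by positivity
      have q2 : 0 ≤ s' / s := by positivity
      have : m1 * (σ k + τ k * ‖p k‖) - (s' / s * (σ k * ‖y - x‖ + τ k * s * ‖p k‖)
          + (σ k * ‖x‖ + τ k * |t| * ‖p k‖))
          = σ k * (|t| + s' / s * s) + τ k * ‖p k‖ * (‖x‖ + s' / s * ‖y - x‖) := by
        rw [hm1]; ring
      have : 0 ≤ σ k * (|t| + s' / s * s) + τ k * ‖p k‖ * (‖x‖ + s' / s * ‖y - x‖) := by
        positivity
      linarith
    linarith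
  obtain ⟨y', hy1, hy2⟩ := sub_boost hk1 (x0 := x0 k) (p := p k) (b := b k) hσ hτ hη hst hs hss hball
  -- size of y' a priori: in the window
  have hy3 : ‖y' - x‖ ≤ 2 * s' * (τ k * ‖p k‖ / σ k) + s' / s * ‖y - x‖ := by
    have e0 : σ k • (y' - x) = (σ k • (y' - x) + (τ k * s') • p k) - (τ k * s') • p k := by abel
    have e1 : σ k * ‖y' - x‖ ≤ ‖σ k • (y' - x) + (τ k * s') • p k‖ + τ k * s' * ‖p k‖ := by
      have h1 : ‖σ k • (y' - x)‖ ≤ ‖σ k • (y' - x) + (τ k * s') • p k‖ + ‖(τ k * s') • p k‖ := by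
        calc ‖σ k • (y' - x)‖ = ‖(σ k • (y' - x) + (τ k * s') • p k) - (τ k * s') • p k‖ := by
              rw [← e0]
          _ ≤ _ := norm_sub_le _ _
      rw [norm_smul, norm_smul, Real.norm_eq_abs, Real.norm_eq_abs, abs_mul, abs_of_pos hσ,
        abs_of_pos hτ, abs_of_pos hs'] at h1
      exact h1
    have e2 : ‖σ k • (y - x) + (τ k * s) • p k‖ ≤ σ k * ‖y - x‖ + τ k * s * ‖p k‖ := by
      refine (norm_add_le _ _).trans ?_
      rw [norm_smul, norm_smul, Real.norm_eq_abs, Real.norm_eq_abs, abs_mul, abs_of_pos hσ,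
        abs_of_pos hτ, abs_of_pos hs]
    have e3 : s' / s * ‖σ k • (y - x) + (τ k * s) • p k‖
        ≤ s' / s * (σ k * ‖y - x‖ + τ k * s * ‖p k‖) :=
      mul_le_mul_of_nonneg_left e2 (by positivity)
    have e4 : s' / s * (σ k * ‖y - x‖ + τ k * s * ‖p k‖)
        = σ k * (s' / s * ‖y - x‖) + τ k * s' * ‖p k‖ := by field_simp
    have e5 : σ k * ‖y' - x‖ ≤ σ k * (2 * s' * (τ k * ‖p k‖ / σ k) + s' / s * ‖y - x‖) := by
      have : σ k * (2 * s' * (τ k * ‖p k‖ / σ k) + s' / s * ‖y - x‖)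
          = 2 * (τ k * s' * ‖p k‖) + σ k * (s' / s * ‖y - x‖) := by field_simp
      rw [this]; linarith
    exact le_of_mul_le_mul_left e5 hσ
  have hq : 0 ≤ τ k * ‖p k‖ / σ k := by positivity
  have hy'n : ‖y'‖ ≤ ‖x‖ + ‖y' - x‖ := by
    have := norm_add_le x (y' - x)
    simpa using this
  have hwy' : ‖y'‖ ≤ Λ k := by
    refine le_trans ?_ hk4
    have : m2 * (1 + τ k * ‖p k‖ / σ k) = ‖x‖ + 2 * s' + s' / s * ‖y - x‖ + ‖y‖
        + 2 * s' * (τ k * ‖p k‖ / σ k)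
        + (‖x‖ + s' / s * ‖y - x‖ + ‖y‖) * (τ k * ‖p k‖ / σ k) := by rw [hm2]; ring
    have : 0 ≤ (‖x‖ + s' / s * ‖y - x‖ + ‖y‖) * (τ k * ‖p k‖ / σ k) := by positivity
    have := norm_nonneg y
    linarith
  have hm2Λ : m2 ≤ Λ k := by
    refine le_trans ?_ hk4
    have : 0 ≤ m2 := by positivity
    nlinarith
  have hwx : ‖x‖ ≤ Λ k := by
    refine le_trans ?_ hm2Λ
    have : 0 ≤ s' / s * ‖y - x‖ := by positivity
    have := norm_nonneg y
    rw [hm2]; linarith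
  have hwy : ‖y‖ ≤ Λ k := by
    refine le_trans ?_ hm2Λ
    have : 0 ≤ s' / s * ‖y - x‖ := by positivity
    have := norm_nonneg x
    rw [hm2]; linarith
  have ht1 : |t| ≤ |t| + s' := by linarith
  have ht2 : |t + s| ≤ |t| + s' := by
    have := abs_add_le t s
    rw [abs_of_pos hs] at this
    linarith
  have ht3 : |t + s'| ≤ |t| + s' := by
    have := abs_add_le t s'
    rwa [abs_of_pos hs'] at this
  have g1 := abs_le.1 (hk5 x t hwx ht1)
  have g2 := abs_le.1 (hk5 y (t + s) hwy ht2)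
  have g3 := abs_le.1 (hk5 y' (t + s') hwy' ht3)
  have hCa := le_abs_self C
  set wk := bst (u k) (x0 k) (p k) (σ k) (τ k) (η k) (b k) with hwk
  refine ⟨y', ?_, by rw [norm_sub_rev x y, norm_sub_rev x y']; exact hy2⟩
  -- bound for `r = ‖y' - x‖`
  set r := ‖y' - x‖ with hr
  have hr0 : 0 ≤ r := norm_nonneg _
  have h1 : (s / s') * (r ^ 2 / (2 * s')) ≤ (s / s') * wk y' (t + s') + (1 - s / s') * wk x t
      - wk y (t + s) + ‖x - y‖ ^ 2 / (2 * s) := by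
    rw [norm_sub_rev x y]
    have : (s / s') * (wk y' (t + s') - r ^ 2 / (2 * s'))
      = (s / s') * wk y' (t + s') - (s / s') * (r ^ 2 / (2 * s')) := by ring
    linarith [hy2]
  have h2 : (1 - s / s') * wk x t ≤ (1 / (8 * s')) * ‖x‖ ^ 2 + |C| := by
    have h0 : 0 ≤ (1 / (8 * s')) * ‖x‖ ^ 2 + |C| := by positivity
    calc (1 - s / s') * wk x t ≤ (1 - s / s') * ((1 / (8 * s')) * ‖x‖ ^ 2 + |C|) :=
          mul_le_mul_of_nonneg_left (by linarith [g1.2]) (by linarith)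
      _ ≤ 1 * ((1 / (8 * s')) * ‖x‖ ^ 2 + |C|) := by
          gcongr; linarith
      _ = _ := one_mul _
  have h3 : - wk y (t + s) ≤ (1 / (8 * s')) * ‖y‖ ^ 2 + |C| := by linarith [g2.1]
  have h4 : wk y' (t + s') ≤ (1 / (8 * s')) * (2 * ‖x‖ ^ 2 + 2 * r ^ 2) + |C| := by
    have h5 : ‖y'‖ ^ 2 ≤ 2 * ‖x‖ ^ 2 + 2 * r ^ 2 := by
      nlinarith [norm_nonneg y', norm_nonneg x, sq_nonneg (‖x‖ - r)]
    have : (1 / (8 * s')) * ‖y'‖ ^ 2 ≤ (1 / (8 * s')) * (2 * ‖x‖ ^ 2 + 2 * r ^ 2) := by gcongr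
    linarith [g3.2]
  have h5 : (s / s') * (r ^ 2 / (2 * s')) ≤ (s / s') * ((1 / (8 * s')) * (2 * ‖x‖ ^ 2 + 2 * r ^ 2)
      + |C|) + (((1 / (8 * s')) * ‖x‖ ^ 2 + |C|) + ((1 / (8 * s')) * ‖y‖ ^ 2 + |C|)
        + ‖x - y‖ ^ 2 / (2 * s)) := by
    have := mul_le_mul_of_nonneg_left h4 hθ0.le
    linarith
  have h6 : r ^ 2 / (2 * s') ≤ ((1 / (8 * s')) * (2 * ‖x‖ ^ 2 + 2 * r ^ 2)
      + |C|) + (s' / s) * (((1 / (8 * s')) * ‖x‖ ^ 2 + |C|) + ((1 / (8 * s')) * ‖y‖ ^ 2 + |C|)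
        + ‖x - y‖ ^ 2 / (2 * s)) := by
    have h7 := mul_le_mul_of_nonneg_left h5 (by positivity : 0 ≤ s' / s)
    have e1 : s' / s * ((s / s') * (r ^ 2 / (2 * s'))) = r ^ 2 / (2 * s') := by field_simp
    have e2 : s' / s * ((s / s') * ((1 / (8 * s')) * (2 * ‖x‖ ^ 2 + 2 * r ^ 2) + |C|))
      = (1 / (8 * s')) * (2 * ‖x‖ ^ 2 + 2 * r ^ 2) + |C| := by field_simp
    rw [mul_add, e1, e2] at h7
    exact h7
  have h8 : r ^ 2 ≤ K := by
    have e1 : r ^ 2 / (2 * s') - (1 / (8 * s')) * (2 * r ^ 2) = r ^ 2 / (4 * s') := by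
      field_simp; ring
    have e2 : r ^ 2 / (4 * s') ≤ K / (4 * s') := by
      have e3 : K / (4 * s') = (2 * ‖x‖ ^ 2) / (8 * s') + |C|
        + (s' / s) * (((1 / (8 * s')) * ‖x‖ ^ 2 + |C|) + ((1 / (8 * s')) * ‖y‖ ^ 2 + |C|)
        + ‖x - y‖ ^ 2 / (2 * s)) := by
        rw [hK]; field_simp
      rw [e3, ← e1]
      have e4 : (1 / (8 * s')) * (2 * ‖x‖ ^ 2 + 2 * r ^ 2)
        = (2 * ‖x‖ ^ 2) / (8 * s') + (1 / (8 * s')) * (2 * r ^ 2) := by ring
      linarith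
    exact (div_le_div_iff_of_pos_right (by positivity)).1 e2
  have h9 : r ≤ 1 + K := by
    have h10 := sq_nonneg (r - 1 / 2)
    have h11 : (r - 1 / 2) ^ 2 = r ^ 2 - r + 1 / 4 := by ring
    rw [h11] at h10
    linarith
  linarith

/-- **Limits of boosted rescaled infinity-harmonic functions are subsolutions.** -/
theorem isSub_limit {κ : Type*} {l : Filter κ} [l.NeBot] {Ω : κ → Set E} {u : κ → E → ℝ}
    {x0 p : κ → E} {σ τ η b Λ : κ → ℝ} {W : E → ℝ → ℝ}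
    (hu : ∀ᶠ k in l, CC (u k) (Ω k))
    (hpos : ∀ᶠ k in l, 0 < σ k ∧ 0 < τ k ∧ 0 < η k ∧ σ k ^ 2 = η k * τ k)
    (hdom : ∀ R : ℝ, ∀ᶠ k in l, closedBall (x0 k) (R * (σ k + τ k * ‖p k‖)) ⊆ Ω k)
    (hwin : ∀ M : ℝ, ∀ᶠ k in l, M * (1 + τ k * ‖p k‖ / σ k) ≤ Λ k)
    (hgrow : ∀ R ε : ℝ, 0 < ε → ∃ C : ℝ, ∀ᶠ k in l, ∀ y t, ‖y‖ ≤ Λ k → |t| ≤ R →
      |bst (u k) (x0 k) (p k) (σ k) (τ k) (η k) (b k) y t| ≤ ε * ‖y‖ ^ 2 + C)
    (hcont : Continuous fun q : E × ℝ => W q.1 q.2)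
    (hconv : ∀ R ε : ℝ, 0 < ε → ∀ᶠ k in l, ∀ y t, ‖y‖ ≤ R → |t| ≤ R →
      |bst (u k) (x0 k) (p k) (σ k) (τ k) (η k) (b k) y t - W y t| ≤ ε) :
    Grow W ∧ IsSub W := by
  have hG : Grow W := by
    intro R ε hε
    obtain ⟨C, hC⟩ := hgrow R ε hε
    refine ⟨C + 1, fun y t ht => ?_⟩
    have h1 := hconv (max ‖y‖ |t|) 1 one_pos
    have h2 : ∀ᶠ k in l, ‖y‖ ≤ Λ k := by
      filter_upwards [hwin ‖y‖, hpos] with k hk ⟨hσ, hτ, _, _⟩
      refine le_trans ?_ hk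
      have : 0 ≤ τ k * ‖p k‖ / σ k := by positivity
      nlinarith [norm_nonneg y]
    obtain ⟨k, hk1, hk2, hk3⟩ := (hC.and (h1.and h2)).exists
    have a1 := abs_le.1 (hk1 y t hk3 ht)
    have a2 := abs_le.1 (hk2 y t (le_max_left _ _) (le_max_right _ _))
    rw [abs_le]
    constructor <;> linarith [a1.1, a1.2, a2.1, a2.2]
  refine ⟨hG, isSub_of_subAt hG fun x t y s s' hs hss => ?_⟩
  obtain ⟨R, hR⟩ := subAt_bst hu hpos hdom hwin hgrow x t y hs hss
  exact ⟨R, subAt_of_limit hcont hconv hs hss hR⟩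

/-- **Limits of boosted rescaled infinity-harmonic functions are solutions of the model.** -/
theorem isSol_limit {κ : Type*} {l : Filter κ} [l.NeBot] {Ω : κ → Set E} {u : κ → E → ℝ}
    {x0 p : κ → E} {σ τ η b Λ : κ → ℝ} {W : E → ℝ → ℝ}
    (hu : ∀ᶠ k in l, CC (u k) (Ω k))
    (hpos : ∀ᶠ k in l, 0 < σ k ∧ 0 < τ k ∧ 0 < η k ∧ σ k ^ 2 = η k * τ k)
    (hdom : ∀ R : ℝ, ∀ᶠ k in l, closedBall (x0 k) (R * (σ k + τ k * ‖p k‖)) ⊆ Ω k)
    (hwin : ∀ M : ℝ, ∀ᶠ k in l, M * (1 + τ k * ‖p k‖ / σ k) ≤ Λ k)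
    (hgrow : ∀ R ε : ℝ, 0 < ε → ∃ C : ℝ, ∀ᶠ k in l, ∀ y t, ‖y‖ ≤ Λ k → |t| ≤ R →
      |bst (u k) (x0 k) (p k) (σ k) (τ k) (η k) (b k) y t| ≤ ε * ‖y‖ ^ 2 + C)
    (hcont : Continuous fun q : E × ℝ => W q.1 q.2)
    (hconv : ∀ R ε : ℝ, 0 < ε → ∀ᶠ k in l, ∀ y t, ‖y‖ ≤ R → |t| ≤ R →
      |bst (u k) (x0 k) (p k) (σ k) (τ k) (η k) (b k) y t - W y t| ≤ ε) :
    IsSol W := by
  obtain ⟨hG, hS⟩ := isSub_limit hu hpos hdom hwin hgrow hcont hconv
  refine ⟨hcont, hG, hS, isSup_of_rev ?_⟩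
  have h2 := isSub_limit (l := l) (Ω := Ω) (u := fun k y => - u k y) (x0 := x0)
    (p := fun k => - p k) (σ := σ) (τ := τ) (η := η) (b := b) (Λ := Λ) (W := rev W)
    (by filter_upwards [hu] with k hk using hk.neg) hpos
    (by simpa using hdom) (by simpa using hwin)
    (by
      intro R ε hε
      obtain ⟨C, hC⟩ := hgrow R ε hε
      refine ⟨C, ?_⟩
      filter_upwards [hC] with k hk y t hy ht
      rw [bst_neg]
      simpa [rev] using hk y (-t) hy (by simpa using ht))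
    (by
      have : Continuous fun q : E × ℝ => (q.1, -q.2) := by fun_prop
      exact (hcont.comp this).neg)
    (by
      intro R ε hε
      filter_upwards [hconv R ε hε] with k hk y t hy ht
      rw [bst_neg]
      have := hk y (-t) hy (by simpa using ht)
      simp only [rev]
      rw [show -bst (u k) (x0 k) (p k) (σ k) (τ k) (η k) (b k) y (-t) - -W y (-t)
        = -(bst (u k) (x0 k) (p k) (σ k) (τ k) (η k) (b k) y (-t) - W y (-t)) by ring, abs_neg]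
      exact this)
  exact h2.2

end Static

end Crest.Agent.R094.LocSub
end

-- ▼ part R094/S2Main

set_option autoImplicit false

namespace Crest.Agent.R094.S2

open Crest.Agent.R094.Cones Crest.Agent.R094.LocSub Filter Set Metric
open scoped Topology RealInnerProductSpace

variable {ι : Type*} [Fintype ι]

local notation "E" => EuclideanSpace ℝ ι

/-- A zoom sequence: near extremal scales tending to zero with bad admissible functions. -/
structure Zoom (ι : Type*) [Fintype ι] where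
  τ : ℕ → ℝ
  ε : ℕ → ℝ
  ν : ℕ → ℝ
  u : ℕ → EuclideanSpace ℝ ι → ℝ
  τpos : ∀ k, 0 < τ k
  τle : ∀ k, τ k ≤ 1 / 64
  τlim : Tendsto τ atTop (𝓝 0)
  εpos : ∀ k, 0 < ε k
  εle : ∀ k, ε k ≤ 1 / 8
  εlim : Tendsto ε atTop (𝓝 0)
  sel : ∀ k t, 0 < t → t ≤ 1 →
    NN ι t ≤ (1 + ε k) * max (t / τ k) (τ k / t) ^ (ε k) * NN ι (τ k)
  low : ∀ k, τ k ^ ((1 : ℝ) / 8) ≤ 2 * NN ι (τ k)
  adm : ∀ k, Adm (u k)
  νlow : ∀ k, NN ι (τ k) / 2 < ν k
  νup : ∀ k, ν k ≤ NN ι (τ k)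
  bad : ∀ k, ¬ FU (u k) 0 (τ k) (ν k * τ k)

theorem exists_zoom
    (hnot : ∀ a : ℝ, 0 < a → ¬ ∃ C : ℝ, ∀ t, 0 < t → t ≤ 1 → NN ι t ≤ C * t ^ a) :
    Nonempty (Zoom ι) := by
  have hsel : ∀ k : ℕ, ∃ s : ℝ, 0 < s ∧ s < 1 / ((k : ℝ) + 64) ∧ s ≤ 1 ∧ ∀ t, 0 < t → t ≤ 1 →
      NN ι t ≤ (1 + 1 / ((k : ℝ) + 64)) * max (t / s) (s / t) ^ (1 / ((k : ℝ) + 64)) * NN ι s := by
    intro k
    exact Select.exists_scale (N := NN ι) (B := 64) (fun t ht _ => NN_pos ht)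
      (fun t ht ht1 => NN_le ht ht1) hnot (by positivity)
  choose τ hτ0 hτε hτ1 hτsel using hsel
  have hε64 : ∀ k : ℕ, 1 / ((k : ℝ) + 64) ≤ 1 / 64 := by
    intro k
    apply one_div_le_one_div_of_le (by norm_num)
    have : (0 : ℝ) ≤ k := Nat.cast_nonneg k
    linarith
  have hεlim : Tendsto (fun k : ℕ => 1 / ((k : ℝ) + 64)) atTop (𝓝 0) := by
    apply Tendsto.div_atTop tendsto_const_nhds
    exact tendsto_atTop_add_const_right _ _ tendsto_natCast_atTop_atTop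
  have hlow : ∀ k, τ k ^ ((1 : ℝ) / 8) ≤ 2 * NN ι (τ k) := by
    intro k
    have hε0 : 0 < 1 / ((k : ℝ) + 64) := by positivity
    have h1 := hτsel k 1 one_pos le_rfl
    have hτk := hτ0 k
    have hmax : max (1 / τ k) (τ k / 1) = 1 / τ k := by
      apply max_eq_left
      rw [div_one, le_div_iff₀ hτk]
      nlinarith [hτ1 k]
    rw [hmax] at h1
    have h2 : (1 / τ k) ^ (1 / ((k : ℝ) + 64)) ≤ (1 / τ k) ^ ((1 : ℝ) / 8) := by
      apply Real.rpow_le_rpow_of_exponent_le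
      · rw [le_div_iff₀ hτk]; linarith [hτ1 k]
      · linarith [hε64 k]
    have hN := NN_pos (ι := ι) hτk
    have h3 : (1 : ℝ) ≤ 2 * (1 / τ k) ^ ((1 : ℝ) / 8) * NN ι (τ k) := by
      calc (1 : ℝ) ≤ NN ι 1 := le_NN
        _ ≤ (1 + 1 / ((k : ℝ) + 64)) * (1 / τ k) ^ (1 / ((k : ℝ) + 64)) * NN ι (τ k) := h1
        _ ≤ 2 * (1 / τ k) ^ ((1 : ℝ) / 8) * NN ι (τ k) := by
            apply mul_le_mul_of_nonneg_right _ hN.le
            apply mul_le_mul _ h2 (by positivity) (by norm_num)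
            linarith [hε64 k]
    have hp : 0 < τ k ^ ((1 : ℝ) / 8) := Real.rpow_pos_of_pos hτk _
    rw [Real.div_rpow zero_le_one hτk.le, Real.one_rpow] at h3
    have h4 : 2 * (1 / τ k ^ ((1 : ℝ) / 8)) * NN ι (τ k) = 2 * NN ι (τ k) / τ k ^ ((1 : ℝ) / 8) := by
      ring
    rw [h4, le_div_iff₀ hp, one_mul] at h3
    exact h3
  have hlt : ∀ k, τ k < NN ι (τ k) := by
    intro k
    have hτk := hτ0 k
    set y : ℝ := τ k ^ ((1 : ℝ) / 8) with hy
    have hy0 : 0 < y := Real.rpow_pos_of_pos hτk _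
    have hy8 : y ^ 8 = τ k := by
      rw [hy, ← Real.rpow_natCast, ← Real.rpow_mul hτk.le]; norm_num
    have hτ8 : y ^ 8 < 1 / 64 := by
      rw [hy8]; exact (hτε k).trans_le (hε64 k)
    have hy1 : y < 1 := by
      by_contra hcon
      push Not at hcon
      have : (1 : ℝ) ≤ y ^ 8 := one_le_pow₀ hcon
      linarith
    have hy7 : y ^ 7 < 1 / 2 := by
      by_contra hcon
      push Not at hcon
      have h1 : y ^ 7 ≤ y := by
        calc y ^ 7 ≤ y ^ 1 := pow_le_pow_of_le_one hy0.le hy1.le (by norm_num)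
          _ = y := pow_one y
      have h2 : (1 / 2 : ℝ) * (1 / 2) ≤ y ^ 7 * y :=
        mul_le_mul hcon (hcon.trans h1) (by norm_num) (by positivity)
      have h3 : y ^ 7 * y = y ^ 8 := by ring
      linarith
    have h1 : y ≤ 2 * NN ι (τ k) := hlow k
    have h2 : y ^ 8 = y ^ 7 * y := by ring
    have h3 : τ k < y / 2 := by
      rw [← hy8, h2]
      nlinarith
    linarith
  choose ν hν1 hν2 hbad using fun k => exists_bad (hτ0 k) (hlt k)
  choose hν0 hνq u hadm hFU using hbad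
  exact ⟨{
    τ := τ
    ε := fun k => 1 / ((k : ℝ) + 64)
    ν := ν
    u := u
    τpos := hτ0
    τle := fun k => (hτε k).le.trans (hε64 k)
    τlim := squeeze_zero (fun k => (hτ0 k).le) (fun k => (hτε k).le) hεlim
    εpos := fun k => by positivity
    εle := fun k => (hε64 k).trans (by norm_num)
    εlim := hεlim
    sel := hτsel
    low := hlow
    adm := hadm
    νlow := hν1
    νup := hν2
    bad := hFU }⟩

namespace Zoom

variable (Z : Zoom ι)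

/-- the defect at the selected scale -/
noncomputable def N (k : ℕ) : ℝ := NN ι (Z.τ k)
/-- vertical scale -/
noncomputable def η (k : ℕ) : ℝ := Z.N k * Z.τ k
/-- space scale -/
noncomputable def σ (k : ℕ) : ℝ := Real.sqrt (Z.η k * Z.τ k)
/-- inverse time scale -/
noncomputable def θ (k : ℕ) : ℝ := 1 / Z.τ k

lemma N_pos (k : ℕ) : 0 < Z.N k := NN_pos (Z.τpos k)

lemma N_le (k : ℕ) : Z.N k ≤ 64 := NN_le (Z.τpos k) ((Z.τle k).trans (by norm_num))

lemma η_pos (k : ℕ) : 0 < Z.η k := mul_pos (Z.N_pos k) (Z.τpos k)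

lemma σ_pos (k : ℕ) : 0 < Z.σ k := Real.sqrt_pos.2 (mul_pos (Z.η_pos k) (Z.τpos k))

lemma σ_sq (k : ℕ) : Z.σ k ^ 2 = Z.η k * Z.τ k :=
  Real.sq_sqrt (mul_pos (Z.η_pos k) (Z.τpos k)).le

lemma σ_le (k : ℕ) : Z.σ k ≤ 8 * Z.τ k := by
  have h0 := Z.τpos k
  apply Real.sqrt_le_iff.2
  refine ⟨by positivity, ?_⟩
  have := Z.N_le k
  calc Z.η k * Z.τ k = Z.N k * Z.τ k ^ 2 := by unfold η; ring
    _ ≤ 64 * Z.τ k ^ 2 := by gcongr
    _ = (8 * Z.τ k) ^ 2 := by ring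

lemma θ_pos (k : ℕ) : 0 < Z.θ k := one_div_pos.2 (Z.τpos k)

lemma one_le_θ (k : ℕ) : 1 ≤ Z.θ k := by
  unfold θ
  rw [le_div_iff₀ (Z.τpos k)]
  have := Z.τle k
  linarith

lemma θ_lim : Tendsto Z.θ atTop atTop := by
  have h1 : Tendsto Z.τ atTop (𝓝[>] 0) :=
    tendsto_nhdsWithin_iff.2 ⟨Z.τlim, Eventually.of_forall fun k => Z.τpos k⟩
  have h2 : Tendsto (fun k => (Z.τ k)⁻¹) atTop atTop := h1.inv_tendsto_nhdsGT_zero
  refine h2.congr fun k => ?_
  simp [θ]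

lemma ev_rpow (C : ℝ) {a b : ℝ} (hab : a < b) :
    ∀ᶠ k in atTop, C * Z.θ k ^ a ≤ Z.θ k ^ b := by
  have h1 : Tendsto (fun k => Z.θ k ^ (b - a)) atTop atTop :=
    (tendsto_rpow_atTop (by linarith)).comp Z.θ_lim
  filter_upwards [h1.eventually_ge_atTop C] with k hk
  have h0 := Z.θ_pos k
  calc C * Z.θ k ^ a ≤ Z.θ k ^ (b - a) * Z.θ k ^ a :=
        mul_le_mul_of_nonneg_right hk (by positivity)
    _ = Z.θ k ^ b := by rw [← Real.rpow_add h0]; congr 1; ring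

lemma ev_rpow_const (C : ℝ) {b : ℝ} (hb : 0 < b) : ∀ᶠ k in atTop, C ≤ Z.θ k ^ b := by
  filter_upwards [Z.ev_rpow C hb] with k hk
  simpa using hk

lemma τ_div_σ_le (k : ℕ) : Z.τ k / Z.σ k ≤ 2 * Z.θ k ^ ((1 : ℝ) / 16) := by
  have hτ := Z.τpos k
  have hσ := Z.σ_pos k
  have hN := Z.N_pos k
  have hθ := Z.θ_pos k
  have h1 : (Z.τ k / Z.σ k) ^ 2 = 1 / Z.N k := by
    rw [div_pow, Z.σ_sq]; unfold η; field_simp
  have h2 : 1 / Z.N k ≤ 2 * Z.θ k ^ ((1 : ℝ) / 8) := by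
    have hl : Z.τ k ^ ((1 : ℝ) / 8) ≤ 2 * Z.N k := Z.low k
    unfold θ
    rw [Real.div_rpow zero_le_one hτ.le, Real.one_rpow]
    have hp : 0 < Z.τ k ^ ((1 : ℝ) / 8) := Real.rpow_pos_of_pos hτ _
    rw [div_le_iff₀ hN]
    have : 2 * (1 / Z.τ k ^ ((1 : ℝ) / 8)) * Z.N k = 2 * Z.N k / Z.τ k ^ ((1 : ℝ) / 8) := by ring
    rw [this, le_div_iff₀ hp]
    linarith
  have h3 : (Z.τ k / Z.σ k) ^ 2 ≤ (2 * Z.θ k ^ ((1 : ℝ) / 16)) ^ 2 := by
    rw [h1, mul_pow, ← Real.rpow_natCast (Z.θ k ^ ((1 : ℝ) / 16)), ← Real.rpow_mul hθ.le]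
    have e : (1 : ℝ) / 16 * ((2 : ℕ) : ℝ) = 1 / 8 := by norm_num
    rw [e]
    have : 0 ≤ Z.θ k ^ ((1 : ℝ) / 8) := by positivity
    linarith
  exact (pow_le_pow_iff_left₀ (by positivity) (by positivity) two_ne_zero).1 h3

/-- flatness of all the `u k` at all scales between `τ k` and `sqrt (τ k)` -/
lemma eventually_FU {τ' : ℝ} (hτ' : 0 < τ') : ∀ᶠ k in atTop, ∀ s, 1 ≤ s →
    s ≤ Z.θ k ^ ((1 : ℝ) / 2) → ∀ x : E, ‖x‖ ≤ 1 / 2 →
      FU (Z.u k) x (Z.τ k * (s * τ')) (Z.η k * (8 * τ' * s ^ ((9 : ℝ) / 8))) := by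
  set M : ℝ := max (4 * τ') (1 / (4 * τ')) with hM
  have hM0 : 0 < M := lt_max_of_lt_left (by positivity)
  have hlim : Tendsto (fun k => (1 + Z.ε k) * M ^ Z.ε k) atTop (𝓝 1) := by
    have h1 : Tendsto (fun k => M ^ Z.ε k) atTop (𝓝 (M ^ (0 : ℝ))) :=
      ((Real.continuousAt_const_rpow hM0.ne').tendsto).comp Z.εlim
    have h2 : Tendsto (fun k => 1 + Z.ε k) atTop (𝓝 (1 + 0)) := tendsto_const_nhds.add Z.εlim
    have := h2.mul h1
    simpa using this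
  have hev1 : ∀ᶠ k in atTop, (1 + Z.ε k) * M ^ Z.ε k < 2 :=
    hlim.eventually (gt_mem_nhds (by norm_num))
  filter_upwards [hev1, Z.ev_rpow_const (4 * τ') (b := 1 / 2) (by norm_num),
    Z.ev_rpow_const (8192 * τ' ^ 2) (b := 1 / 2) (by norm_num)] with k h1 h2 h3 s hs hsθ x hx
  have hτ := Z.τpos k
  have hτ1 : Z.τ k ≤ 1 := (Z.τle k).trans (by norm_num)
  have hs0 : 0 < s := by linarith
  -- `q = θ^(1/2)`
  set q : ℝ := Z.θ k ^ ((1 : ℝ) / 2) with hq
  have hq0 : 0 < q := Real.rpow_pos_of_pos (Z.θ_pos k) _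
  have hq2 : q * q = Z.θ k := by
    rw [hq, ← Real.rpow_add (Z.θ_pos k)]; norm_num
  have hτq : Z.τ k * (q * q) = 1 := by
    rw [hq2]; unfold θ; field_simp
  have hτs : Z.τ k * s ≤ Z.τ k * q := mul_le_mul_of_nonneg_left hsθ hτ.le
  -- `τ q = 1/q`
  have hτq' : Z.τ k * q = 1 / q := by
    rw [eq_div_iff hq0.ne']; linarith
  have hs4 : 4 * (Z.τ k * (s * τ')) ≤ 1 := by
    calc 4 * (Z.τ k * (s * τ')) = (Z.τ k * s) * (4 * τ') := by ring
      _ ≤ (Z.τ k * q) * q := by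
          apply mul_le_mul hτs h2 (by positivity) (by positivity)
      _ = 1 := by rw [mul_assoc, hτq]
  have hs8 : s ^ ((1 : ℝ) / 8) ≤ s := by
    calc s ^ ((1 : ℝ) / 8) ≤ s ^ (1 : ℝ) :=
          Real.rpow_le_rpow_of_exponent_le hs (by norm_num)
      _ = s := Real.rpow_one s
  have hs5 : 2 * s ^ ((1 : ℝ) / 8) * 64 * (4 * (Z.τ k * (s * τ'))) ^ 2 ≤ 1 / 4 := by
    have hss : Z.τ k * (s * s) ≤ 1 := by
      rw [← hτq]
      apply mul_le_mul_of_nonneg_left _ hτ.le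
      exact mul_le_mul hsθ hsθ hs0.le hq0.le
    calc 2 * s ^ ((1 : ℝ) / 8) * 64 * (4 * (Z.τ k * (s * τ'))) ^ 2
        ≤ 2 * s * 64 * (4 * (Z.τ k * (s * τ'))) ^ 2 := by gcongr
      _ = 2048 * τ' ^ 2 * ((Z.τ k * (s * s)) * (Z.τ k * s)) := by ring
      _ ≤ 2048 * τ' ^ 2 * (1 * (Z.τ k * q)) := by
          apply mul_le_mul_of_nonneg_left _ (by positivity)
          exact mul_le_mul hss hτs (by positivity) (by norm_num)
      _ = (8192 * τ' ^ 2) * (Z.τ k * q) / 4 := by ring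
      _ ≤ q * (Z.τ k * q) / 4 := by gcongr
      _ = 1 / 4 := by
          have : q * (Z.τ k * q) = 1 := by rw [← hτq]; ring
          rw [this]
  have hmain := scale_bound hτ hτ1 (Z.εpos k) (Z.εle k) (Z.sel k) hτ' (le_max_left _ _)
    (le_max_right _ _) h1 hs hs4 hs5 (Z.adm k) hx
  exact hmain

/-- the slopes in the base box -/
lemma exists_slopes : ∃ (p : ℕ → E) (b : ℕ → ℝ), ∀ᶠ k in atTop, ‖p k‖ ≤ 32 ∧
    ∀ (x : E) (t : ℝ), |t| ≤ Z.τ k → ‖x‖ ^ 2 ≤ Z.η k * 8 * Z.τ k →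
      |Z.u k ((0 : E) + t • p k + x) - Z.u k 0 - ⟪p k, x⟫ - b k * t| ≤ Z.η k * 8 := by
  have h : ∀ᶠ k in atTop, ∃ q : E × ℝ, ∀ (x : E) (t : ℝ), |t| ≤ Z.τ k →
      ‖x‖ ^ 2 ≤ Z.η k * 8 * Z.τ k →
      |Z.u k ((0 : E) + t • q.1 + x) - Z.u k 0 - ⟪q.1, x⟫ - q.2 * t| ≤ Z.η k * 8 := by
    filter_upwards [Z.eventually_FU one_pos] with k hk
    have h1 : (1 : ℝ) ≤ Z.θ k ^ ((1 : ℝ) / 2) := Real.one_le_rpow (Z.one_le_θ k) (by norm_num)
    obtain ⟨p, b, hpb⟩ := hk 1 le_rfl h1 0 (by simp)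
    refine ⟨(p, b), ?_⟩
    simpa using hpb
  obtain ⟨q, hq⟩ := h.choice
  refine ⟨fun k => (q k).1, fun k => (q k).2, ?_⟩
  filter_upwards [hq] with k hk
  refine ⟨?_, hk⟩
  exact slope_bound (Z.adm k) (Z.τpos k) (Z.N_pos k) (Z.N_le k) (Z.τle k) hk

/-- The zoom is impossible. -/
theorem absurd_of_liouville (Z : Zoom ι) (hL : GK.Liouville (EuclideanSpace ℝ ι)) : False := by
  obtain ⟨p, b, hpb⟩ := Z.exists_slopes
  set w : ℕ → E → ℝ → ℝ :=
    fun k => bst (Z.u k) 0 (p k) (Z.σ k) (Z.τ k) (Z.η k) (b k) with hw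
  have hw0 : ∀ k, w k 0 0 = 0 := by intro k; simp [hw, bst]
  -- growth
  have hgrow : ∀ᶠ k in atTop, ∀ (x : E) (t : ℝ), ‖x‖ + |t| ≤ 2 * Z.θ k ^ ((1 : ℝ) / 4) →
      |w k x t| ≤ cK 8 * (1 + (‖x‖ + |t|)) ^ ((3 : ℝ) / 2) := by
    have hcD : 0 < cD 8 := by unfold cD c1; norm_num
    filter_upwards [hpb, Z.eventually_FU one_pos,
      Z.ev_rpow ((cD 8 * 3) ^ ((8 : ℝ) / 7)) (a := 2 / 7) (b := 1 / 2) (by norm_num)]
      with k h1 h2 h3 x t hxt
    have hθ := Z.θ_pos k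
    have hθ4 : 1 ≤ Z.θ k ^ ((1 : ℝ) / 4) := Real.one_le_rpow (Z.one_le_θ k) (by norm_num)
    apply growth_centre (w := w k) (A := 8) (Λ := Z.θ k ^ ((1 : ℝ) / 2)) (by norm_num) _ _ (hw0 k)
      hxt
    · calc (cD 8 * (1 + 2 * Z.θ k ^ ((1 : ℝ) / 4))) ^ ((8 : ℝ) / 7)
          ≤ (cD 8 * (3 * Z.θ k ^ ((1 : ℝ) / 4))) ^ ((8 : ℝ) / 7) := by
            apply Real.rpow_le_rpow (by positivity) _ (by norm_num)
            apply mul_le_mul_of_nonneg_left _ hcD.le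
            linarith
        _ = (cD 8 * 3) ^ ((8 : ℝ) / 7) * Z.θ k ^ ((2 : ℝ) / 7) := by
            rw [← mul_assoc, Real.mul_rpow (by positivity) (by positivity),
              ← Real.rpow_mul hθ.le]
            norm_num
        _ ≤ _ := h3
    · exact FB_zero (b k) (Z.σ_pos k) (Z.τpos k) (Z.η_pos k) (Z.σ_sq k) (by norm_num) h1.2
    · intro s hs hsΛ
      have hs0 : 0 < s := by linarith
      have hs98 : s ≤ 8 * s ^ ((9 : ℝ) / 8) := by
        have : s ≤ s ^ ((9 : ℝ) / 8) := by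
          calc s = s ^ (1 : ℝ) := (Real.rpow_one s).symm
            _ ≤ s ^ ((9 : ℝ) / 8) := Real.rpow_le_rpow_of_exponent_le hs (by norm_num)
        linarith
      apply FB_of_FU (b k) (Z.σ_pos k) (Z.τpos k) (Z.η_pos k) (Z.σ_sq k) hs0 hs98
      have := h2 s hs hsΛ 0 (by simp)
      simpa using this
  -- windows
  have hwinF : ∀ R τ' : ℝ, 0 < τ' → ∀ᶠ k in atTop, ∀ x t, ‖x‖ ≤ R → |t| ≤ R →
      ∃ q β, Flat.Win 8 (w k) x t τ' q β := by
    intro R τ' hτ'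
    have hsmall : ∀ᶠ k in atTop, Z.τ k * (40 * (|R| + 1)) < 1 / 2 := by
      have : Tendsto (fun k => Z.τ k * (40 * (|R| + 1))) atTop (𝓝 (0 * (40 * (|R| + 1)))) :=
        Z.τlim.mul_const _
      rw [zero_mul] at this
      exact this.eventually (gt_mem_nhds (by norm_num))
    filter_upwards [hpb, Z.eventually_FU hτ', hsmall] with k h1 h2 h3 x t hx ht
    have hτ := Z.τpos k
    have hσ := Z.σ_pos k
    have hxR : ‖x‖ ≤ |R| := hx.trans (le_abs_self R)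
    have htR : |t| ≤ |R| := ht.trans (le_abs_self R)
    have hpt : ‖(0 : E) + Z.σ k • x + (Z.τ k * t) • p k‖ ≤ 1 / 2 := by
      calc ‖(0 : E) + Z.σ k • x + (Z.τ k * t) • p k‖
          ≤ ‖(0 : E) + Z.σ k • x‖ + ‖(Z.τ k * t) • p k‖ := norm_add_le _ _
        _ = Z.σ k * ‖x‖ + Z.τ k * |t| * ‖p k‖ := by
            rw [zero_add, norm_smul, norm_smul, Real.norm_of_nonneg hσ.le, Real.norm_eq_abs,
              abs_mul, abs_of_pos hτ]
        _ ≤ 8 * Z.τ k * |R| + Z.τ k * |R| * 32 := by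
            have := Z.σ_le k
            have := h1.1
            gcongr
        _ ≤ Z.τ k * (40 * (|R| + 1)) := by
            have : 0 ≤ |R| := abs_nonneg R
            nlinarith
        _ ≤ 1 / 2 := h3.le
    have h4 : (1 : ℝ) ≤ Z.θ k ^ ((1 : ℝ) / 2) := Real.one_le_rpow (Z.one_le_θ k) (by norm_num)
    have h5 := h2 1 le_rfl h4 _ hpt
    rw [one_mul, Real.one_rpow, mul_one] at h5
    obtain ⟨q, β, hq⟩ := FB_of_FU (b k) hσ hτ (Z.η_pos k) (Z.σ_sq k) hτ'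
      (by linarith : τ' ≤ 8 * τ') h5
    exact ⟨q, β, fun y s hy hs => hq y s hs hy⟩
  -- the ultrafilter
  set F : Ultrafilter ℕ := hyperfilter ℕ with hF
  have hFle : (F : Filter ℕ) ≤ atTop := Nat.hyperfilter_le_atTop
  have hcK : 0 ≤ cK 8 := by unfold cK cD c1 c2; positivity
  obtain ⟨W, hWc, hWg, hWconv, hWflat⟩ := compactness F w hcK (by norm_num : (1 : ℝ) ≤ 8)
    (by
      intro R
      filter_upwards [hFle hgrow, hFle (Z.ev_rpow_const |R| (b := 1 / 4) (by norm_num))]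
        with k h1 h2 x t hx ht
      apply h1
      have := le_abs_self R
      linarith)
    (fun R τ' hτ' => (hwinF R τ' hτ').filter_mono hFle)
  -- the limit is a solution
  have hsol : Sol.IsSol W := by
    refine isSol_limit (l := (F : Filter ℕ)) (Ω := fun _ => ball (0 : E) 1) (u := Z.u)
      (x0 := fun _ => 0) (p := p) (σ := Z.σ) (τ := Z.τ) (η := Z.η) (b := b)
      (Λ := fun k => Z.θ k ^ ((1 : ℝ) / 4)) (W := W)
      (Eventually.of_forall fun k => (Z.adm k).cc)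
      (Eventually.of_forall fun k => ⟨Z.σ_pos k, Z.τpos k, Z.η_pos k, Z.σ_sq k⟩) ?_ ?_ ?_ hWc hWconv
    · intro R
      have hsmall : ∀ᶠ k in atTop, Z.τ k * (40 * |R|) < 1 := by
        have : Tendsto (fun k => Z.τ k * (40 * |R|)) atTop (𝓝 (0 * (40 * |R|))) :=
          Z.τlim.mul_const _
        rw [zero_mul] at this
        exact this.eventually (gt_mem_nhds (by norm_num))
      filter_upwards [hFle hsmall, hFle hpb] with k h1 h2
      apply closedBall_subset_ball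
      have hτ := Z.τpos k
      have hσ := Z.σ_pos k
      calc R * (Z.σ k + Z.τ k * ‖p k‖) ≤ |R| * (8 * Z.τ k + Z.τ k * 32) := by
            have := Z.σ_le k
            have := h2.1
            have := le_abs_self R
            gcongr
        _ = Z.τ k * (40 * |R|) := by ring
        _ < 1 := h1
    · intro M
      filter_upwards [hFle (Z.ev_rpow (|M| * 65) (a := 1 / 16) (b := 1 / 4) (by norm_num)),
        hFle hpb] with k h1 h2
      have hτ := Z.τpos k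
      have hσ := Z.σ_pos k
      have h3 := Z.τ_div_σ_le k
      have h4 : (1 : ℝ) ≤ Z.θ k ^ ((1 : ℝ) / 16) := Real.one_le_rpow (Z.one_le_θ k) (by norm_num)
      calc M * (1 + Z.τ k * ‖p k‖ / Z.σ k) = M * (1 + Z.τ k / Z.σ k * ‖p k‖) := by ring
        _ ≤ |M| * (1 + (2 * Z.θ k ^ ((1 : ℝ) / 16)) * 32) := by
            have := le_abs_self M
            have := h2.1
            gcongr
        _ ≤ |M| * 65 * Z.θ k ^ ((1 : ℝ) / 16) := by
            have : 0 ≤ |M| := abs_nonneg M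
            nlinarith
        _ ≤ _ := h1
    · intro R ε hε
      set c : ℝ := ε / (2 * (cK 8 + 1)) with hc
      have hc0 : 0 < c := by positivity
      obtain ⟨C, hC⟩ := Flat.g_le_quad hc0
      refine ⟨cK 8 * (c * (2 * R ^ 2) + C), ?_⟩
      filter_upwards [hFle hgrow, hFle (Z.ev_rpow_const |R| (b := 1 / 4) (by norm_num))]
        with k h1 h2 y t hy ht
      have hR : |t| ≤ |R| := ht.trans (le_abs_self R)
      have h3 := h1 y t (by linarith)
      refine h3.trans ?_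
      have h4 := hC (‖y‖ + |t|) (by positivity)
      have h5 : (‖y‖ + |t|) ^ 2 ≤ 2 * ‖y‖ ^ 2 + 2 * R ^ 2 := by
        have h6 : |t| ^ 2 ≤ R ^ 2 := by
          rw [← sq_abs R]
          exact pow_le_pow_left₀ (abs_nonneg t) hR 2
        nlinarith [sq_nonneg (‖y‖ - |t|)]
      unfold Flat.g at h4
      calc cK 8 * (1 + (‖y‖ + |t|)) ^ ((3 : ℝ) / 2)
          ≤ cK 8 * (c * (‖y‖ + |t|) ^ 2 + C) := mul_le_mul_of_nonneg_left h4 hcK
        _ ≤ cK 8 * (c * (2 * ‖y‖ ^ 2 + 2 * R ^ 2) + C) := by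
            apply mul_le_mul_of_nonneg_left _ hcK
            have := mul_le_mul_of_nonneg_left h5 hc0.le
            linarith
        _ = (cK 8 * (2 * c)) * ‖y‖ ^ 2 + cK 8 * (c * (2 * R ^ 2) + C) := by ring
        _ ≤ ε * ‖y‖ ^ 2 + cK 8 * (c * (2 * R ^ 2) + C) := by
            have : cK 8 * (2 * c) ≤ ε := by
              rw [hc]
              calc cK 8 * (2 * (ε / (2 * (cK 8 + 1)))) = ε * (cK 8 / (cK 8 + 1)) := by
                    field_simp
                _ ≤ ε * 1 := by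
                    apply mul_le_mul_of_nonneg_left _ hε.le
                    rw [div_le_one (by linarith)]; linarith
                _ = ε := mul_one ε
            have hy2 : 0 ≤ ‖y‖ ^ 2 := by positivity
            have := mul_le_mul_of_nonneg_right this hy2
            linarith
  -- the limit is in the class
  have hcls : GK.Cls (Flat.Kg 8) W := by
    refine ⟨Flat.Kg_pos (by norm_num), hsol, ?_⟩
    intro x₀ t₀ τ hτ
    obtain ⟨q, β, hq⟩ := hWflat.flatG (by norm_num) x₀ t₀ τ hτ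
    exact ⟨q, β, hq⟩
  obtain ⟨q, β, c, haff⟩ := hL _ W hcls
  -- contradiction
  have hev := hWconv (‖q‖ + 1) (1 / 4) (by norm_num)
  obtain ⟨k, hk⟩ := hev.exists
  apply Z.bad k
  apply FU_of_FB (b k) (Z.σ_pos k) (Z.τpos k) (Z.η_pos k) (Z.σ_sq k)
    (p := q) (b := β + ‖q‖ ^ 2)
    (mul_le_mul_of_nonneg_right (Z.νup k) (Z.τpos k).le)
  · have h1 := Z.νlow k
    have h2 : Z.η k / 2 = NN ι (Z.τ k) / 2 * Z.τ k := by unfold η N; ring
    rw [h2]
    exact mul_le_mul_of_nonneg_right h1.le (Z.τpos k).le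
  · intro x t ht hx
    have hq0 := norm_nonneg q
    have e1 := hk (t • q + x) t (by
      calc ‖t • q + x‖ ≤ ‖t • q‖ + ‖x‖ := norm_add_le _ _
        _ = |t| * ‖q‖ + ‖x‖ := by rw [norm_smul, Real.norm_eq_abs]
        _ ≤ 1 * ‖q‖ + 1 := by gcongr
        _ = ‖q‖ + 1 := by ring) (by linarith)
    have e2 := hk 0 0 (by rw [norm_zero]; linarith) (by rw [abs_zero]; linarith)
    rw [haff] at e1 e2
    rw [inner_add_right, inner_smul_right, real_inner_self_eq_norm_sq] at e1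
    rw [inner_zero_right] at e2
    have e3 : bst (Z.u k) 0 (p k) (Z.σ k) (Z.τ k) (Z.η k) (b k) (0 + t • q + x) (0 + t) =
        bst (Z.u k) 0 (p k) (Z.σ k) (Z.τ k) (Z.η k) (b k) (t • q + x) t := by
      rw [zero_add, zero_add]
    rw [e3]
    simp only [hw] at e1 e2
    rw [abs_le] at e1 e2 ⊢
    constructor <;> linarith [e1.1, e1.2, e2.1, e2.2]

end Zoom

/-- **Section 2**: the Liouville theorem implies the centred expansion. -/
theorem centred_of_liouville (d : ℕ) (hL : GK.Liouville (EuclideanSpace ℝ (Fin d))) :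
    CentredExpansion d := by
  by_contra hcon
  have hnot : ∀ a : ℝ, 0 < a → ¬ ∃ C : ℝ, ∀ t, 0 < t → t ≤ 1 → NN (Fin d) t ≤ C * t ^ a := by
    rintro a ha ⟨C, hC⟩
    exact hcon (centred_of_decay ha hC)
  obtain ⟨Z⟩ := exists_zoom hnot
  exact Z.absurd_of_liouville hL

end Crest.Agent.R094.S2
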