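import Mathlib
import Crest.Agent.R094.SolDefs
import Crest.Agent.R094.Iface
import Crest.Agent.R094.EnvK
import Crest.Agent.R094.SolBasic

-- ▼ part R094/PropC
section

/-! Row 94, step (b) of the blueprint 7921 (helper330): PROP C, algebraic core. -/

set_option autoImplicit false
set_option linter.unusedSectionVars false

namespace Crest.Agent.R094.PropC

open scoped RealInnerProductSpace
open Crest.Agent.R094.Sol

variable {V : Type*} [NormedAddCommGroup V] [InnerProductSpace ℝ V]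

/-- position at time `0` of the line through `(x,t)` and `(z,t-s)`. -/
noncomputable def foot (s t : ℝ) (x z : V) : V := x - (t / s) • (x - z)

/-- the penalty `|x-z|²/2s + (sc/2)|foot - Y0|²`. -/
noncomputable def Phi (c s : ℝ) (Y0 : V) (t : ℝ) (x z : V) : ℝ :=
  ‖x - z‖ ^ 2 / (2 * s) + s * c / 2 * ‖foot s t x z - Y0‖ ^ 2

theorem foot_swap {s : ℝ} (hs : s ≠ 0) (t : ℝ) (x z : V) :
    foot s (s - t) z x = foot s t x z := by
  unfold foot
  have h : (s - t) / s = 1 - t / s := by field_simp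
  rw [h]
  module

theorem Phi_swap {s : ℝ} (hs : s ≠ 0) (c : ℝ) (Y0 : V) (t : ℝ) (x z : V) :
    Phi c s Y0 (s - t) z x = Phi c s Y0 t x z := by
  unfold Phi
  rw [foot_swap hs, norm_sub_rev z x]

theorem normsq_lin (a b : ℝ) (B Y : V) :
    ‖a • B + b • Y‖ ^ 2 = a ^ 2 * ‖B‖ ^ 2 + 2 * a * b * ⟪B, Y⟫ + b ^ 2 * ‖Y‖ ^ 2 := by
  rw [norm_add_sq_real, norm_smul, norm_smul, real_inner_smul_left, real_inner_smul_right,
    mul_pow, mul_pow, Real.norm_eq_abs, Real.norm_eq_abs, sq_abs, sq_abs]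
  ring

/-- the scalar inequality behind the first brace -/
theorem gam_ineq {c s t δ : ℝ} (hs : 0 < s) (hδ : 0 < δ)
    {D k1 : ℝ} (hD : D = 1 + δ / s + c * (t + δ) ^ 2 * δ / s)
    (hk : k1 = 1 + c * δ * (2 * t - s + δ)) (hDp : 0 < D) (hkp : 0 < k1)
    {g : ℝ} (hg : g = (1 + c * δ * (t + δ)) / D) :
    δ / 2 * (1 + δ / s) * g ^ 2 - δ * g + s * c / 2 * (δ - (t + δ) * (δ / s) * g) ^ 2 ≤ 0 := by
  have h1 : δ / 2 * (1 + δ / s) * g ^ 2 - δ * g + s * c / 2 * (δ - (t + δ) * (δ / s) * g) ^ 2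
      = δ / 2 * (D * g ^ 2 - 2 * g * (1 + c * δ * (t + δ)) + s * c * δ) := by
    rw [hD]; field_simp; ring
  have h2 : D * g = 1 + c * δ * (t + δ) := by rw [hg]; field_simp
  have h3 : s * c * δ * D = (1 + c * δ * (t + δ)) ^ 2 - k1 := by
    rw [hD, hk]; field_simp; ring
  have h4 : D * (D * g ^ 2 - 2 * g * (1 + c * δ * (t + δ)) + s * c * δ) = - k1 := by
    have : D * (D * g ^ 2 - 2 * g * (1 + c * δ * (t + δ)) + s * c * δ)
      = (D * g) ^ 2 - 2 * (D * g) * (1 + c * δ * (t + δ)) + s * c * δ * D := by ring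
    rw [this, h2, h3]; ring
  have h5 : D * g ^ 2 - 2 * g * (1 + c * δ * (t + δ)) + s * c * δ ≤ 0 := by
    by_contra hcon
    push Not at hcon
    have := mul_pos hDp hcon
    linarith
  rw [h1]
  have := mul_nonneg hδ.le (neg_nonneg.mpr h5)
  linarith

/-- the vector inequality behind the first brace -/
theorem brace_vec {c s t δ : ℝ} (hs : 0 < s)
    {k1 g : ℝ} (hk : k1 = 1 + c * δ * (2 * t - s + δ))
    (hg : δ / 2 * (1 + δ / s) * g ^ 2 - δ * g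
      + s * c / 2 * (δ - (t + δ) * (δ / s) * g) ^ 2 ≤ 0)
    (W β : V) :
    δ / 2 * (1 + δ / s) * ‖(s * c) • W + g • β‖ ^ 2
      - δ * ⟪(s * c) • W + g • β, (c * (s - t)) • W + β⟫
      + s * c / 2 * ‖k1 • W + δ • ((c * (s - t)) • W + β)
          - ((t + δ) * (δ / s)) • ((s * c) • W + g • β)‖ ^ 2
      ≤ s * c / 2 * k1 * ‖W‖ ^ 2 := by
  have e3 : k1 • W + δ • ((c * (s - t)) • W + β)
          - ((t + δ) * (δ / s)) • ((s * c) • W + g • β)
      = (1:ℝ) • W + (δ - (t + δ) * (δ / s) * g) • β := by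
    have : k1 + δ * (c * (s - t)) - (t + δ) * (δ / s) * (s * c) = 1 := by
      rw [hk]; field_simp; ring
    have h2 : k1 • W + δ • ((c * (s - t)) • W + β)
          - ((t + δ) * (δ / s)) • ((s * c) • W + g • β)
        = (k1 + δ * (c * (s - t)) - (t + δ) * (δ / s) * (s * c)) • W
          + (δ - (t + δ) * (δ / s) * g) • β := by module
    rw [h2, this]
  have e2 : ⟪(s * c) • W + g • β, (c * (s - t)) • W + β⟫
      = s * c * (c * (s - t)) * ‖W‖ ^ 2 + (s * c + g * (c * (s - t))) * ⟪W, β⟫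
        + g * ‖β‖ ^ 2 := by
    rw [inner_add_left, inner_add_right, inner_add_right, real_inner_smul_left,
      real_inner_smul_left, real_inner_smul_left, real_inner_smul_left, real_inner_smul_right,
      real_inner_smul_right, real_inner_self_eq_norm_sq, real_inner_self_eq_norm_sq,
      real_inner_comm W β]
    ring
  rw [e3, e2, normsq_lin, normsq_lin]
  have hβ : 0 ≤ ‖β‖ ^ 2 := by positivity
  have key : s * c / 2 * k1 * ‖W‖ ^ 2 - (δ / 2 * (1 + δ / s) *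
        ((s * c) ^ 2 * ‖W‖ ^ 2 + 2 * (s * c) * g * ⟪W, β⟫ + g ^ 2 * ‖β‖ ^ 2)
      - δ * (s * c * (c * (s - t)) * ‖W‖ ^ 2 + (s * c + g * (c * (s - t))) * ⟪W, β⟫
        + g * ‖β‖ ^ 2)
      + s * c / 2 * ((1:ℝ) ^ 2 * ‖W‖ ^ 2 + 2 * 1 * (δ - (t + δ) * (δ / s) * g) * ⟪W, β⟫
        + (δ - (t + δ) * (δ / s) * g) ^ 2 * ‖β‖ ^ 2))
      = - (δ / 2 * (1 + δ / s) * g ^ 2 - δ * g
      + s * c / 2 * (δ - (t + δ) * (δ / s) * g) ^ 2) * ‖β‖ ^ 2 := by
    rw [hk]; field_simp; ring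
  have h2 : 0 ≤ - (δ / 2 * (1 + δ / s) * g ^ 2 - δ * g
      + s * c / 2 * (δ - (t + δ) * (δ / s) * g) ^ 2) * ‖β‖ ^ 2 :=
    mul_nonneg (by linarith) hβ
  linarith

/-- FIRST BRACE.  For every `y` there is `z'` with a good forward step. -/
theorem brace {c s t δ : ℝ} (hs : 0 < s) (hδ : 0 < δ) (hc : 0 ≤ c)
    (hk : 0 < 1 + c * δ * (2 * t - s + δ)) (Y0 x z y : V) :
    ∃ z' : V, Phi c s Y0 (t + δ) y z' + ‖z - z'‖ ^ 2 / (2 * δ) - ‖x - y‖ ^ 2 / (2 * δ)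
      ≤ ‖x - z‖ ^ 2 / (2 * s)
        + s * c / 2 * (‖foot s t x z - Y0‖ ^ 2 / (1 + c * δ * (2 * t - s + δ))) := by
  set k1 : ℝ := 1 + c * δ * (2 * t - s + δ) with hk1
  set D : ℝ := 1 + δ / s + c * (t + δ) ^ 2 * δ / s with hD
  have hDp : 0 < D := by positivity
  set g : ℝ := (1 + c * δ * (t + δ)) / D with hg
  have hgi := gam_ineq hs hδ hD hk1 hDp hk hg
  set ν : V := s⁻¹ • (x - z) with hν
  set B : V := δ⁻¹ • (y - x) - ν with hB
  set Y : V := foot s t x z - Y0 with hY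
  set W : V := k1⁻¹ • Y with hW
  set β : V := B - (c * (s - t)) • W with hβ
  set h : V := (s * c) • W + g • β with hh
  have hvec := brace_vec (c := c) (s := s) (t := t) (δ := δ) hs hk1 hgi W β
  have hBW : (c * (s - t)) • W + β = B := by rw [hβ]; module
  have hYW : k1 • W = Y := by
    rw [hW, smul_smul, mul_inv_cancel₀ hk.ne', one_smul]
  rw [← hh, hBW, hYW] at hvec
  have hxz : x - z = s • ν := by rw [hν, smul_smul, mul_inv_cancel₀ hs.ne', one_smul]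
  have hxy : x - y = -(δ • (ν + B)) := by
    have : ν + B = δ⁻¹ • (y - x) := by rw [hB]; abel
    rw [this, smul_smul, mul_inv_cancel₀ hδ.ne', one_smul]; abel
  refine ⟨y - s • ν - δ • h, ?_⟩
  have e1 : y - (y - s • ν - δ • h) = s • ν + δ • h := by abel
  have e2 : z - (y - s • ν - δ • h) = (-δ) • (ν + B) + δ • h := by
    have : z - (y - s • ν - δ • h) = (x - y) - (x - z) + s • ν + δ • h := by abel
    rw [this, hxz, hxy]; module
  have e3 : foot s (t + δ) y (y - s • ν - δ • h) - Y0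
      = Y + δ • B - ((t + δ) * (δ / s)) • h := by
    have h1 : foot s t x z = x - t • ν := by
      rw [foot, hxz, smul_smul, div_mul_cancel₀ _ hs.ne']
    have h2 : foot s (t + δ) y (y - s • ν - δ • h)
        = y - (t + δ) • ν - ((t + δ) * (δ / s)) • h := by
      have e0 : ((t + δ) / s) • (s • ν + δ • h)
          = (t + δ) • ν + ((t + δ) * (δ / s)) • h := by
        have a1 : (t + δ) / s * s = t + δ := div_mul_cancel₀ _ hs.ne'
        have a2 : (t + δ) / s * δ = (t + δ) * (δ / s) := by ring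
        have a3 : ((t + δ) / s) • (s • ν + δ • h)
            = ((t + δ) / s * s) • ν + ((t + δ) / s * δ) • h := by module
        rw [a3, a1, a2]
      rw [foot, e1, e0]; abel
    have h3 : y = x + δ • (ν + B) := by
      have : y = x - (x - y) := by abel
      rw [this, hxy]; abel
    rw [hY, h1, h2]
    conv_lhs => rw [h3]
    module
  have e4 : ‖x - y‖ ^ 2 = δ ^ 2 * ‖ν + B‖ ^ 2 := by
    rw [hxy, norm_neg, norm_smul, mul_pow, Real.norm_eq_abs, sq_abs]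
  have e5 : ‖x - z‖ ^ 2 = s ^ 2 * ‖ν‖ ^ 2 := by
    rw [hxz, norm_smul, mul_pow, Real.norm_eq_abs, sq_abs]
  have e6 : ‖(-δ) • (ν + B) + δ • h‖ ^ 2
      = δ ^ 2 * (‖ν + B‖ ^ 2 - 2 * (⟪ν, h⟫ + ⟪h, B⟫) + ‖h‖ ^ 2) := by
    rw [normsq_lin, inner_add_left, real_inner_comm h B]; ring
  have e7 : ‖s • ν + δ • h‖ ^ 2 = s ^ 2 * ‖ν‖ ^ 2 + 2 * s * δ * ⟪ν, h⟫ + δ ^ 2 * ‖h‖ ^ 2 :=
    normsq_lin _ _ _ _
  have e8 : ‖Y‖ ^ 2 / k1 = k1 * ‖W‖ ^ 2 := by
    rw [hW, norm_smul, mul_pow, Real.norm_eq_abs, sq_abs]; field_simp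
  rw [Phi, e1, e2, e3, e4, e5, e6, e7, e8]
  have h9 : (s ^ 2 * ‖ν‖ ^ 2 + 2 * s * δ * ⟪ν, h⟫ + δ ^ 2 * ‖h‖ ^ 2) / (2 * s)
      + δ ^ 2 * (‖ν + B‖ ^ 2 - 2 * (⟪ν, h⟫ + ⟪h, B⟫) + ‖h‖ ^ 2) / (2 * δ)
      - δ ^ 2 * ‖ν + B‖ ^ 2 / (2 * δ)
      = s ^ 2 * ‖ν‖ ^ 2 / (2 * s) + (δ / 2 * (1 + δ / s) * ‖h‖ ^ 2 - δ * ⟪h, B⟫) := by
    field_simp; ring
  linarith

/-- SECOND BRACE (mirror of the first one). -/
theorem brace' {c s t δ : ℝ} (hs : 0 < s) (hδ : 0 < δ) (hc : 0 ≤ c)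
    (hk : 0 < 1 - c * δ * (2 * t - s - δ)) (Y0 x z z'' : V) :
    ∃ x'' : V, Phi c s Y0 (t - δ) x'' z'' + ‖x - x''‖ ^ 2 / (2 * δ) - ‖z - z''‖ ^ 2 / (2 * δ)
      ≤ ‖x - z‖ ^ 2 / (2 * s)
        + s * c / 2 * (‖foot s t x z - Y0‖ ^ 2 / (1 - c * δ * (2 * t - s - δ))) := by
  have e : 1 + c * δ * (2 * (s - t) - s + δ) = 1 - c * δ * (2 * t - s - δ) := by ring
  obtain ⟨x'', hx⟩ := brace (t := s - t) hs hδ hc (by rw [e]; exact hk) Y0 z x z''
  refine ⟨x'', ?_⟩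
  rw [e, foot_swap hs.ne', norm_sub_rev z x] at hx
  have e2 : s - t + δ = s - (t - δ) := by ring
  rw [e2, Phi_swap hs.ne'] at hx
  exact hx

/-- the sum of the two inverse factors -/
theorem kappa_ineq {c s t δ : ℝ} (hδ : 0 < δ) (hc : 0 ≤ c) (hA : c * (2 * t - s) ^ 2 ≤ 1) :
    0 < 1 + c * δ * (2 * t - s + δ) ∧ 0 < 1 - c * δ * (2 * t - s - δ) ∧
    1 / (1 + c * δ * (2 * t - s + δ)) + 1 / (1 - c * δ * (2 * t - s - δ)) ≤ 2 := by
  set A := 2 * t - s with hAd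
  have h1 : (c * δ * A) ^ 2 ≤ c * δ ^ 2 := by
    have : (c * δ * A) ^ 2 = c * δ ^ 2 * (c * A ^ 2) := by ring
    rw [this]
    have h0 : 0 ≤ c * δ ^ 2 := by positivity
    nlinarith
  have h2 : (c * δ * A) ^ 2 < (1 + c * δ ^ 2) ^ 2 := by
    have h0 : 0 ≤ c * δ ^ 2 := by positivity
    nlinarith
  have h3 : |c * δ * A| < 1 + c * δ ^ 2 := by
    have h0 : 0 ≤ 1 + c * δ ^ 2 := by positivity
    exact abs_lt_of_sq_lt_sq h2 h0
  obtain ⟨h4, h5⟩ := abs_lt.mp h3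
  have p1 : 0 < 1 + c * δ * (A + δ) := by nlinarith
  have p2 : 0 < 1 - c * δ * (A - δ) := by nlinarith
  refine ⟨p1, p2, ?_⟩
  rw [div_add_div _ _ p1.ne' p2.ne', div_le_iff₀ (mul_pos p1 p2)]
  nlinarith [mul_nonneg hc (mul_nonneg (sq_nonneg δ) (sub_nonneg.mpr hA)),
    mul_nonneg (mul_nonneg hc hc) (pow_nonneg (sq_nonneg δ) 2)]

/-- POINTWISE STEP of PROP C. -/
theorem step_pt {c s t δ ε : ℝ} (hs : 0 < s) (hδ : 0 < δ) (hc : 0 ≤ c)
    (hcA : c * (2 * t - s) ^ 2 ≤ 1) (Y0 : V) (U A w D : V → ℝ → ℝ)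
    (hA : ∀ x, ∃ y, 2 * A x t ≤ A y (t + δ) - ‖x - y‖ ^ 2 / (2 * δ) + U x t + ε)
    (hA' : ∀ x x'', U x t ≤ A x'' (t - δ) + ‖x - x''‖ ^ 2 / (2 * δ))
    (hD : ∀ z, ∃ z'', D z'' (t - δ - s) + ‖z - z''‖ ^ 2 / (2 * δ) + w z (t - s)
      ≤ 2 * D z (t - s) + ε)
    (hD' : ∀ z z', D z' (t + δ - s) - ‖z - z'‖ ^ 2 / (2 * δ) ≤ w z (t - s))
    (x z : V) : ∃ y z' x'' z'' : V,
      2 * (A x t - D z (t - s) - Phi c s Y0 t x z)
        ≤ (A y (t + δ) - D z' (t + δ - s) - Phi c s Y0 (t + δ) y z')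
          + (A x'' (t - δ) - D z'' (t - δ - s) - Phi c s Y0 (t - δ) x'' z'') + 2 * ε := by
  obtain ⟨p1, p2, p3⟩ := kappa_ineq (s := s) (t := t) hδ hc hcA
  obtain ⟨y, hy⟩ := hA x
  obtain ⟨z'', hz''⟩ := hD z
  obtain ⟨z', hz'⟩ := brace hs hδ hc p1 Y0 x z y
  obtain ⟨x'', hx''⟩ := brace' hs hδ hc p2 Y0 x z z''
  refine ⟨y, z', x'', z'', ?_⟩
  have h1 := hA' x x''
  have h2 := hD' z z'
  have h3 : s * c / 2 * (‖foot s t x z - Y0‖ ^ 2 / (1 + c * δ * (2 * t - s + δ)))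
      + s * c / 2 * (‖foot s t x z - Y0‖ ^ 2 / (1 - c * δ * (2 * t - s - δ)))
      ≤ 2 * (s * c / 2 * ‖foot s t x z - Y0‖ ^ 2) := by
    have : s * c / 2 * (‖foot s t x z - Y0‖ ^ 2 / (1 + c * δ * (2 * t - s + δ)))
      + s * c / 2 * (‖foot s t x z - Y0‖ ^ 2 / (1 - c * δ * (2 * t - s - δ)))
      = (s * c / 2 * ‖foot s t x z - Y0‖ ^ 2) * (1 / (1 + c * δ * (2 * t - s + δ))
        + 1 / (1 - c * δ * (2 * t - s - δ))) := by ring
    have hX : 0 ≤ s * c / 2 * ‖foot s t x z - Y0‖ ^ 2 := by positivity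
    have := mul_le_mul_of_nonneg_left p3 hX
    linarith
  have h4 : Phi c s Y0 t x z = ‖x - z‖ ^ 2 / (2 * s)
      + s * c / 2 * ‖foot s t x z - Y0‖ ^ 2 := rfl
  rw [h4]
  linarith


/-! ### discrete convexity -/

theorem disc_conv (a : ℕ → ℝ) (N : ℕ)
    (h : ∀ j, j + 1 < 2 * N → 2 * a (j + 1) ≤ a (j + 2) + a j) :
    2 * a N ≤ a 0 + a (2 * N) := by
  have hmono : ∀ k j, j + k < 2 * N → a (j + 1) - a j ≤ a (j + k + 1) - a (j + k) := by
    intro k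
    induction k with
    | zero => intro j _; simp
    | succ k ih =>
      intro j hj
      have h1 := ih j (by omega)
      have h2 := h (j + k) (by omega)
      have e1 : j + (k + 1) + 1 = j + k + 2 := by ring
      have e2 : j + (k + 1) = j + k + 1 := by ring
      rw [e1, e2]
      linarith
  have hb : ∀ j, j ≤ N → 2 * a N ≤ a (N + j) + a (N - j) := by
    intro j
    induction j with
    | zero => intro _; simp; linarith
    | succ j ih =>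
      intro hj
      have h1 := ih (by omega)
      have h2 := hmono (2 * j + 1) (N - (j + 1)) (by omega)
      have e1 : N - (j + 1) + 1 = N - j := by omega
      have e2 : N - (j + 1) + (2 * j + 1) + 1 = N + (j + 1) := by omega
      have e3 : N - (j + 1) + (2 * j + 1) = N + j := by omega
      rw [e1, e2, e3] at h2
      linarith
  have h3 := hb N le_rfl
  have e1 : N + N = 2 * N := by ring
  rw [e1, Nat.sub_self] at h3
  linarith

/-! ### growth and boundedness -/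

omit [InnerProductSpace ℝ V] in
theorem sq_le_two (x y : V) : ‖y‖ ^ 2 ≤ 2 * ‖x‖ ^ 2 + 2 * ‖x - y‖ ^ 2 := by
  have h : ‖y‖ ≤ ‖x‖ + ‖x - y‖ := by
    have : y = x - (x - y) := by abel
    calc ‖y‖ = ‖x - (x - y)‖ := by rw [← this]
      _ ≤ ‖x‖ + ‖x - y‖ := norm_sub_le _ _
  have h0 : 0 ≤ ‖y‖ := norm_nonneg _
  nlinarith [sq_nonneg (‖x‖ - ‖x - y‖), norm_nonneg x, norm_nonneg (x - y)]

omit [InnerProductSpace ℝ V] in
theorem pen_le {f : V → ℝ} {s e C : ℝ} (hs : 0 < s) (he : 0 ≤ e) (hse : 4 * s * e ≤ 1)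
    (hf : ∀ y, f y ≤ e * ‖y‖ ^ 2 + C) (x y : V) :
    f y - ‖x - y‖ ^ 2 / (2 * s) ≤ 2 * e * ‖x‖ ^ 2 + C := by
  have h1 := hf y
  have h2 := mul_le_mul_of_nonneg_left (sq_le_two x y) he
  have h3 : 2 * e * ‖x - y‖ ^ 2 ≤ ‖x - y‖ ^ 2 / (2 * s) := by
    rw [le_div_iff₀ (by positivity)]
    nlinarith [sq_nonneg ‖x - y‖]
  nlinarith

theorem bdd_pen {f : V → ℝ} {s e C : ℝ} (hs : 0 < s) (he : 0 ≤ e) (hse : 4 * s * e ≤ 1)
    (hf : ∀ y, f y ≤ e * ‖y‖ ^ 2 + C) (x : V) :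
    BddAbove (Set.range fun y => f y - ‖x - y‖ ^ 2 / (2 * s)) :=
  ⟨2 * e * ‖x‖ ^ 2 + C, by rintro _ ⟨y, rfl⟩; exact pen_le hs he hse hf x y⟩

theorem bdd_pen' {f : V → ℝ} {s e C : ℝ} (hs : 0 < s) (he : 0 ≤ e) (hse : 4 * s * e ≤ 1)
    (hf : ∀ y, - (e * ‖y‖ ^ 2 + C) ≤ f y) (x : V) :
    BddBelow (Set.range fun y => f y + ‖x - y‖ ^ 2 / (2 * s)) :=
  ⟨-(2 * e * ‖x‖ ^ 2 + C), by
    rintro _ ⟨y, rfl⟩
    have := pen_le (f := fun y => - f y) hs he hse (fun y => by have := hf y; linarith) x y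
    simp only
    linarith⟩

/-- the two bounds of `T` -/
theorem T_le_of {U : V → ℝ → ℝ} {s t e C : ℝ} (hs : 0 < s) (he : 0 ≤ e) (hse : 4 * s * e ≤ 1)
    (hf : ∀ y, U y (t + s) ≤ e * ‖y‖ ^ 2 + C) (x : V) :
    T s U x t ≤ 2 * e * ‖x‖ ^ 2 + C :=
  ciSup_le fun y => pen_le hs he hse hf x y

theorem le_T_of {U : V → ℝ → ℝ} {s t e C : ℝ} (hs : 0 < s) (he : 0 ≤ e) (hse : 4 * s * e ≤ 1)
    (hf : ∀ y, U y (t + s) ≤ e * ‖y‖ ^ 2 + C) (x y : V) :
    U y (t + s) - ‖x - y‖ ^ 2 / (2 * s) ≤ T s U x t :=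
  le_ciSup (f := fun y => U y (t + s) - ‖x - y‖ ^ 2 / (2 * s)) (bdd_pen hs he hse hf x) y

theorem le_T_self {U : V → ℝ → ℝ} {s t e C : ℝ} (hs : 0 < s) (he : 0 ≤ e) (hse : 4 * s * e ≤ 1)
    (hf : ∀ y, U y (t + s) ≤ e * ‖y‖ ^ 2 + C) (x : V) :
    U x (t + s) ≤ T s U x t := by
  have := le_T_of hs he hse hf x x
  simpa using this

theorem B_ge_of {w : V → ℝ → ℝ} {s t e C : ℝ} (hs : 0 < s) (he : 0 ≤ e) (hse : 4 * s * e ≤ 1)
    (hf : ∀ y, - (e * ‖y‖ ^ 2 + C) ≤ w y (t - s)) (x : V) :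
    -(2 * e * ‖x‖ ^ 2 + C) ≤ B s w x t :=
  le_ciInf fun y => by
    have := pen_le (f := fun y => - w y (t - s)) hs he hse (fun y => by have := hf y; linarith) x y
    linarith

theorem B_le_of {w : V → ℝ → ℝ} {s t e C : ℝ} (hs : 0 < s) (he : 0 ≤ e) (hse : 4 * s * e ≤ 1)
    (hf : ∀ y, - (e * ‖y‖ ^ 2 + C) ≤ w y (t - s)) (x y : V) :
    B s w x t ≤ w y (t - s) + ‖x - y‖ ^ 2 / (2 * s) :=
  ciInf_le (f := fun y => w y (t - s) + ‖x - y‖ ^ 2 / (2 * s)) (bdd_pen' hs he hse hf x) y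

theorem B_le_self {w : V → ℝ → ℝ} {s t e C : ℝ} (hs : 0 < s) (he : 0 ≤ e) (hse : 4 * s * e ≤ 1)
    (hf : ∀ y, - (e * ‖y‖ ^ 2 + C) ≤ w y (t - s)) (x : V) :
    B s w x t ≤ w x (t - s) := by
  have := B_le_of hs he hse hf x x
  simpa using this

/-- COERCIVITY of the penalty. -/
theorem coer {c s R : ℝ} (hs : 0 < s) (hc : 0 < c) (Y0 : V) {t : ℝ} (ht : |t| ≤ R) (x z : V) :
    ‖x‖ ^ 2 + ‖z‖ ^ 2 ≤ (18 / (s * c) + (9 * (R / s) ^ 2 + 2) * (2 * s)) * Phi c s Y0 t x z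
      + 9 * ‖Y0‖ ^ 2 := by
  have hR : 0 ≤ R := (abs_nonneg t).trans ht
  set Y := foot s t x z with hY
  have h1 : ‖x‖ ≤ ‖Y - Y0‖ + ‖Y0‖ + R / s * ‖x - z‖ := by
    have e : x = (Y - Y0) + Y0 + (t / s) • (x - z) := by rw [hY, foot]; module
    calc ‖x‖ = ‖(Y - Y0) + Y0 + (t / s) • (x - z)‖ := by rw [← e]
      _ ≤ ‖(Y - Y0) + Y0‖ + ‖(t / s) • (x - z)‖ := norm_add_le _ _
      _ ≤ ‖Y - Y0‖ + ‖Y0‖ + ‖(t / s) • (x - z)‖ := by gcongr; exact norm_add_le _ _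
      _ ≤ _ := by
        rw [norm_smul, Real.norm_eq_abs, abs_div, abs_of_pos hs]
        gcongr
  have h2 : ‖x‖ ^ 2 ≤ 3 * (‖Y - Y0‖ ^ 2 + ‖Y0‖ ^ 2 + (R / s) ^ 2 * ‖x - z‖ ^ 2) := by
    have h0 : 0 ≤ ‖x‖ := norm_nonneg _
    have h3 : ‖x‖ ^ 2 ≤ (‖Y - Y0‖ + ‖Y0‖ + R / s * ‖x - z‖) ^ 2 := by gcongr
    have h4 : (R / s) ^ 2 * ‖x - z‖ ^ 2 = (R / s * ‖x - z‖) ^ 2 := by ring
    rw [h4]
    nlinarith [sq_nonneg (‖Y - Y0‖ - ‖Y0‖), sq_nonneg (‖Y - Y0‖ - R / s * ‖x - z‖),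
      sq_nonneg (‖Y0‖ - R / s * ‖x - z‖)]
  have h3 := sq_le_two x z
  have h4 : (18 / (s * c)) * (s * c / 2 * ‖Y - Y0‖ ^ 2) = 9 * ‖Y - Y0‖ ^ 2 := by
    field_simp; ring
  have h5 : ((9 * (R / s) ^ 2 + 2) * (2 * s)) * (‖x - z‖ ^ 2 / (2 * s))
      = (9 * (R / s) ^ 2 + 2) * ‖x - z‖ ^ 2 := by field_simp
  have h6 : 0 ≤ (18 / (s * c)) * (‖x - z‖ ^ 2 / (2 * s)) := by positivity
  have h7 : 0 ≤ ((9 * (R / s) ^ 2 + 2) * (2 * s)) * (s * c / 2 * ‖Y - Y0‖ ^ 2) := by positivity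
  have h8 : Phi c s Y0 t x z = ‖x - z‖ ^ 2 / (2 * s) + s * c / 2 * ‖Y - Y0‖ ^ 2 := rfl
  have h9 : ∀ a b p q : ℝ, (a + b) * (p + q) = a * q + b * p + (a * p + b * q) := by
    intros; ring
  rw [h8, h9, h4, h5]
  nlinarith

theorem Phi_nonneg {c s : ℝ} (hs : 0 < s) (hc : 0 ≤ c) (Y0 : V) (t : ℝ) (x z : V) :
    0 ≤ Phi c s Y0 t x z := by
  unfold Phi; positivity


/-- the functional `V_s(t) = sup_{x,z} [U(x,t) - w(z,t-s) - Φ_t(x,z)]` -/
noncomputable def Vf (c s : ℝ) (Y0 : V) (U w : V → ℝ → ℝ) (t : ℝ) : ℝ :=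
  ⨆ p : V × V, (U p.1 t - w p.2 (t - s) - Phi c s Y0 t p.1 p.2)

/-- growth gives an upper bound of the functional -/
theorem F_le {c s R M e C1 C2 : ℝ} (hs : 0 < s) (hc : 0 < c) (Y0 : V) {t : ℝ} (ht : |t| ≤ R)
    (hM : M = 18 / (s * c) + (9 * (R / s) ^ 2 + 2) * (2 * s)) (he : 0 ≤ e) (heM : 2 * e * M ≤ 1)
    {f g : V → ℝ} (hf : ∀ y, f y ≤ e * ‖y‖ ^ 2 + C1) (hg : ∀ y, -(e * ‖y‖ ^ 2 + C2) ≤ g y)
    (x z : V) :
    f x - g z - Phi c s Y0 t x z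
      ≤ C1 + C2 + (9 * e + 9 / (2 * M)) * ‖Y0‖ ^ 2 - (‖x‖ ^ 2 + ‖z‖ ^ 2) / (2 * M) := by
  have hMp : 0 < M := by rw [hM]; positivity
  have h1 := coer hs hc Y0 ht x z
  rw [← hM] at h1
  have h2 := hf x
  have h3 := hg z
  have hP := Phi_nonneg hs hc.le Y0 t x z
  have h4 : e * (‖x‖ ^ 2 + ‖z‖ ^ 2) ≤ e * (M * Phi c s Y0 t x z + 9 * ‖Y0‖ ^ 2) :=
    mul_le_mul_of_nonneg_left h1 he
  have h5 : e * M * Phi c s Y0 t x z ≤ 1 / 2 * Phi c s Y0 t x z :=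
    mul_le_mul_of_nonneg_right (by linarith) hP
  have h6 : (‖x‖ ^ 2 + ‖z‖ ^ 2) / (2 * M) ≤ Phi c s Y0 t x z / 2 + 9 / (2 * M) * ‖Y0‖ ^ 2 := by
    rw [div_le_iff₀ (by positivity)]
    have : (Phi c s Y0 t x z / 2 + 9 / (2 * M) * ‖Y0‖ ^ 2) * (2 * M)
        = M * Phi c s Y0 t x z + 9 * ‖Y0‖ ^ 2 := by field_simp
    rw [this]; exact h1
  nlinarith

theorem bdd_F {c s R M e C1 C2 : ℝ} (hs : 0 < s) (hc : 0 < c) (Y0 : V) {t : ℝ} (ht : |t| ≤ R)
    (hM : M = 18 / (s * c) + (9 * (R / s) ^ 2 + 2) * (2 * s)) (he : 0 ≤ e) (heM : 2 * e * M ≤ 1)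
    {f g : V → ℝ} (hf : ∀ y, f y ≤ e * ‖y‖ ^ 2 + C1) (hg : ∀ y, -(e * ‖y‖ ^ 2 + C2) ≤ g y) :
    BddAbove (Set.range fun p : V × V => f p.1 - g p.2 - Phi c s Y0 t p.1 p.2) := by
  have hMp : 0 < M := by rw [hM]; positivity
  refine ⟨C1 + C2 + (9 * e + 9 / (2 * M)) * ‖Y0‖ ^ 2, ?_⟩
  rintro _ ⟨p, rfl⟩
  have := F_le hs hc Y0 ht hM he heM hf hg p.1 p.2
  have h2 : 0 ≤ (‖p.1‖ ^ 2 + ‖p.2‖ ^ 2) / (2 * M) := by positivity
  simp only
  linarith


/-- one forward step with slack -/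
theorem fwd_step {U : V → ℝ → ℝ} {t δ e C ε : ℝ} (hδ : 0 < δ) (he : 0 ≤ e) (hδe : 8 * δ * e ≤ 1)
    (hf1 : ∀ y, U y (t + 2 * δ) ≤ e * ‖y‖ ^ 2 + C)
    (hs : ∀ x, T δ U x t ≤ (1 - δ / (2 * δ)) * U x t + δ / (2 * δ) * T (2 * δ) U x t)
    (hε : 0 < ε) (x : V) :
    ∃ y, 2 * T δ U x t ≤ T δ U y (t + δ) - ‖x - y‖ ^ 2 / (2 * δ) + U x t + ε := by
  have h1 := hs x
  have e1 : δ / (2 * δ) = 1 / 2 := by field_simp
  rw [e1] at h1
  obtain ⟨y', hy'⟩ : ∃ y', T (2 * δ) U x t - ε < U y' (t + 2 * δ) - ‖x - y'‖ ^ 2 / (2 * (2 * δ)) :=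
    exists_lt_of_lt_ciSup (show T (2 * δ) U x t - ε < T (2 * δ) U x t by linarith)
  set y : V := x - (1 / 2 : ℝ) • (x - y') with hy
  have n1 : ‖x - y‖ ^ 2 = ‖x - y'‖ ^ 2 / 4 := by
    have : x - y = (1 / 2 : ℝ) • (x - y') := by rw [hy]; abel
    rw [this, norm_smul, mul_pow]; norm_num; ring
  have n2 : ‖y - y'‖ ^ 2 = ‖x - y'‖ ^ 2 / 4 := by
    have : y - y' = (1 / 2 : ℝ) • (x - y') := by rw [hy]; module
    rw [this, norm_smul, mul_pow]; norm_num; ring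
  have h2 : U y' (t + δ + δ) - ‖y - y'‖ ^ 2 / (2 * δ) ≤ T δ U y (t + δ) := by
    refine le_T_of (e := e) (C := C) hδ he (by nlinarith) ?_ y y'
    intro z
    have : t + δ + δ = t + 2 * δ := by ring
    rw [this]; exact hf1 z
  refine ⟨y, ?_⟩
  have e2 : t + δ + δ = t + 2 * δ := by ring
  rw [e2, n2] at h2
  rw [n1]
  have e3 : ‖x - y'‖ ^ 2 / (2 * (2 * δ))
      = ‖x - y'‖ ^ 2 / 4 / (2 * δ) + ‖x - y'‖ ^ 2 / 4 / (2 * δ) := by
    field_simp; ring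
  rw [e3] at hy'
  linarith

/-- one backward step with slack -/
theorem bwd_step {w : V → ℝ → ℝ} {t δ e C ε : ℝ} (hδ : 0 < δ) (he : 0 ≤ e) (hδe : 8 * δ * e ≤ 1)
    (hf1 : ∀ y, -(e * ‖y‖ ^ 2 + C) ≤ w y (t - 2 * δ))
    (hs : ∀ x, (1 - δ / (2 * δ)) * w x t + δ / (2 * δ) * B (2 * δ) w x t ≤ B δ w x t)
    (hε : 0 < ε) (x : V) :
    ∃ y, B δ w y (t - δ) + ‖x - y‖ ^ 2 / (2 * δ) + w x t ≤ 2 * B δ w x t + ε := by
  have h1 := hs x
  have e1 : δ / (2 * δ) = 1 / 2 := by field_simp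
  rw [e1] at h1
  obtain ⟨y', hy'⟩ : ∃ y', w y' (t - 2 * δ) + ‖x - y'‖ ^ 2 / (2 * (2 * δ)) < B (2 * δ) w x t + ε :=
    exists_lt_of_ciInf_lt (show B (2 * δ) w x t < B (2 * δ) w x t + ε by linarith)
  set y : V := x - (1 / 2 : ℝ) • (x - y') with hy
  have n1 : ‖x - y‖ ^ 2 = ‖x - y'‖ ^ 2 / 4 := by
    have : x - y = (1 / 2 : ℝ) • (x - y') := by rw [hy]; abel
    rw [this, norm_smul, mul_pow]; norm_num; ring
  have n2 : ‖y - y'‖ ^ 2 = ‖x - y'‖ ^ 2 / 4 := by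
    have : y - y' = (1 / 2 : ℝ) • (x - y') := by rw [hy]; module
    rw [this, norm_smul, mul_pow]; norm_num; ring
  have h2 : B δ w y (t - δ) ≤ w y' (t - δ - δ) + ‖y - y'‖ ^ 2 / (2 * δ) := by
    refine B_le_of (e := e) (C := C) hδ he (by nlinarith) ?_ y y'
    intro z
    have : t - δ - δ = t - 2 * δ := by ring
    rw [this]; exact hf1 z
  refine ⟨y, ?_⟩
  have e2 : t - δ - δ = t - 2 * δ := by ring
  rw [e2, n2] at h2
  rw [n1]
  have e3 : ‖x - y'‖ ^ 2 / (2 * (2 * δ))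
      = ‖x - y'‖ ^ 2 / 4 / (2 * δ) + ‖x - y'‖ ^ 2 / 4 / (2 * δ) := by
    field_simp; ring
  rw [e3] at hy'
  linarith

/-- SUP-LEVEL STEP of PROP C. -/
theorem step_sup {c s t δ e C R M : ℝ} (hs : 0 < s) (hδ : 0 < δ) (hδ1 : δ ≤ 1) (hc : 0 < c)
    (hcA : c * (2 * t - s) ^ 2 ≤ 1) (Y0 : V) {U w : V → ℝ → ℝ}
    (htδ : 0 < t - δ) (hR : t + s + 2 ≤ R)
    (hM : M = 18 / (s * c) + (9 * (R / s) ^ 2 + 2) * (2 * s)) (he : 0 ≤ e) (he8 : 8 * e ≤ 1)
    (heM : 4 * e * M ≤ 1)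
    (hUg : ∀ y t, 0 < t → t ≤ R → U y t ≤ e * ‖y‖ ^ 2 + C)
    (hwg : ∀ y t, |t| ≤ R → -(e * ‖y‖ ^ 2 + C) ≤ w y t)
    (hUs : ∀ x t s s', 0 < t → 0 < s → s ≤ s' →
      T s U x t ≤ (1 - s / s') * U x t + s / s' * T s' U x t)
    (hws : IsSup w) :
    2 * Vf c s Y0 (T δ U) (B δ w) t
      ≤ Vf c s Y0 (T δ U) (B δ w) (t + δ) + Vf c s Y0 (T δ U) (B δ w) (t - δ) := by
  have hδe : 8 * δ * e ≤ 1 := by nlinarith
  have h4 : 4 * δ * e ≤ 1 := by nlinarith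
  have ht : 0 < t := by linarith
  -- growth of T δ U, B δ w
  have hTg : ∀ t', 0 < t' → t' ≤ t + δ → ∀ y, T δ U y t' ≤ (2 * e) * ‖y‖ ^ 2 + C := by
    intro t' h0 h1 y
    exact T_le_of hδ he h4 (fun y => hUg y _ (by linarith) (by linarith)) y
  have hBg : ∀ t', |t' - δ| ≤ R → ∀ y, -((2 * e) * ‖y‖ ^ 2 + C) ≤ B δ w y t' := by
    intro t' h1 y
    exact B_ge_of hδ he h4 (fun y => hwg y _ h1) y
  have hbd : ∀ t', 0 < t' → t' ≤ t + δ → BddAbove (Set.range fun p : V × V =>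
      T δ U p.1 t' - B δ w p.2 (t' - s) - Phi c s Y0 t' p.1 p.2) := by
    intro t' h0 h1
    refine bdd_F (R := R) (M := M) (e := 2 * e) hs hc Y0 (t := t') ?_ hM (by linarith)
      (by linarith) (hTg t' h0 h1) (hBg (t' - s) ?_)
    · rw [abs_of_pos h0]; linarith
    · rw [abs_le]; constructor <;> linarith
  have hle : ∀ t', 0 < t' → t' ≤ t + δ → ∀ x z : V,
      T δ U x t' - B δ w z (t' - s) - Phi c s Y0 t' x z ≤ Vf c s Y0 (T δ U) (B δ w) t' := by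
    intro t' h0 h1 x z
    exact le_ciSup (f := fun p : V × V =>
      T δ U p.1 t' - B δ w p.2 (t' - s) - Phi c s Y0 t' p.1 p.2) (hbd t' h0 h1) (x, z)
  suffices h : Vf c s Y0 (T δ U) (B δ w) t ≤
      (Vf c s Y0 (T δ U) (B δ w) (t + δ) + Vf c s Y0 (T δ U) (B δ w) (t - δ)) / 2 by linarith
  refine ciSup_le ?_
  rintro ⟨x, z⟩
  simp only
  refine le_of_forall_pos_le_add fun ε hε => ?_
  obtain ⟨y, z', x'', z'', h⟩ := step_pt (ε := ε) hs hδ hc.le hcA Y0 U (T δ U) w (B δ w)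
    (fwd_step hδ he hδe (fun y => hUg y _ (by linarith) (by linarith))
      (fun x => hUs x t δ (2 * δ) ht hδ (by linarith)) hε)
    (by
      intro x x''
      have h1 := le_T_of (U := U) (t := t - δ) (C := C) hδ he h4
        (fun y => hUg y _ (by linarith) (by linarith)) x'' x
      rw [sub_add_cancel, norm_sub_rev] at h1
      linarith)
    (by
      intro z
      obtain ⟨y, hy⟩ := bwd_step (w := w) (t := t - s) (C := C) hδ he hδe
        (fun y => hwg y _ (by rw [abs_le]; constructor <;> linarith))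
        (fun x => hws x (t - s) δ (2 * δ) hδ (by linarith)) hε z
      refine ⟨y, ?_⟩
      have e : t - δ - s = t - s - δ := by ring
      rw [e]; exact hy)
    (by
      intro z z'
      have h1 := B_le_of (w := w) (t := t + δ - s) (C := C) hδ he h4
        (fun y => hwg y _ (by rw [abs_le]; constructor <;> linarith)) z' z
      have e : t + δ - s - δ = t - s := by ring
      rw [e, norm_sub_rev] at h1
      linarith) x z
  have h1 := hle (t + δ) (by linarith) le_rfl y z'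
  have h2 := hle (t - δ) (by linarith) (by linarith) x'' z''
  linarith


/-- the regularised functional is below the functional up to `O(δ)` -/
theorem upper_reg {c s t δ e C R M : ℝ} (hs : 0 < s) (hδ : 0 < δ) (hδ1 : δ ≤ 1) (hc : 0 < c)
    (Y0 : V) {U w : V → ℝ → ℝ} (ht : 0 < t) (hR : t + s + 2 ≤ R)
    (hM : M = 18 / (s * c) + (9 * (R / s) ^ 2 + 2) * (2 * s)) (he : 0 ≤ e) (he8 : 8 * e ≤ 1)
    (heM : 4 * e * M ≤ 1) (hδM : 2 * M * δ ≤ 1)
    (hUg : ∀ y t, 0 < t → t ≤ R → |U y t| ≤ e * ‖y‖ ^ 2 + C)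
    (hwg : ∀ y t, |t| ≤ R → |w y t| ≤ e * ‖y‖ ^ 2 + C)
    (hUs : ∀ x t s s', 0 < t → 0 < s → s ≤ s' →
      T s U x t ≤ (1 - s / s') * U x t + s / s' * T s' U x t)
    (hws : IsSup w) :
    Vf c s Y0 (T δ U) (B δ w) t ≤ Vf c s Y0 U w t
      + δ * (2 * M * (C + C + (9 * e + 9 / (2 * M)) * ‖Y0‖ ^ 2 - Vf c s Y0 U w t) + 4 * C) := by
  have hMp : 0 < M := by rw [hM]; positivity
  have hbd : BddAbove (Set.range fun p : V × V =>
      U p.1 t - w p.2 (t - s) - Phi c s Y0 t p.1 p.2) := by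
    refine bdd_F (R := R) (M := M) (e := e) (C1 := C) (C2 := C) (f := fun x => U x t)
      (g := fun z => w z (t - s)) hs hc Y0 (t := t) ?_ hM he (by nlinarith)
      (fun y => (abs_le.mp (hUg y t ht (by linarith))).2)
      (fun y => (abs_le.mp (hwg y (t - s) (by rw [abs_le]; constructor <;> linarith))).1)
    rw [abs_of_pos ht]; linarith
  refine ciSup_le ?_
  rintro ⟨x, z⟩
  simp only
  set Vv := Vf c s Y0 U w t with hVv
  set F := U x t - w z (t - s) - Phi c s Y0 t x z with hF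
  have h1 : F ≤ Vv := le_ciSup hbd (x, z)
  have h2 : F ≤ C + C + (9 * e + 9 / (2 * M)) * ‖Y0‖ ^ 2 - (‖x‖ ^ 2 + ‖z‖ ^ 2) / (2 * M) := by
    refine F_le (R := R) (M := M) (e := e) (C1 := C) (C2 := C) (f := fun x => U x t)
      (g := fun z => w z (t - s)) hs hc Y0 (t := t) ?_ hM he (by nlinarith)
      (fun y => (abs_le.mp (hUg y t ht (by linarith))).2)
      (fun y => (abs_le.mp (hwg y (t - s) (by rw [abs_le]; constructor <;> linarith))).1) x z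
    rw [abs_of_pos ht]; linarith
  -- the regularised values
  have h3 : T δ U x t ≤ U x t + δ * (‖x‖ ^ 2 + 2 * C) := by
    have a1 := hUs x t δ 1 ht hδ hδ1
    rw [div_one] at a1
    have a2 : T 1 U x t ≤ 2 * e * ‖x‖ ^ 2 + C :=
      T_le_of one_pos he (by linarith)
        (fun y => (abs_le.mp (hUg y _ (by linarith) (by linarith))).2) x
    have a3 := (abs_le.mp (hUg x t ht (by linarith))).1
    have a4 : T 1 U x t - U x t ≤ ‖x‖ ^ 2 + 2 * C := by nlinarith [sq_nonneg ‖x‖]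
    have a5 := mul_le_mul_of_nonneg_left a4 hδ.le
    linarith
  have h4 : w z (t - s) - δ * (‖z‖ ^ 2 + 2 * C) ≤ B δ w z (t - s) := by
    have a1 := hws z (t - s) δ 1 hδ hδ1
    rw [div_one] at a1
    have a2 : -(2 * e * ‖z‖ ^ 2 + C) ≤ B 1 w z (t - s) :=
      B_ge_of one_pos he (by linarith)
        (fun y => (abs_le.mp (hwg y _ (by rw [abs_le]; constructor <;> linarith))).1) z
    have a3 := (abs_le.mp (hwg z (t - s) (by rw [abs_le]; constructor <;> linarith))).2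
    have a4 : w z (t - s) - B 1 w z (t - s) ≤ ‖z‖ ^ 2 + 2 * C := by nlinarith [sq_nonneg ‖z‖]
    have a5 := mul_le_mul_of_nonneg_left a4 hδ.le
    linarith
  set r := ‖x‖ ^ 2 + ‖z‖ ^ 2 with hr
  set C2 := C + C + (9 * e + 9 / (2 * M)) * ‖Y0‖ ^ 2 with hC2
  have h5 : F + δ * r ≤ Vv + 2 * M * δ * (C2 - Vv) := by
    have a1 : (1 - 2 * M * δ) * F ≤ (1 - 2 * M * δ) * Vv :=
      mul_le_mul_of_nonneg_left h1 (by linarith)
    have a2 : 2 * M * δ * F ≤ 2 * M * δ * (C2 - r / (2 * M)) :=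
      mul_le_mul_of_nonneg_left h2 (by positivity)
    have a3 : 2 * M * δ * (C2 - r / (2 * M)) = 2 * M * δ * C2 - δ * r := by
      field_simp
    linarith
  have h6 : T δ U x t - B δ w z (t - s) - Phi c s Y0 t x z ≤ F + δ * r + δ * (4 * C) := by
    rw [hF, hr]; linarith
  linarith

/-- the regularised functional is above the shifted values -/
theorem lower_reg {c s t δ e C R M : ℝ} (hs : 0 < s) (hδ : 0 < δ) (hδ1 : δ ≤ 1) (hc : 0 < c)
    (Y0 : V) {U w : V → ℝ → ℝ} (ht : 0 < t) (hR : t + s + 2 ≤ R)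
    (hM : M = 18 / (s * c) + (9 * (R / s) ^ 2 + 2) * (2 * s)) (he : 0 ≤ e) (he8 : 8 * e ≤ 1)
    (heM : 4 * e * M ≤ 1)
    (hUg : ∀ y t, 0 < t → t ≤ R → U y t ≤ e * ‖y‖ ^ 2 + C)
    (hwg : ∀ y t, |t| ≤ R → -(e * ‖y‖ ^ 2 + C) ≤ w y t) (x z : V) :
    U x (t + δ) - w z (t - s - δ) - Phi c s Y0 t x z ≤ Vf c s Y0 (T δ U) (B δ w) t := by
  have h4 : 4 * δ * e ≤ 1 := by nlinarith
  have b1 : U x (t + δ) ≤ T δ U x t :=
    le_T_self hδ he h4 (fun y => hUg y _ (by linarith) (by linarith)) x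
  have b2 : B δ w z (t - s) ≤ w z (t - s - δ) :=
    B_le_self hδ he h4 (fun y => hwg y _ (by rw [abs_le]; constructor <;> linarith)) z
  have b3 : T δ U x t - B δ w z (t - s) - Phi c s Y0 t x z
      ≤ Vf c s Y0 (T δ U) (B δ w) t := by
    refine le_ciSup (f := fun p : V × V =>
      T δ U p.1 t - B δ w p.2 (t - s) - Phi c s Y0 t p.1 p.2) ?_ (x, z)
    refine bdd_F (R := R) (M := M) (e := 2 * e) (C1 := C) (C2 := C) hs hc Y0 (t := t) ?_ hM
      (by linarith) (by linarith) (f := fun y => T δ U y t) (g := fun y => B δ w y (t - s)) ?_ ?_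
    · rw [abs_of_pos ht]; linarith
    · intro y
      exact T_le_of hδ he h4 (fun y => hUg y _ (by linarith) (by linarith)) y
    · intro y
      exact B_ge_of hδ he h4 (fun y => hwg y _ (by rw [abs_le]; constructor <;> linarith)) y
  linarith

open Filter Topology in
/-- PROP C: midpoint convexity of `V_s` on the window `c(2t-s)² ≤ 1`. -/
theorem midconv {c s : ℝ} (hs : 0 < s) (hc : 0 < c) (Y0 : V) {U w : V → ℝ → ℝ}
    (hUg : ∀ R e : ℝ, 0 < e → ∃ C : ℝ, ∀ y t, 0 < t → t ≤ R → |U y t| ≤ e * ‖y‖ ^ 2 + C)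
    (hUs : ∀ x t s s', 0 < t → 0 < s → s ≤ s' →
      T s U x t ≤ (1 - s / s') * U x t + s / s' * T s' U x t)
    (hUc : ∀ x t, 0 < t → Tendsto (fun δ => U x (t + δ)) (𝓝[>] 0) (𝓝 (U x t)))
    (hwg : Grow w) (hws : IsSup w)
    (hwc : ∀ z t, Tendsto (fun δ => w z (t - δ)) (𝓝[>] 0) (𝓝 (w z t)))
    {t1 t2 : ℝ} (h1 : 0 < t1) (h12 : t1 ≤ t2) (hA : ∀ t ∈ Set.Icc t1 t2, c * (2 * t - s) ^ 2 ≤ 1) :
    Vf c s Y0 U w ((t1 + t2) / 2) ≤ (Vf c s Y0 U w t1 + Vf c s Y0 U w t2) / 2 := by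
  rcases h12.eq_or_lt with rfl | h12
  · have : (t1 + t1) / 2 = t1 := by ring
    rw [this]; linarith
  set R := t2 + s + 2 with hR
  set M := 18 / (s * c) + (9 * (R / s) ^ 2 + 2) * (2 * s) with hM
  have hRp : 0 < R := by linarith
  have hMp : 0 < M := by positivity
  set e : ℝ := min (1 / 8) (1 / (4 * M)) with he
  have hep : 0 < e := by positivity
  have he8 : 8 * e ≤ 1 := by have := min_le_left (1 / 8 : ℝ) (1 / (4 * M)); linarith
  have heM : 4 * e * M ≤ 1 := by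
    have := min_le_right (1 / 8 : ℝ) (1 / (4 * M))
    have h2 : e * (4 * M) ≤ 1 / (4 * M) * (4 * M) := by gcongr
    rw [div_mul_cancel₀ _ (by positivity)] at h2
    linarith
  obtain ⟨CU, hCU⟩ := hUg R e hep
  obtain ⟨Cw, hCw⟩ := hwg R e hep
  set C := max CU Cw with hC
  have hU : ∀ y t, 0 < t → t ≤ R → |U y t| ≤ e * ‖y‖ ^ 2 + C := fun y t h0 h1 =>
    (hCU y t h0 h1).trans (by gcongr; exact le_max_left _ _)
  have hw : ∀ y t, |t| ≤ R → |w y t| ≤ e * ‖y‖ ^ 2 + C := fun y t h0 =>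
    (hCw y t h0).trans (by gcongr; exact le_max_right _ _)
  set K1 := 2 * M * (C + C + (9 * e + 9 / (2 * M)) * ‖Y0‖ ^ 2 - Vf c s Y0 U w t1) + 4 * C with hK1
  set K2 := 2 * M * (C + C + (9 * e + 9 / (2 * M)) * ‖Y0‖ ^ 2 - Vf c s Y0 U w t2) + 4 * C with hK2
  set tm := (t1 + t2) / 2 with htm
  -- the discrete inequality
  have key : ∀ N : ℕ, 0 < N → (t2 - t1) / (2 * N) ≤ 1 → 2 * M * ((t2 - t1) / (2 * N)) ≤ 1 →
      Vf c s Y0 (T ((t2 - t1) / (2 * N)) U) (B ((t2 - t1) / (2 * N)) w) tm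
        ≤ (Vf c s Y0 U w t1 + Vf c s Y0 U w t2) / 2 + (t2 - t1) / (2 * N) * ((K1 + K2) / 2) := by
    intro N hN hδ1 hδM
    set δ := (t2 - t1) / (2 * N) with hδ
    have hNp : (0 : ℝ) < N := by exact_mod_cast hN
    have hδp : 0 < δ := div_pos (by linarith) (by positivity)
    have hNδ : 2 * N * δ = t2 - t1 := by rw [hδ]; field_simp
    set a : ℕ → ℝ := fun j => Vf c s Y0 (T δ U) (B δ w) (t1 + j * δ) with ha
    have hstep : ∀ j, j + 1 < 2 * N → 2 * a (j + 1) ≤ a (j + 2) + a j := by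
      intro j hj
      have hj' : ((j : ℝ) + 1) + 1 ≤ 2 * N := by exact_mod_cast hj
      have hj0 : (0 : ℝ) ≤ j := Nat.cast_nonneg j
      have h3 : ((j : ℝ) + 1) * δ + δ ≤ t2 - t1 := by
        rw [← hNδ]; nlinarith
      have hjδ : 0 ≤ (j : ℝ) * δ := by positivity
      have := step_sup (t := t1 + ((j : ℝ) + 1) * δ) (R := R) (M := M) (e := e) (C := C)
        hs hδp hδ1 hc (hA _ ⟨by nlinarith, by linarith⟩) Y0 (U := U) (w := w)
        (by nlinarith) (by linarith) hM hep.le he8 heM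
        (fun y t h0 h1 => (abs_le.mp (hU y t h0 h1)).2)
        (fun y t h0 => (abs_le.mp (hw y t h0)).1) hUs hws
      have e1 : t1 + ((j : ℝ) + 1) * δ + δ = t1 + ((j + 2 : ℕ) : ℝ) * δ := by push_cast; ring
      have e2 : t1 + ((j : ℝ) + 1) * δ - δ = t1 + (j : ℝ) * δ := by ring
      have e3 : t1 + ((j : ℝ) + 1) * δ = t1 + ((j + 1 : ℕ) : ℝ) * δ := by push_cast; ring
      rw [e1, e2, e3] at this
      exact this
    have h4 := disc_conv a N hstep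
    have e0 : a 0 = Vf c s Y0 (T δ U) (B δ w) t1 := by simp [ha]
    have eN : a N = Vf c s Y0 (T δ U) (B δ w) tm := by
      have : t1 + N * δ = tm := by rw [htm]; linarith
      simp only [ha]; rw [this]
    have e2N : a (2 * N) = Vf c s Y0 (T δ U) (B δ w) t2 := by
      have : t1 + ((2 * N : ℕ) : ℝ) * δ = t2 := by push_cast; linarith
      simp only [ha]; rw [this]
    rw [e0, eN, e2N] at h4
    have u1 := upper_reg (t := t1) (R := R) (M := M) (e := e) (C := C) hs hδp hδ1 hc Y0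
      (U := U) (w := w) h1 (by linarith) hM hep.le he8 heM hδM hU hw hUs hws
    have u2 := upper_reg (t := t2) (R := R) (M := M) (e := e) (C := C) hs hδp hδ1 hc Y0
      (U := U) (w := w) (by linarith) (by linarith) hM hep.le he8 heM hδM hU hw hUs hws
    rw [← hK1] at u1
    rw [← hK2] at u2
    linarith
  -- passage to the limit
  refine ciSup_le ?_
  rintro ⟨x, z⟩
  simp only
  have htm0 : 0 < tm := by rw [htm]; linarith
  have hlim : Tendsto (fun N : ℕ => (t2 - t1) / (2 * (N : ℝ))) atTop (𝓝[>] 0) := by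
    rw [tendsto_nhdsWithin_iff]
    constructor
    · have : Tendsto (fun N : ℕ => ((t2 - t1) / 2) * ((N : ℝ))⁻¹) atTop (𝓝 (((t2 - t1) / 2) * 0)) :=
        tendsto_inv_atTop_nhds_zero_nat.const_mul _
      rw [mul_zero] at this
      refine this.congr fun N => ?_
      rw [mul_comm 2, ← div_div, div_right_comm]; ring
    · filter_upwards [eventually_gt_atTop 0] with N hN
      have hNp : (0 : ℝ) < N := by exact_mod_cast hN
      have h0 : (0 : ℝ) < t2 - t1 := by linarith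
      exact Set.mem_Ioi.mpr (div_pos h0 (mul_pos two_pos hNp))
  have hlim0 : Tendsto (fun N : ℕ => (t2 - t1) / (2 * (N : ℝ))) atTop (𝓝 0) :=
    hlim.mono_right nhdsWithin_le_nhds
  have L1 : Tendsto (fun N : ℕ => U x (tm + (t2 - t1) / (2 * (N : ℝ)))
      - w z (tm - s - (t2 - t1) / (2 * (N : ℝ))) - Phi c s Y0 tm x z) atTop
      (𝓝 (U x tm - w z (tm - s) - Phi c s Y0 tm x z)) :=
    (((hUc x tm htm0).comp hlim).sub ((hwc z (tm - s)).comp hlim)).sub tendsto_const_nhds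
  have L2 : Tendsto (fun N : ℕ => (Vf c s Y0 U w t1 + Vf c s Y0 U w t2) / 2
      + (t2 - t1) / (2 * (N : ℝ)) * ((K1 + K2) / 2)) atTop
      (𝓝 ((Vf c s Y0 U w t1 + Vf c s Y0 U w t2) / 2 + 0 * ((K1 + K2) / 2))) :=
    tendsto_const_nhds.add (hlim0.mul_const _)
  rw [zero_mul, add_zero] at L2
  refine le_of_tendsto_of_tendsto L1 L2 ?_
  have ev1 : ∀ᶠ N : ℕ in atTop, (t2 - t1) / (2 * (N : ℝ)) ≤ 1 :=
    hlim0.eventually (Iic_mem_nhds one_pos)
  have ev2 : ∀ᶠ N : ℕ in atTop, (t2 - t1) / (2 * (N : ℝ)) ≤ 1 / (2 * M) :=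
    hlim0.eventually (Iic_mem_nhds (by positivity))
  filter_upwards [ev1, ev2, eventually_gt_atTop 0] with N hN1 hN2 hN0
  have hNp : (0 : ℝ) < N := by exact_mod_cast hN0
  have hδp : 0 < (t2 - t1) / (2 * (N : ℝ)) := div_pos (by linarith) (by positivity)
  have hδM : 2 * M * ((t2 - t1) / (2 * (N : ℝ))) ≤ 1 := by
    have := mul_le_mul_of_nonneg_left hN2 (show 0 ≤ 2 * M by positivity)
    rwa [mul_one_div_cancel (by positivity)] at this
  refine le_trans ?_ (key N hN0 hN1 hδM)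
  set δ := (t2 - t1) / (2 * (N : ℝ)) with hδ
  have b := lower_reg (t := tm) (R := R) (M := M) (e := e) (C := C) hs hδp hN1 hc Y0
    (U := U) (w := w) htm0 (by rw [hR, htm]; linarith) hM hep.le he8 heM
    (fun y t h0 h1 => (abs_le.mp (hU y t h0 h1)).2)
    (fun y t h0 => (abs_le.mp (hw y t h0)).1) x z
  exact b

end Crest.Agent.R094.PropC
end

-- ▼ part R094/PropCIface
section

/-! Row 94: `PropC_stmt` of the frozen interface, from `PropC.midconv` (helper431). -/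

set_option autoImplicit false
set_option linter.unusedSectionVars false

namespace Crest.Agent.R094.GK

open Sol

variable {V : Type*} [NormedAddCommGroup V] [InnerProductSpace ℝ V]

theorem Vf_eq_PropC (U w : V → ℝ → ℝ) (c : ℝ) (Y₀ : V) (s t : ℝ) :
    Vf U w c Y₀ s t = PropC.Vf c s Y₀ U w t := rfl

theorem SubPos.tendsto_right {U : V → ℝ → ℝ} (h : SubPos U) (x : V) {t : ℝ} (ht : 0 < t) :
    Filter.Tendsto (fun δ => U x (t + δ)) (nhdsWithin 0 (Set.Ioi 0)) (nhds (U x t)) := by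
  have hopen : IsOpen {q : V × ℝ | 0 < q.2} := isOpen_lt continuous_const continuous_snd
  have h1 : ContinuousAt (fun q : V × ℝ => U q.1 q.2) (x, t) :=
    h.cont.continuousAt (hopen.mem_nhds ht)
  have h2 : Filter.Tendsto (fun δ : ℝ => ((x, t + δ) : V × ℝ)) (nhds 0) (nhds (x, t)) := by
    have : Continuous (fun δ : ℝ => ((x, t + δ) : V × ℝ)) := by fun_prop
    have h3 := this.tendsto 0
    simpa using h3
  exact (h1.tendsto.comp h2).mono_left nhdsWithin_le_nhds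

theorem tendsto_left_of_isSol {w : V → ℝ → ℝ} (h : IsSol w) (x : V) (t : ℝ) :
    Filter.Tendsto (fun δ => w x (t - δ)) (nhdsWithin 0 (Set.Ioi 0)) (nhds (w x t)) := by
  have h1 : Continuous (fun δ : ℝ => w x (t - δ)) :=
    h.cont.comp (by fun_prop : Continuous (fun δ : ℝ => ((x, t - δ) : V × ℝ)))
  have h2 := h1.tendsto 0
  simp only [sub_zero] at h2
  exact h2.mono_left nhdsWithin_le_nhds

/-- boundedness of the functional -/
theorem bddAbove_val {U w : V → ℝ → ℝ} (hU : SubPos U) (hw : Grow w) {c : ℝ} (Y₀ : V)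
    {s t : ℝ} (hc : 0 < c) (hs : 0 < s) (ht : 0 < t) :
    BddAbove (Set.range fun q : V × V => val U w c Y₀ s t q.1 q.2) := by
  set R := t + s with hR
  set M := 18 / (s * c) + (9 * (R / s) ^ 2 + 2) * (2 * s) with hM
  have hMp : 0 < M := by positivity
  have hep : (0:ℝ) < 1 / (2 * M) := by positivity
  obtain ⟨C1, hC1⟩ := hU.grow R _ hep
  obtain ⟨C2, hC2⟩ := hw R _ hep
  refine PropC.bdd_F (R := R) (M := M) (e := 1 / (2 * M)) (C1 := C1) (C2 := C2) hs hc Y₀ (t := t)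
    ?_ hM hep.le (le_of_eq (by field_simp)) (f := fun x => U x t) (g := fun z => w z (t - s))
    (fun y => (abs_le.mp (hC1 y t ht (by linarith))).2)
    (fun y => (abs_le.mp (hC2 y (t - s) (by rw [abs_le]; constructor <;> linarith))).1)
  rw [abs_of_pos ht]; linarith

theorem propC : PropC_stmt V := by
  intro U w hU hw c Y₀ s t Δ hc hs hΔ hΔt hs2 hcw
  rw [Vf_eq_PropC, Vf_eq_PropC, Vf_eq_PropC]
  have h := PropC.midconv (t1 := t - Δ) (t2 := t + Δ) hs hc Y₀ hU.grow hU.sub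
    (fun x t ht => hU.tendsto_right x ht) hw.grow hw.sup (fun z t => tendsto_left_of_isSol hw z t)
    (by linarith) (by linarith) (by
      intro t' ht'
      obtain ⟨h1, h2⟩ := ht'
      have h3 : (2 * t' - s) ^ 2 ≤ (2 * (t + Δ)) ^ 2 := by
        apply sq_le_sq'
        · linarith
        · linarith
      exact (mul_le_mul_of_nonneg_left h3 hc.le).trans hcw)
  have e : (t - Δ + (t + Δ)) / 2 = t := by ring
  rw [e] at h
  linarith



end Crest.Agent.R094.GK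
end

-- ▼ part R094/StageCUpB
section

/-! Row 94: `VfAttained_stmt` and the upper bound of Stage C (helper431). -/

set_option autoImplicit false
set_option linter.unusedSectionVars false

namespace Crest.Agent.R094.CUpB

open Sol Set Filter Topology GK

variable {V : Type*} [NormedAddCommGroup V] [InnerProductSpace ℝ V]

/-- a quadratic upper bound at `x` of a semiconcave function upgrades to the sharp one -/
theorem supGrad_of_quad {f : V → ℝ} {t : ℝ} (ht : 0 < t)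
    (hf : ConcaveOn ℝ univ (fun x => f x - ‖x‖ ^ 2 / (2 * t))) {x q : V} {M : ℝ}
    (h : ∀ ξ, f (x + ξ) ≤ f x + inner ℝ q ξ + M * ‖ξ‖ ^ 2) : SupGrad t f x q := by
  intro ξ
  by_contra hcon
  push Not at hcon
  set D := f (x + ξ) - (f x + inner ℝ q ξ + ‖ξ‖ ^ 2 / (2 * t)) with hD
  have hDp : 0 < D := by linarith
  set K := |M| * ‖ξ‖ ^ 2 with hK
  have hKp : 0 ≤ K := by positivity
  -- the inequality for every θ
  have key : ∀ θ : ℝ, 0 < θ → θ ≤ 1 → D ≤ θ * K := by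
    intro θ h0 h1
    have h2 := hf.2 (mem_univ x) (mem_univ (x + ξ)) (sub_nonneg.mpr h1) h0.le (by ring)
    have e1 : (1 - θ) • x + θ • (x + ξ) = x + θ • ξ := by module
    rw [e1] at h2
    simp only [smul_eq_mul] at h2
    have e2 : ‖x + θ • ξ‖ ^ 2 = ‖x‖ ^ 2 + 2 * θ * inner ℝ x ξ + θ ^ 2 * ‖ξ‖ ^ 2 := by
      rw [norm_add_sq_real, real_inner_smul_right, norm_smul, Real.norm_eq_abs, mul_pow, sq_abs]
      ring
    have e3 : ‖x + ξ‖ ^ 2 = ‖x‖ ^ 2 + 2 * inner ℝ x ξ + ‖ξ‖ ^ 2 := norm_add_sq_real _ _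
    have e4 : (1 - θ) * (‖x‖ ^ 2 / (2 * t)) + θ * (‖x + ξ‖ ^ 2 / (2 * t))
        - ‖x + θ • ξ‖ ^ 2 / (2 * t) = θ * (1 - θ) * (‖ξ‖ ^ 2 / (2 * t)) := by
      rw [e2, e3]; ring
    have h3 := h (θ • ξ)
    rw [real_inner_smul_right, norm_smul, mul_pow, Real.norm_eq_abs, sq_abs] at h3
    have h4 : θ * (f (x + ξ) - f x) ≤ θ * inner ℝ q ξ + M * (θ ^ 2 * ‖ξ‖ ^ 2)
        + θ * (1 - θ) * (‖ξ‖ ^ 2 / (2 * t)) := by nlinarith
    have h5 : M * (θ ^ 2 * ‖ξ‖ ^ 2) ≤ θ * (θ * K) := by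
      rw [hK]
      have : M * (θ ^ 2 * ‖ξ‖ ^ 2) ≤ |M| * (θ ^ 2 * ‖ξ‖ ^ 2) :=
        mul_le_mul_of_nonneg_right (le_abs_self M) (by positivity)
      linarith
    have h6 : 0 ≤ θ * θ * (‖ξ‖ ^ 2 / (2 * t)) := by positivity
    have h7 : θ * D ≤ θ * (θ * K) := by rw [hD]; nlinarith
    exact le_of_mul_le_mul_left h7 h0
  have h1 := key (min 1 (D / (2 * (K + 1)))) (by positivity) (min_le_left _ _)
  have h2 : min 1 (D / (2 * (K + 1))) * K ≤ D / (2 * (K + 1)) * K := by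
    gcongr; exact min_le_right _ _
  have h3 : D / (2 * (K + 1)) * K < D := by
    rw [div_mul_eq_mul_div, div_lt_iff₀ (by positivity)]
    nlinarith
  linarith

/-- coercive upper bound of the functional -/
theorem val_coer {U w : V → ℝ → ℝ} (hU : SubPos U) (hw : Grow w) {c : ℝ} (Y₀ : V)
    {s t : ℝ} (hc : 0 < c) (hs : 0 < s) (ht : 0 < t) :
    ∃ C₀ lam : ℝ, 0 < lam ∧ ∀ x z, val U w c Y₀ s t x z ≤ C₀ - lam * (‖x‖ ^ 2 + ‖z‖ ^ 2) := by
  set R := t + s with hR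
  set M := 18 / (s * c) + (9 * (R / s) ^ 2 + 2) * (2 * s) with hM
  have hMp : 0 < M := by positivity
  have hep : (0:ℝ) < 1 / (2 * M) := by positivity
  obtain ⟨C1, hC1⟩ := hU.grow R _ hep
  obtain ⟨C2, hC2⟩ := hw R _ hep
  refine ⟨C1 + C2 + (9 * (1 / (2 * M)) + 9 / (2 * M)) * ‖Y₀‖ ^ 2, 1 / (2 * M), hep,
    fun x z => ?_⟩
  have := PropC.F_le (R := R) (M := M) (e := 1 / (2 * M)) (C1 := C1) (C2 := C2) hs hc Y₀ (t := t)
    (by rw [abs_of_pos ht]; linarith) hM hep.le (le_of_eq (by field_simp))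
    (f := fun x => U x t) (g := fun z => w z (t - s))
    (fun y => (abs_le.mp (hC1 y t ht (by linarith))).2)
    (fun y => (abs_le.mp (hC2 y (t - s) (by rw [abs_le]; constructor <;> linarith))).1) x z
  have e : (‖x‖ ^ 2 + ‖z‖ ^ 2) / (2 * M) = 1 / (2 * M) * (‖x‖ ^ 2 + ‖z‖ ^ 2) := by ring
  rw [e] at this
  exact this

theorem SubPos.cont_slice {U : V → ℝ → ℝ} (hU : SubPos U) {t : ℝ} (ht : 0 < t) :
    Continuous (fun y => U y t) := by
  have h : Continuous (fun y : V => ((y, t) : V × ℝ)) := by fun_prop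
  exact hU.cont.comp_continuous h (fun _ => ht)

variable [FiniteDimensional ℝ V]

/-- existence of maximisers -/
theorem exists_max_val {U w : V → ℝ → ℝ} (hU : SubPos U) (hw : IsSol w) {c : ℝ} (Y₀ : V)
    {s t : ℝ} (hc : 0 < c) (hs : 0 < s) (ht : 0 < t) :
    ∃ x z, ∀ x' z', val U w c Y₀ s t x' z' ≤ val U w c Y₀ s t x z := by
  obtain ⟨C₀, lam, hlam, hb⟩ := val_coer hU hw.grow Y₀ hc hs ht
  have hcont : Continuous (fun q : V × V => val U w c Y₀ s t q.1 q.2) := by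
    have h1 : Continuous (fun q : V × V => U q.1 t) := (SubPos.cont_slice hU ht).comp continuous_fst
    have h2 : Continuous (fun q : V × V => w q.2 (t - s)) :=
      (slice_cont hw.cont (t - s)).comp continuous_snd
    have h3 : Continuous (fun q : V × V => Phi c Y₀ s t q.1 q.2) := by
      unfold Phi
      have a1 : Continuous (fun q : V × V => q.1 - q.2) := continuous_fst.sub continuous_snd
      have a2 : Continuous (fun q : V × V => q.1 - (t / s) • (q.1 - q.2) - Y₀) :=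
        (continuous_fst.sub (a1.const_smul (t / s))).sub continuous_const
      exact ((a1.norm.pow 2).div_const _).add (continuous_const.mul (a2.norm.pow 2))
    exact (h1.sub h2).sub h3
  set A := val U w c Y₀ s t 0 0 with hA
  set r := Real.sqrt ((|C₀| + |A|) / lam) + 1 with hr
  obtain ⟨q, hq⟩ := hcont.exists_forall_ge' (0 : V × V) (by
    have hK := (isCompact_closedBall (0 : V × V) r).compl_mem_cocompact
    filter_upwards [hK] with q hq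
    simp only [mem_compl_iff, Metric.mem_closedBall, dist_zero_right, not_le] at hq
    have h1 := hb q.1 q.2
    have h2 : ‖q‖ ^ 2 ≤ ‖q.1‖ ^ 2 + ‖q.2‖ ^ 2 := by
      rw [Prod.norm_def]
      rcases max_cases ‖q.1‖ ‖q.2‖ with ⟨h, _⟩ | ⟨h, _⟩ <;> rw [h] <;>
        nlinarith [sq_nonneg ‖q.1‖, sq_nonneg ‖q.2‖]
    have h3 : (|C₀| + |A|) / lam ≤ ‖q‖ ^ 2 := by
      have h4 : Real.sqrt ((|C₀| + |A|) / lam) ≤ ‖q‖ := by rw [hr] at hq; linarith
      calc (|C₀| + |A|) / lam = Real.sqrt ((|C₀| + |A|) / lam) ^ 2 :=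
            (Real.sq_sqrt (by positivity)).symm
        _ ≤ ‖q‖ ^ 2 := by gcongr
    rw [div_le_iff₀ hlam] at h3
    have h5 : val U w c Y₀ s t (0 : V × V).1 (0 : V × V).2 = A := rfl
    rw [h5]
    have h6 := le_abs_self C₀
    have h7 := neg_abs_le A
    nlinarith)
  exact ⟨q.1, q.2, fun x' z' => hq (x', z')⟩

/-- at a maximiser there is a supergradient -/
theorem supGrad_of_max {U w : V → ℝ → ℝ} {c : ℝ} {Y₀ : V} {s t : ℝ} (hs : 0 < s) (ht : 0 < t)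
    (hUc : ConcaveOn ℝ univ (fun x => U x t - ‖x‖ ^ 2 / (2 * t))) {x z : V}
    (hmax : ∀ x', val U w c Y₀ s t x' z ≤ val U w c Y₀ s t x z) :
    SupGrad t (fun y => U y t) x
      ((1 / s) • (x - z) - (c * (t - s)) • (x - (t / s) • (x - z) - Y₀)) := by
  refine supGrad_of_quad (M := 1 / (2 * s) + s * c / 2 * (1 - t / s) ^ 2) ht hUc fun ξ => ?_
  have h := hmax (x + ξ)
  unfold val Phi at h
  set Y := x - (t / s) • (x - z) - Y₀ with hY
  have e1 : x + ξ - z = (x - z) + ξ := by abel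
  have e2 : x + ξ - (t / s) • (x + ξ - z) - Y₀ = Y + (1 - t / s) • ξ := by rw [hY]; module
  rw [e2, e1, norm_add_sq_real (x - z) ξ, norm_add_sq_real Y, real_inner_smul_right, norm_smul,
    mul_pow, Real.norm_eq_abs, sq_abs] at h
  rw [inner_sub_left, real_inner_smul_left, real_inner_smul_left]
  have e3 : s * c / 2 * (‖Y‖ ^ 2 + 2 * ((1 - t / s) * inner ℝ Y ξ) + (1 - t / s) ^ 2 * ‖ξ‖ ^ 2)
      = s * c / 2 * ‖Y‖ ^ 2 - c * (t - s) * inner ℝ Y ξ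
        + s * c / 2 * (1 - t / s) ^ 2 * ‖ξ‖ ^ 2 := by
    field_simp; ring
  have e4 : (‖x - z‖ ^ 2 + 2 * inner ℝ (x - z) ξ + ‖ξ‖ ^ 2) / (2 * s)
      = ‖x - z‖ ^ 2 / (2 * s) + 1 / s * inner ℝ (x - z) ξ + 1 / (2 * s) * ‖ξ‖ ^ 2 := by
    field_simp
  rw [e3, e4] at h
  linarith

theorem concaveOn_Uf {w : V → ℝ → ℝ} (h : Grow w) {t : ℝ} (ht : 0 < t) :
    ConcaveOn ℝ univ (fun x => Uf w x t - ‖x‖ ^ 2 / (2 * t)) :=
  concaveOn_env (slice_subQ h t) ht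

theorem VfAttained : VfAttained_stmt V := by
  intro K w hw c Y₀ s t hc hs ht
  have hU : SubPos (Uf w) := EnvSub K w hw
  obtain ⟨x, z, hmax⟩ := exists_max_val hU hw.sol Y₀ hc hs ht
  refine ⟨bddAbove_val hU hw.sol.grow Y₀ hc hs ht, x, z, ?_, ?_⟩
  · apply le_antisymm
    · exact ciSup_le fun q => hmax q.1 q.2
    · exact le_ciSup (bddAbove_val hU hw.sol.grow Y₀ hc hs ht) (x, z)
  · exact supGrad_of_max hs ht (concaveOn_Uf hw.sol.grow ht) fun x' => hmax x' z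

/-- UPPER BOUND of Stage C at a maximiser (with the good term `- s‖Y‖²/144`). -/
theorem stageC_upper {K κ : ℝ} (hκ : 0 < κ) (hkap : IsKap V K κ) {w : V → ℝ → ℝ} (hw : Cls K w) :
    ∃ C, 0 ≤ C ∧ ∀ t s, 0 < t → t ≤ 2 → 0 < s → s ≤ 1 → s ≤ t / 2 → ∀ x z,
      (∀ x' z', val (Uf w) w (1 / 36) 0 s t x' z' ≤ val (Uf w) w (1 / 36) 0 s t x z) →
        val (Uf w) w (1 / 36) 0 s t x z
          ≤ κ * t + s * (C - ‖x - (t / s) • (x - z)‖ ^ 2 / 144) := by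
  have hg := hw.sol.grow
  obtain ⟨C1, hC1⟩ := hg 2 (1 / 96) (by norm_num)
  obtain ⟨C2, hC2⟩ := hg 2 (1 / 6912) (by norm_num)
  have hC1n : 0 ≤ C1 := by
    have := (abs_nonneg _).trans (hC1 0 0 (by norm_num))
    simpa using this
  have hC2n : 0 ≤ C2 := by
    have := (abs_nonneg _).trans (hC2 0 0 (by norm_num))
    simpa using this
  set C' := 4 * (κ + C1) with hC'
  refine ⟨48 / 6912 * (4 * C') + 2 * C2, by positivity, ?_⟩
  intro t s ht ht2 hs hs1 hst x z hmax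
  set ν := (1 / s) • (x - z) with hν
  set Y := x - (t / s) • (x - z) with hY
  set q := ν - (1 / 36 * (t - s)) • Y with hq
  have hsg : SupGrad t (fun y => Uf w y t) x q := by
    have := supGrad_of_max hs ht (concaveOn_Uf hg ht) (fun x' => hmax x' z)
    rw [sub_zero] at this
    exact this
  -- (1) bound of t q
  have hkt : ∀ y, Uf w y t ≤ w y t + κ * t := fun y => hkap w hw y t t ht
  have hwt : ∀ y, w y t ≤ Uf w y t := fun y => le_Uf hg ht y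
  have htabs : |t| ≤ 2 := by rw [abs_of_pos ht]; exact ht2
  have h1 : t * ‖q‖ ^ 2 / 2 ≤ κ * t + w x t - w (x + -(t • q)) t := by
    have h := hsg (-(t • q))
    simp only at h
    rw [inner_neg_right, real_inner_smul_right, real_inner_self_eq_norm_sq, norm_neg, norm_smul,
      mul_pow, Real.norm_eq_abs, sq_abs] at h
    have h2 := hkt x
    have h3 := hwt (x + -(t • q))
    have h4 : t ^ 2 * ‖q‖ ^ 2 / (2 * t) = t * ‖q‖ ^ 2 / 2 := by field_simp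
    rw [h4] at h
    linarith
  have hn : ‖t • q‖ ^ 2 = t ^ 2 * ‖q‖ ^ 2 := by
    rw [norm_smul, mul_pow, Real.norm_eq_abs, sq_abs]
  have h2 : ‖x + -(t • q)‖ ^ 2 ≤ 2 * ‖x‖ ^ 2 + 2 * ‖t • q‖ ^ 2 := by
    have := PropC.sq_le_two x (x + -(t • q))
    have e : x - (x + -(t • q)) = t • q := by abel
    rwa [e] at this
  have h3 := (abs_le.mp (hC1 x t htabs)).2
  have h4 := (abs_le.mp (hC1 (x + -(t • q)) t htabs)).1
  have h5 : t * ‖q‖ ^ 2 / 2 ≤ κ * t + 2 * C1 + 3 / 96 * ‖x‖ ^ 2 + 2 / 96 * ‖t • q‖ ^ 2 := by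
    linarith
  have h6 : ‖t • q‖ ^ 2 ≤ 4 * C' + 1 / 4 * ‖x‖ ^ 2 := by
    have a1 : t * (t * ‖q‖ ^ 2 / 2)
        ≤ t * (κ * t + 2 * C1 + 3 / 96 * ‖x‖ ^ 2 + 2 / 96 * ‖t • q‖ ^ 2) :=
      mul_le_mul_of_nonneg_left h5 ht.le
    have a2 : t * (κ * t + 2 * C1 + 3 / 96 * ‖x‖ ^ 2 + 2 / 96 * ‖t • q‖ ^ 2)
        ≤ 2 * (κ * 2 + 2 * C1 + 3 / 96 * ‖x‖ ^ 2 + 2 / 96 * ‖t • q‖ ^ 2) := by
      gcongr
    have a3 : t * (t * ‖q‖ ^ 2 / 2) = ‖t • q‖ ^ 2 / 2 := by rw [hn]; ring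
    rw [a3] at a1
    have a4 : 0 ≤ ‖t • q‖ ^ 2 := by positivity
    rw [hC']
    nlinarith [sq_nonneg ‖x‖]
  -- (2) bound of x
  have h7 : ‖x‖ ^ 2 ≤ 16 * ‖Y‖ ^ 2 + 16 * C' := by
    have e1 : x = (1 + 1 / 36 * (t * (t - s))) • Y + t • q := by
      have e2 : x = Y + t • ν := by
        rw [hY, hν, smul_smul, mul_one_div]; abel
      have e3 : (1 + 1 / 36 * (t * (t - s))) • Y + t • q = Y + t • ν := by rw [hq]; module
      rw [e3]; exact e2
    have h8 : ‖x‖ ≤ 2 * ‖Y‖ + ‖t • q‖ := by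
      have a0 : t * (t - s) ≤ 2 * 2 := by nlinarith
      have a1 : 0 ≤ t * (t - s) := mul_nonneg ht.le (by linarith)
      calc ‖x‖ = ‖(1 + 1 / 36 * (t * (t - s))) • Y + t • q‖ := by rw [← e1]
        _ ≤ ‖(1 + 1 / 36 * (t * (t - s))) • Y‖ + ‖t • q‖ := norm_add_le _ _
        _ ≤ 2 * ‖Y‖ + ‖t • q‖ := by
          rw [norm_smul, Real.norm_eq_abs, abs_of_nonneg (by positivity)]
          gcongr
          linarith
    have h9 : ‖x‖ ^ 2 ≤ (2 * ‖Y‖ + ‖t • q‖) ^ 2 := by gcongr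
    have h10 : (2 * ‖Y‖ + ‖t • q‖) ^ 2 ≤ 8 * ‖Y‖ ^ 2 + 2 * ‖t • q‖ ^ 2 := by
      nlinarith [sq_nonneg (2 * ‖Y‖ - ‖t • q‖)]
    linarith
  -- (3) the backward slope
  have h11 : w x t - B s w x t ≤ s * (w x t - B 1 w x t) := by
    have a1 := hw.sol.sup x t s 1 hs hs1
    rw [div_one] at a1
    linarith
  have h12 : -(2 * (1 / 6912) * ‖x‖ ^ 2 + C2) ≤ B 1 w x t := by
    refine PropC.B_ge_of one_pos (by norm_num) (by norm_num) (fun y => ?_) x
    exact (abs_le.mp (hC2 y (t - 1) (by rw [abs_le]; constructor <;> linarith))).1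
  have h13 := (abs_le.mp (hC2 x t htabs)).2
  have h14 : B s w x t ≤ w z (t - s) + ‖x - z‖ ^ 2 / (2 * s) := B_le hg hs x z t
  have h15 := hkt x
  have h16 : w x t - B 1 w x t ≤ 3 / 6912 * ‖x‖ ^ 2 + 2 * C2 := by linarith
  have h17 := mul_le_mul_of_nonneg_left h16 hs.le
  have h18 : Uf w x t - w z (t - s) - ‖x - z‖ ^ 2 / (2 * s)
      ≤ κ * t + s * (3 / 6912 * ‖x‖ ^ 2 + 2 * C2) := by linarith
  have h19 : val (Uf w) w (1 / 36) 0 s t x z
      = Uf w x t - w z (t - s) - ‖x - z‖ ^ 2 / (2 * s) - s * (‖Y‖ ^ 2 / 72) := by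
    unfold val Phi
    rw [sub_zero, ← hY]; ring
  have h20 : s * (3 / 6912 * ‖x‖ ^ 2 + 2 * C2)
      ≤ s * (3 / 6912 * (16 * ‖Y‖ ^ 2 + 16 * C') + 2 * C2) := by gcongr
  rw [h19]
  have h21 : s * (3 / 6912 * (16 * ‖Y‖ ^ 2 + 16 * C') + 2 * C2) - s * (‖Y‖ ^ 2 / 72)
      ≤ s * (48 / 6912 * (4 * C') + 2 * C2 - ‖Y‖ ^ 2 / 144) := by
    have hC'p : 0 ≤ C' := by positivity
    nlinarith [mul_nonneg hs.le hC'p]
  linarith

end Crest.Agent.R094.CUpB
end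

-- ▼ part R094/StageC

/-! Row 94: assembly of `StageC_stmt` from the lower bound at time `1+s` (helper431). -/

set_option autoImplicit false
set_option linter.unusedSectionVars false

namespace Crest.Agent.R094.GK

open Sol Set Filter Topology
open Crest.Agent.R094.CUpB (stageC_upper exists_max_val supGrad_of_max)

variable {V : Type*} [NormedAddCommGroup V] [InnerProductSpace ℝ V] [FiniteDimensional ℝ V]

/-- `StageC_stmt` from the lower bound at time `1+s` -/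
theorem stageC_of_low
    (hLow : ∀ K κ : ℝ, 0 < κ → IsKap V K κ → ∀ (w : V → ℝ → ℝ) (x₀ : V), Cls K w →
      Uf w x₀ 1 = w x₀ 1 + κ → ∃ C, 0 ≤ C ∧ ∀ s, 0 < s → s ≤ 1 / 2 →
        κ - C * s ≤ Vf (Uf w) w (1 / 36) 0 s (1 + s)) : StageC_stmt V := by
  intro K κ hκ hkap w x₀ hw htouch
  obtain ⟨C1, hC1, hup⟩ := stageC_upper hκ hkap hw
  obtain ⟨C2, hC2, hlow⟩ := hLow K κ hκ hkap w x₀ hw htouch
  have hU : SubPos (Uf w) := EnvSub K w hw
  set C3 := 2 * κ + 2 * C2 + C1 with hC3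
  have hC3n : 0 ≤ C3 := by positivity
  refine ⟨C3 + C1 + 12 * (C3 + C1 + 1), by positivity, ?_⟩
  intro t s ht ht1 hs hst
  have hs1 : s ≤ 1 / 2 := by linarith
  -- maximiser at time t
  obtain ⟨x, z, hmax⟩ := exists_max_val hU hw.sol (0 : V) (by norm_num : (0:ℝ) < 1 / 36) hs ht
  have hV : Vf (Uf w) w (1 / 36) 0 s t = val (Uf w) w (1 / 36) 0 s t x z := by
    apply le_antisymm
    · exact ciSup_le fun q => hmax q.1 q.2
    · exact le_ciSup (bddAbove_val hU hw.sol.grow 0 (by norm_num) hs ht) (x, z)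
  have h1 := hup t s ht (by linarith) hs (by linarith) hst x z hmax
  have hY0 : 0 ≤ ‖x - (t / s) • (x - z)‖ ^ 2 / 144 := by positivity
  -- upper bound at the reflected time
  have ht' : 0 < 2 + 2 * s - t := by linarith
  obtain ⟨x', z', hmax'⟩ := exists_max_val hU hw.sol (0 : V) (by norm_num : (0:ℝ) < 1 / 36) hs ht'
  have h2 := hup (2 + 2 * s - t) s ht' (by linarith) hs (by linarith) (by linarith) x' z' hmax'
  have hV' : Vf (Uf w) w (1 / 36) 0 s (2 + 2 * s - t) ≤ κ * (2 + 2 * s - t) + s * C1 := by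
    refine ciSup_le fun q => ?_
    have a1 := hmax' q.1 q.2
    have a2 : 0 ≤ s * (‖x' - ((2 + 2 * s - t) / s) • (x' - z')‖ ^ 2 / 144) := by positivity
    linarith
  -- convexity
  have h3 := propC (Uf w) w hU hw.sol (1 / 36) 0 s (1 + s) (1 + s - t) (by norm_num) hs
    (by linarith) (by linarith) (by linarith) (by
      have : (2 * (1 + s + (1 + s - t))) ^ 2 ≤ (6 : ℝ) ^ 2 := by
        apply sq_le_sq' <;> linarith
      linarith)
  have e1 : 1 + s - (1 + s - t) = t := by ring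
  have e2 : 1 + s + (1 + s - t) = 2 + 2 * s - t := by ring
  rw [e1, e2] at h3
  have h4 := hlow s hs hs1
  have h5 : κ * t - C3 * s ≤ val (Uf w) w (1 / 36) 0 s t x z := by
    rw [← hV, hC3]; linarith
  have hCs : 0 ≤ 12 * (C3 + C1 + 1) * s := by positivity
  have hC1s : 0 ≤ C1 * s := by positivity
  have hC3s : 0 ≤ C3 * s := by positivity
  refine ⟨?_, x, z, hmax, ?_, ?_, ?_⟩
  · intro a b
    have a1 := hmax a b
    have a2 : 0 ≤ s * (‖x - (t / s) • (x - z)‖ ^ 2 / 144) := by positivity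
    linarith
  · linarith
  · have h6 : s * (‖x - (t / s) • (x - z)‖ ^ 2 / 144) ≤ s * (C3 + C1) := by linarith
    have h7 : ‖x - (t / s) • (x - z)‖ ^ 2 / 144 ≤ C3 + C1 := le_of_mul_le_mul_left h6 hs
    have h8 : ‖x - (t / s) • (x - z)‖ ^ 2 ≤ (12 * (C3 + C1 + 1)) ^ 2 := by nlinarith
    have h9 := abs_le_of_sq_le_sq h8 (by positivity)
    have h10 := (le_abs_self _).trans h9
    linarith
  · have := supGrad_of_max (Y₀ := (0 : V)) (c := 1 / 36) hs ht (CUpB.concaveOn_Uf hw.sol.grow ht)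
      (fun x' => hmax x' z)
    rwa [sub_zero] at this

end Crest.Agent.R094.GK
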